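import Vale.Agent.P287Q.H3.St

/-!
# Holomorphic vector bundles on analytic orbispaces, total spaces and projective bundles
-/

namespace Vale.Agent.P287Q.H3

open Set Function Topology Filter P291Z P269 P269.Ch P269.Holo P269.Mono

variable {A A' B : Type} [NormedAddCommGroup A] [NormedSpace ℂ A] [NormedAddCommGroup A']
  [NormedSpace ℂ A'] [NormedAddCommGroup B] [NormedSpace ℂ B] {Y Y' : Ch.Sp} {ι : Y.T → A}
  {ι' : Y'.T → A'}

theorem A2_fd [FiniteDimensional ℂ B] {S : Set A} {a : A} {h : A → B} (h1 : AnalyticAt ℂ h a)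
    (h2 : ∀ᶠ z in 𝓝 a, z ∈ S ↔ h z = 0) : An S a :=
  let e : B ≃L[ℂ] (Fin (Module.finrank ℂ B) → ℂ) := ContinuousLinearEquiv.ofFinrankEq (by simp)
  ⟨_, fun z => e (h z), (e.toContinuousLinearMap.analyticAt _).comp h1,
    h2.mono fun _ hz => hz.trans e.map_eq_zero_iff.symm⟩

/-- zero sets of holomorphic functions -/
theorem A2_an {T : Type} [TopologicalSpace T] {ι : T → A} (he : IsEmbedding ι) {t : T}
    (ha : An (range ι) (ι t)) [FiniteDimensional ℂ B] {f : T → B} (hf : HolAt ι f t) {S : Set T}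
    (hS : ∀ᶠ u in 𝓝 t, u ∈ S ↔ f u = 0) : An (ι '' S) (ι t) := by
  obtain ⟨k, h, h1, h2⟩ := ha
  obtain ⟨Φ, h3, h4⟩ := hf
  refine A2_fd (h := fun z => (h z, Φ z)) (h1.prod h3) ?_
  have h5 := h4.and hS
  rw [he.isInducing.nhds_eq_comap, eventually_comap] at h5
  filter_upwards [h2, h5] with z a b
  have c : ∀ u, ι u = z → (u ∈ S ↔ Φ z = 0) := fun u hu => by
    rw [(b u hu).2, (b u hu).1, hu]
  rw [Prod.mk_eq_zero, ← a]
  exact ⟨fun ⟨u, d, e⟩ => ⟨⟨u, e⟩, (c u e).1 d⟩, fun ⟨⟨u, e⟩, d⟩ => ⟨u, (c u e).2 d, e⟩⟩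

theorem A2_image [FiniteDimensional ℂ A] [FiniteDimensional ℂ B] {k : ℕ} {S : Set A} (h : Small k S) {f : A → B}
    (hf : ∀ x ∈ S, AnalyticAt ℂ f x) : Small k (f '' S) :=
  have := FiniteDimensional.complete ℂ B
  h.image fun x hx => ((hf x hx).contDiffAt (n := 1)).restrict_scalars ℝ

theorem A2_small [FiniteDimensional ℂ A] [FiniteDimensional ℂ A'] [FiniteDimensional ℂ B] {k : ℕ}
    {S : Set A}
    (h : Small k S) {f : A × A' → B} (hf : ∀ a ∈ S, ∀ u, AnalyticAt ℂ f (a, u)) :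
    Small (k + 2 * Module.finrank ℂ A') (f '' S ×ˢ univ) := by
  rw [← finrank_real]
  exact A2_image h.prod fun x hx => hf _ hx.1 _

namespace Coc

variable {τ : Y.T → Y.G} {t : Y.T} (h : Coc Y ι τ t)
include h

theorem A2_τ : Tendsto τ (𝓝 t) (𝓝 1) := h.one ▸ h.cont.self_of_nhds.tendsto

theorem A2_t1 : Tendsto (fun s => ((τ s)⁻¹, s)) (𝓝 t) (𝓝 (1, t)) :=
  (inv_one (G := Y.G) ▸ h.A2_τ.inv).prodMk_nhds tendsto_id

theorem A2_r0 : (τ t)⁻¹ • t = t := by rw [h.one, inv_one, one_smul]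

theorem A2_cont : ContinuousAt (fun s => (τ s)⁻¹ • s) t :=
  h.cont.self_of_nhds.inv.smul continuousAt_id

theorem A2_ret : Tendsto (fun s => (τ s)⁻¹ • s) (𝓝 t) (𝓝 t) := by
  have := h.A2_cont.tendsto
  rwa [h.A2_r0] at this

theorem A2_t2 : Tendsto (fun s => (τ s, (τ s)⁻¹ • s)) (𝓝 t) (𝓝 (1, t)) :=
  h.A2_τ.prodMk_nhds h.A2_ret

theorem A2_one : ∀ᶠ s in 𝓝 t, τ ((τ s)⁻¹ • s) = 1 :=
  (h.A2_t1.eventually h.eqv).mono fun _ e => e.trans (inv_mul_cancel _)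

theorem A2_hol {f : Y.T → B} (hf : HolAt ι f t) : HolAt ι (fun s => f ((τ s)⁻¹ • s)) t :=
  HolAt.comp (u := fun s => (τ s)⁻¹ • s) (by rw [h.A2_r0]; exact hf) h.A2_cont h.hol

end Coc

/-- one slice at every point suffices -/
theorem A2_dim [FiniteDimensional ℂ A] (hι : Continuous ι) {m : ℕ}
    (h : ∀ t, ∃ τ, Coc Y ι τ t ∧ ∃ U ∈ 𝓝 t, Small (2 * m) (ι '' (U ∩ {s | τ s = 1}))) :
    Dim Y ι m := by
  intro t τ' h'
  have := FiniteDimensional.complete ℂ A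
  obtain ⟨τ, h1, U, h2, h3⟩ := h t
  obtain ⟨Φ, h4, h5⟩ := h'.hol
  have h6 := (h1.A2_ret.eventually ((h5.and h2).and
    (hι.continuousAt.eventually h4.eventually_analyticAt))).and
    (h1.A2_one.and (h1.A2_t1.eventually h'.eqv))
  refine ⟨_, h6, (A2_image (h3.mono (inter_subset_left (t := {a | AnalyticAt ℂ Φ a})))
    fun x hx => hx.2).mono ?_⟩
  rintro _ ⟨s, ⟨⟨⟨⟨a, b⟩, c⟩, d, e⟩, f⟩, rfl⟩
  refine ⟨_, ⟨⟨_, ⟨b, d⟩, rfl⟩, c⟩, a.symm.trans ?_⟩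
  beta_reduce
  rw [show τ' ((τ s)⁻¹ • s) = (τ s)⁻¹ * τ' s from e, show τ' s = 1 from f, mul_one, inv_smul_smul]

namespace Frm

variable {E : VB Y} {ψ : Y.T → (Fin E.r → ℂ) →L[ℂ] E.W} {t : Y.T} (h : Frm E ι ψ t)
include h

theorem inj : Injective (ψ t) := by
  have h1 : LinearMap.range (ψ t : (Fin E.r → ℂ) →ₗ[ℂ] E.W) = E.F t :=
    Submodule.ext fun w => (h.rng.self_of_nhds w).symm
  have h2 := LinearMap.finrank_range_add_finrank_ker (ψ t : (Fin E.r → ℂ) →ₗ[ℂ] E.W)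
  rw [h1, E.rank, Module.finrank_fin_fun] at h2
  exact LinearMap.ker_eq_bot.1 (Submodule.finrank_eq_zero.1 (by omega))

theorem isFrame : IsFrame ι {x : Y.T × E.W | x.2 ∈ E.F x.1} ψ t := ⟨h.hol, h.inj, h.rng⟩

theorem mem : ∀ᶠ s in 𝓝 t, ∀ a, ψ s a ∈ E.F s := h.rng.mono fun _ e a => (e _).2 ⟨a, rfl⟩

/-- holomorphic coordinates in the frame -/
theorem leftInv (hι : ContinuousAt ι t) : ∃ p : Y.T → E.W →L[ℂ] Fin E.r → ℂ, HolAt ι p t ∧
    ∀ᶠ s in 𝓝 t, (∀ a, p s (ψ s a) = a) ∧ ∀ w ∈ E.F s, ψ s (p s w) = w := by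
  obtain ⟨p, h1, h2⟩ := h.isFrame.exists_leftInv hι
  refine ⟨p, h1, ?_⟩
  filter_upwards [h2, h.rng] with s a b
  refine ⟨a, fun w hw => ?_⟩
  obtain ⟨u, rfl⟩ := (b w).1 hw
  rw [a]

variable {τ : Y.T → Y.G} {Z : Type} [TopologicalSpace Z] {κ : Z → A'} {b : Z → Y.T}
  {v : Z → E.W} {z : Z}

/-- moving vectors to the slice is holomorphic -/
theorem hol_inv (hc : Coc Y ι τ t) (hι : ContinuousAt ι t) (h0 : b z = t) (hb : ContinuousAt b z)
    (hκ : HolAt κ (fun y => ι (b y)) z) (hv : HolAt κ v z) (hm : ∀ᶠ y in 𝓝 z, v y ∈ E.F (b y)) :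
    HolAt κ (fun y => (τ (b y))⁻¹ • v y) z := by
  subst h0
  obtain ⟨p, h1, h2⟩ := h.leftInv hι
  refine ((((hc.A2_hol h.hol).clm_comp h1).comp hb hκ).apply hv).congr ?_
  filter_upwards [hb.eventually h2, hb.eventually (hc.A2_t1.eventually h.eqv), hm] with y a c d
  exact (c _).trans (congrArg _ (a.2 _ d))

/-- moving vectors from the slice is holomorphic -/
theorem hol_smul (hc : Coc Y ι τ t) (hι : ContinuousAt ι t) (h0 : b z = t) (hb : ContinuousAt b z)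
    (hκ : HolAt κ (fun y => ι (b y)) z) (hv : HolAt κ v z)
    (hm : ∀ᶠ y in 𝓝 z, v y ∈ E.F ((τ (b y))⁻¹ • b y)) : HolAt κ (fun y => τ (b y) • v y) z := by
  subst h0
  obtain ⟨p, h1, h2⟩ := h.leftInv hι
  refine (((h.hol.clm_comp (hc.A2_hol h1)).comp hb hκ).apply hv).congr ?_
  filter_upwards [hb.eventually (hc.A2_ret.eventually h2),
    hb.eventually (hc.A2_t2.eventually h.eqv), hm] with y a c d
  have e := c (p ((τ (b y))⁻¹ • b y) (v y))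
  simp only [smul_inv_smul] at e
  exact e.trans (congrArg _ (a.2 _ d))

end Frm

/-- frames with values in any model space -/
theorem frm_of {E : VB Y} {t : Y.T} [FiniteDimensional ℂ B] (ψ : Y.T → B →L[ℂ] E.W)
    (hr : Module.finrank ℂ B = E.r) (hol : HolAt ι ψ t)
    (rng : ∀ᶠ s in 𝓝 t, ∀ w, w ∈ E.F s ↔ w ∈ range (ψ s))
    (eqv : ∀ᶠ p : Y.G × Y.T in 𝓝 (1, t), ∀ a, ψ (p.1 • p.2) a = p.1 • ψ p.2 a) :
    ∃ ψ', Frm E ι ψ' t :=
  let e : (Fin E.r → ℂ) ≃L[ℂ] B :=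
    ContinuousLinearEquiv.ofFinrankEq (by rw [Module.finrank_fin_fun, hr])
  ⟨fun s => (ψ s).comp (e : (Fin E.r → ℂ) →L[ℂ] B), hol.clm_comp (HolAt.const _),
    rng.mono fun s hs w => (hs w).trans (Set.ext_iff.1 (e.surjective.range_comp (ψ s)) w).symm,
    eqv.mono fun _ hp a => hp (e a)⟩

theorem A2_act (t : Y.T) : Tendsto (fun p : Y.G × Y.T => p.1 • p.2) (𝓝 (1, t)) (𝓝 t) := by
  simpa using (continuous_smul (M := Y.G) (X := Y.T)).tendsto (1, t)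

theorem A2_snd (t : Y.T) : Tendsto (fun p : Y.G × Y.T => p.2) (𝓝 (1, t)) (𝓝 t) :=
  continuous_snd.tendsto _

theorem A2_mor (m : Mor Y' Y) (t : Y'.T) :
    Tendsto (fun p : Y'.G × Y'.T => (m.ρ p.1, m.f p.2)) (𝓝 (1, t)) (𝓝 (1, m.f t)) := by
  have := (m.cρ.prodMap m.cf).tendsto (1, t)
  rwa [Prod.map_apply, map_one] at this

theorem hv_trivB (W : Type) [NormedAddCommGroup W] [NormedSpace ℂ W] [FiniteDimensional ℂ W] :
    HV (trivB Y W) ι := fun _ =>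
  frm_of (E := trivB Y W) (B := W) (fun _ => ContinuousLinearMap.id ℂ W) rfl (HolAt.const _)
    (.of_forall fun _ w => iff_of_true trivial ⟨w, rfl⟩) (.of_forall fun _ _ => rfl)

/-- a character with holomorphic local frames -/
theorem hv_char_of {χ : Y.G →ₜ* ℂˣ} (hι : Continuous ι) (h : ∀ t, ∃ c : Y.T → ℂ, HolAt ι c t ∧
    c t ≠ 0 ∧ ∀ᶠ p : Y.G × Y.T in 𝓝 (1, t), c (p.1 • p.2) = χ p.1 * c p.2) : HV (char χ) ι := by
  intro t
  obtain ⟨c, h1, h2, h3⟩ := h t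
  refine frm_of (E := char χ) (B := ℂ) (fun s => c s • ContinuousLinearMap.id ℂ ℂ)
    (Module.finrank_self ℂ) (h1.smul (HolAt.const _)) ?_ (h3.mono fun p hp a => ?_)
  · filter_upwards [(h1.cont hι.continuousAt).eventually_ne h2] with s hs w
    exact iff_of_true trivial ⟨(c s)⁻¹ * (show ℂ from w), mul_inv_cancel_left₀ hs _⟩
  · change c (p.1 • p.2) * a = χ p.1 * (c p.2 * a)
    rw [hp, mul_assoc]

namespace HV

variable {E E' : VB Y}

theorem char_fun {χ : Y.G →ₜ* ℂˣ} (h : HV (char χ) ι) (t : Y.T) : ∃ c : Y.T → ℂ, HolAt ι c t ∧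
    c t ≠ 0 ∧ ∀ᶠ p : Y.G × Y.T in 𝓝 (1, t), c (p.1 • p.2) = χ p.1 * c p.2 := by
  obtain ⟨ψ, hψ⟩ := h t
  exact ⟨fun s => ψ s 1, hψ.hol.apply (HolAt.const _), fun e =>
    one_ne_zero (congrFun (hψ.inj (e.trans (map_zero _).symm)) (0 : Fin 1)),
    hψ.eqv.mono fun _ hp => hp 1⟩

theorem char_mul {χ χ' : Y.G →ₜ* ℂˣ} (hι : Continuous ι) (h : HV (char χ) ι)
    (h' : HV (char χ') ι) : HV (char (χ * χ')) ι := hv_char_of hι fun t => by
  obtain ⟨c, h1, h2, h3⟩ := h.char_fun t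
  obtain ⟨d, k1, k2, k3⟩ := h'.char_fun t
  refine ⟨fun s => c s * d s, h1.smul k1, mul_ne_zero h2 k2, ?_⟩
  filter_upwards [h3, k3] with p a b
  rw [a, b]
  exact mul_mul_mul_comm _ _ _ _

theorem char_inv {χ : Y.G →ₜ* ℂˣ} (hι : Continuous ι) (h : HV (char χ) ι) :
    HV (char χ⁻¹) ι := hv_char_of hι fun t => by
  obtain ⟨c, h1, h2, h3⟩ := h.char_fun t
  refine ⟨fun s => (c s)⁻¹, h1.comp_an (analyticAt_inv h2), inv_ne_zero h2, h3.mono fun p a => ?_⟩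
  simp only [a, mul_inv]
  exact congrArg (· * _) (Units.val_inv_eq_inv_val _).symm

theorem pb (h : HV E ι) {m : Mor Y' Y} (hm : HM m ι' ι) : HV (E.pb m) ι' := fun t => by
  obtain ⟨ψ, hψ⟩ := h (m.f t)
  refine ⟨fun s => ψ (m.f s), hψ.hol.comp m.cf.continuousAt (hm t),
    m.cf.continuousAt.eventually hψ.rng, ((A2_mor m t).eventually hψ.eqv).mono fun p hp a => ?_⟩
  exact (congrArg (ψ · a) (m.eqv _ _)).trans (hp a)

theorem chr {χ : Y.G →ₜ* ℂˣ} (h : HV (char χ) ι) {m : Mor Y' Y} (hm : HM m ι' ι) :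
    HV (char (m.chr χ)) ι' := h.pb hm

theorem tw (h : HV E ι) {m : Mor Y' Y} (hm : HM m ι' ι) (hι : Continuous ι') {χ : Y'.G →ₜ* ℂˣ}
    (hχ : HV (char χ) ι') : HV (E.tw m χ) ι' := fun t => by
  obtain ⟨ψ, hψ⟩ := h (m.f t)
  obtain ⟨c, h1, h2, h3⟩ := hχ.char_fun t
  refine ⟨fun s => (c s • ψ (m.f s) : (Fin E.r → ℂ) →L[ℂ] E.W),
    h1.smul (hψ.hol.comp m.cf.continuousAt (hm t)), ?_, ?_⟩
  · filter_upwards [m.cf.continuousAt.eventually hψ.rng,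
      (h1.cont hι.continuousAt).eventually_ne h2] with s a b w
    refine (a w).trans ⟨fun ⟨u, e⟩ => ⟨(c s)⁻¹ • u, ?_⟩, fun ⟨u, e⟩ => ⟨c s • u, ?_⟩⟩
    · change c s • ψ (m.f s) ((c s)⁻¹ • u) = w
      rw [map_smul, smul_inv_smul₀ b, e]
    · exact (map_smul _ _ _).trans e
  · filter_upwards [(A2_mor m t).eventually hψ.eqv, h3] with p a b
    change ∀ u : Fin E.r → ℂ,
      c (p.1 • p.2) • ψ (m.f (p.1 • p.2)) u = (χ p.1 : ℂ) • m.ρ p.1 • c p.2 • ψ (m.f p.2) u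
    intro u
    rw [m.eqv, a, b, mul_smul, smul_comm (m.ρ p.1)]

theorem sum (h : HV E ι) (h' : HV E' ι) : HV (E.sum E') ι := fun t => by
  obtain ⟨ψ, hψ⟩ := h t
  obtain ⟨φ, hφ⟩ := h' t
  refine frm_of (E := E.sum E') (B := (Fin E.r → ℂ) × (Fin E'.r → ℂ))
    (fun s => ((ψ s).comp (ContinuousLinearMap.fst ℂ _ _)).prod
      ((φ s).comp (ContinuousLinearMap.snd ℂ _ _))) (by simp)
    ((hψ.hol.clm_comp (HolAt.const _)).prodL (hφ.hol.clm_comp (HolAt.const _))) ?_ ?_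
  · filter_upwards [hψ.rng, hφ.rng] with s a b w
    exact (and_congr (a w.1) (b w.2)).trans ⟨fun ⟨⟨u, e⟩, ⟨u', e'⟩⟩ => ⟨(u, u'), Prod.ext e e'⟩,
      fun ⟨u, e⟩ => ⟨⟨u.1, congrArg Prod.fst e⟩, ⟨u.2, congrArg Prod.snd e⟩⟩⟩
  · filter_upwards [hψ.eqv, hφ.eqv] with p a b u
    exact Prod.ext (a u.1) (b u.2)

theorem holSub (h : HV E ι) (t : Y.T) : HolSub ι {x : Y.T × E.W | x.2 ∈ E.F x.1} E.r t :=
  let ⟨ψ, hψ⟩ := h t
  ⟨ψ, hψ.isFrame⟩

/-- images under holomorphic equivariant families of linear maps -/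
theorem map (h : HV E ι) (L : Y.T → E.W →L[ℂ] E'.W) (hol : ∀ t, HolAt ι L t)
    (eqv : ∀ (g : Y.G) t, ∀ w ∈ E.F t, L (g • t) (g • w) = g • L t w)
    (rng : ∀ t w, w ∈ E'.F t ↔ ∃ v ∈ E.F t, L t v = w) (hr : E.r = E'.r) : HV E' ι := fun t => by
  obtain ⟨ψ, hψ⟩ := h t
  refine frm_of (B := Fin E.r → ℂ) (fun s => (L s).comp (ψ s)) (by simpa using hr)
    ((hol t).clm_comp hψ.hol) (hψ.rng.mono fun s a w => (rng s w).trans
      ⟨fun ⟨v, b, c⟩ => let ⟨u, d⟩ := (a v).1 b; ⟨u, (congrArg (L s) d).trans c⟩,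
        fun ⟨u, d⟩ => ⟨_, (a _).2 ⟨u, rfl⟩, d⟩⟩) ?_
  filter_upwards [hψ.eqv, (A2_snd t).eventually hψ.mem] with p a b u
  exact (congrArg (L (p.1 • p.2)) (a u)).trans (eqv _ _ _ (b u))

/-- the same bundle in another presentation -/
theorem congr (h : HV E ι) (e : E.W ≃L[ℂ] E'.W) (eqv : ∀ (g : Y.G) w, e (g • w) = g • e w)
    (rng : ∀ t w, e w ∈ E'.F t ↔ w ∈ E.F t) (hr : E.r = E'.r) : HV E' ι :=
  h.map (fun _ => (e : E.W →L[ℂ] E'.W)) (fun _ => HolAt.const _) (fun g _ w _ => eqv g w)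
    (fun t w => ⟨fun a => ⟨e.symm w, (rng t _).1 (by rwa [e.apply_symm_apply]),
      e.apply_symm_apply w⟩, fun ⟨v, a, b⟩ => b ▸ (rng t v).2 a⟩) hr

/-- holomorphic invariant subbundles -/
theorem of_inj (hY : IsAS Y ι) (h : HV E ι) (j : E'.W →L[ℂ] E.W) (hj : Injective j)
    (eqv : ∀ (g : Y.G) w, j (g • w) = g • j w) (le : ∀ t, ∀ w ∈ E'.F t, j w ∈ E.F t)
    (hol : ∀ t, HolSub ι {x : Y.T × E'.W | x.2 ∈ E'.F x.1} E'.r t) : HV E' ι := fun t => by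
  obtain ⟨ψ, hψ⟩ := h t
  obtain ⟨τ, hτ⟩ := hY.coc t
  obtain ⟨l, hl⟩ := hol t
  obtain ⟨q, hq⟩ := ContinuousLinearMap.HasLeftInverse.of_injective_of_finiteDimensional hj
  have h1 := hτ.A2_ret.eventually hl.mem
  refine ⟨fun s => (lin E'.W (τ s)).comp (l ((τ s)⁻¹ • s)), HolAt.of_apply fun a => ?_, ?_, ?_⟩
  · refine ((hψ.hol_smul hτ hY.emb.continuous.continuousAt (b := fun s => s) rfl continuousAt_id
      HolAt.self (((hτ.A2_hol hl.hol).apply (HolAt.const a)).clm j)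
      (h1.mono fun s e => le _ _ ((e _).2 ⟨a, rfl⟩))).clm q).congr (.of_forall fun s => ?_)
    simp only [← eqv]
    exact hq _
  · refine h1.mono fun s e w => (E'.smul_mem_iff (g := (τ s)⁻¹)).symm.trans ((e _).trans ?_)
    exact exists_congr fun a => eq_inv_smul_iff
  · refine hτ.eqv.mono fun p e a => ?_
    change τ (p.1 • p.2) • l ((τ (p.1 • p.2))⁻¹ • p.1 • p.2) a = p.1 • τ p.2 • l _ a
    rw [e, mul_smul, mul_inv_rev, mul_smul, inv_smul_smul]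

theorem sub (hY : IsAS Y ι) (h : HV E ι) {F : Y.T → Submodule ℂ E.W} {r : ℕ}
    {closed : IsClosed {x : Y.T × E.W | x.2 ∈ F x.1}} {rank : ∀ t, Module.finrank ℂ (F t) = r}
    {inv : ∀ (g : Y.G) t w, w ∈ F t → g • w ∈ F (g • t)} (le : ∀ t, F t ≤ E.F t)
    (hol : ∀ t, HolSub ι {x : Y.T × E.W | x.2 ∈ F x.1} r t) : HV (E.sub F r closed rank inv) ι :=
  h.of_inj (E' := E.sub F r closed rank inv) hY (ContinuousLinearMap.id ℂ E.W) injective_id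
    (fun _ _ => rfl) (fun t _ a => le t a) hol

end HV

/-- the locus where a holomorphic section lies in a holomorphic subbundle -/
theorem an_mem {T W : Type} [TopologicalSpace T] [NormedAddCommGroup W] [NormedSpace ℂ W]
    [FiniteDimensional ℂ W] {ι : T → A} (he : IsEmbedding ι) {t : T} (ha : An (range ι) (ι t))
    {V : Set (T × W)} {r : ℕ} (hV : HolSub ι V r t) {s : T → W} (hs : HolAt ι s t) {S : Set T}
    (hS : ∀ᶠ u in 𝓝 t, u ∈ S ↔ (u, s u) ∈ V) : An (ι '' S) (ι t) := by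
  obtain ⟨l, hl⟩ := hV
  obtain ⟨p, h1, h2⟩ := hl.exists_leftInv he.continuous.continuousAt
  refine A2_an he ha (hs.sub (hl.hol.apply (h1.apply hs))) ?_
  filter_upwards [hS, hl.mem, h2] with u a b c
  rw [a, b, sub_eq_zero]
  exact ⟨fun ⟨x, e⟩ => by rw [← e, c], fun e => ⟨_, e.symm⟩⟩

theorem IsAS.an_mem (hY : IsAS Y ι) {E : VB Y} (hE : HV E ι) {s : Y.T → E.W} {t : Y.T}
    (hs : HolAt ι s t) : An (ι '' {u | s u ∈ E.F u}) (ι t) :=
  H3.an_mem hY.emb (hY.an t) (hE.holSub t) hs (.of_forall fun _ => Iff.rfl)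

section tot

variable (hY : IsAS Y ι) {E : VB Y} (hE : HV E ι)
include hY hE

theorem A2_anV (t : Y.T) (w : E.W) {S : Set (Y.T × E.W)}
    (hS : ∀ᶠ u in 𝓝 (t, w), u ∈ S ↔ u.2 ∈ E.F u.1) : An (Prod.map ι id '' S) (ι t, w) := by
  obtain ⟨k, h, h1, h2⟩ := hY.an t
  refine an_mem (hY.emb.prodMap IsEmbedding.id) (t := (t, w))
    ⟨k, fun z => h z.1, h1.comp (f := Prod.fst) (x := (ι t, w)) analyticAt_fst,
      ((continuous_fst.tendsto (ι t, w)).eventually h2).mono fun z a => ?_⟩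
    (V := {x | x.2 ∈ E.F x.1.1}) ((hE.holSub t).pull (u := Prod.fst) (t' := (t, w))
      continuousAt_fst (HolAt.of_an (Φ := Prod.fst) analyticAt_fst) (.of_forall fun _ _ => Iff.rfl))
    (HolAt.of_an (Φ := Prod.snd) analyticAt_snd) hS
  rw [← a, range_prodMap, range_id]
  exact and_iff_left trivial

theorem A2_cocV (x : E.V) {τ : Y.T → Y.G} (hτ : Coc Y ι τ x.1.1) :
    Coc E.tot (fun x : E.V => (ι x.1.1, x.1.2)) (fun y : E.V => τ y.1.1) x := by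
  obtain ⟨ψ, hψ⟩ := hE x.1.1
  have c : Continuous fun y : E.V => y.1.1 := by fun_prop
  have h1 : HolAt (fun x : E.V => (ι x.1.1, x.1.2)) (fun y : E.V => ι y.1.1) x :=
    HolAt.of_an (Φ := Prod.fst) analyticAt_fst
  exact ⟨hτ.one, (c.continuousAt.eventually hτ.cont).mono fun y a =>
      a.comp (f := fun y : E.V => y.1.1) c.continuousAt,
    ((continuous_id.prodMap c).tendsto ((1 : Y.G), x)).eventually hτ.eqv,
    (hτ.hol.comp (u := fun y : E.V => y.1.1) c.continuousAt h1).prod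
      (hψ.hol_inv (b := fun y : E.V => y.1.1) (v := fun y : E.V => y.1.2) hτ
        hY.emb.continuous.continuousAt rfl c.continuousAt h1
        (HolAt.of_an (Φ := Prod.snd) analyticAt_snd) (.of_forall fun y => y.2))⟩

theorem isAS_tot : IsAS E.tot fun x : E.V => (ι x.1.1, x.1.2) := by
  have := hY.fd
  refine ⟨inferInstance, (hY.emb.prodMap IsEmbedding.id).comp IsEmbedding.subtypeVal, fun x => ?_,
    fun g x => ?_, fun x => let ⟨τ, hτ⟩ := hY.coc _; ⟨_, A2_cocV hY hE x hτ⟩⟩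
  · have e : range (fun x : E.V => (ι x.1.1, x.1.2)) = Prod.map ι id '' {x | x.2 ∈ E.F x.1} :=
      Set.ext fun z => ⟨fun ⟨y, a⟩ => ⟨y.1, y.2, a⟩, fun ⟨y, a, b⟩ => ⟨⟨y, a⟩, b⟩⟩
    exact e ▸ A2_anV hY hE _ _ (.of_forall fun _ => Iff.rfl)
  · exact ((hY.act g _).comp (u := fun y : E.V => y.1.1) (by fun_prop)
      (HolAt.of_an (Φ := Prod.fst) analyticAt_fst)).prod
      ((HolAt.of_an (Φ := Prod.snd) analyticAt_snd).clm (lin E.W (show Y.G from g)))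

theorem dim_tot {m : ℕ} (hm : Dim Y ι m) :
    Dim E.tot (fun x : E.V => (ι x.1.1, x.1.2)) (m + E.r) := by
  have := hY.fd
  refine A2_dim (isAS_tot hY hE).emb.continuous fun x : E.V => ?_
  obtain ⟨τ, hτ⟩ := hY.coc x.1.1
  obtain ⟨U, h1, h2⟩ := hm _ τ hτ
  obtain ⟨ψ, ⟨Ψ, h3, h4⟩, h5, -⟩ := hE x.1.1
  have c : Continuous fun y : E.V => y.1.1 := by fun_prop
  have := FiniteDimensional.complete ℂ ((Fin E.r → ℂ) →L[ℂ] E.W)
  refine ⟨_, A2_cocV hY hE x hτ, _, c.continuousAt.eventually (((h4.and h5).and h1).and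
    (hY.emb.continuous.continuousAt.eventually h3.eventually_analyticAt)), ?_⟩
  have h6 := A2_small (h2.mono (inter_subset_left (t := {a | AnalyticAt ℂ Ψ a})))
    (f := fun q : A × (Fin E.r → ℂ) => (q.1, Ψ q.1 q.2)) fun a ha u =>
      analyticAt_fst.prod (an_apply (AnalyticAt.comp (f := Prod.fst) (x := (a, u)) ha.2
        analyticAt_fst) analyticAt_snd)
  rw [Module.finrank_fin_fun, ← mul_add] at h6
  refine h6.mono ?_
  rintro _ ⟨y, ⟨⟨⟨⟨a, b⟩, d⟩, e⟩, f⟩, rfl⟩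
  obtain ⟨u, hu⟩ := (b _).1 (show E.V from y).2
  exact ⟨(_, u), ⟨⟨⟨_, ⟨d, f⟩, rfl⟩, e⟩, trivial⟩, Prod.ext rfl (by rw [← hu, a])⟩

end tot

theorem hm_proj (E : VB Y) : HM E.proj (fun x : E.V => (ι x.1.1, x.1.2)) ι := fun _ =>
  HolAt.of_an (Φ := Prod.fst) analyticAt_fst

theorem hm_pp (E : VB Y) : HM E.pp (fun x : E.PT => (ι x.t, x.w)) ι := fun _ =>
  HolAt.of_an (Φ := Prod.fst) analyticAt_fst

theorem stTot : StTot := fun _ _ _ _ _ hY E hE =>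
  ⟨isAS_tot hY hE, hm_proj E, fun _ => dim_tot hY hE⟩

open Classical in
/-- a nonzero number as a unit -/
noncomputable def A2un (z : ℂ) : ℂˣ := if h : z = 0 then 1 else Units.mk0 z h

theorem A2un_val {z : ℂ} (h : z ≠ 0) : (A2un z : ℂ) = z := by rw [A2un, dif_neg h]; rfl

theorem A2un_cont {z : ℂ} (h : z ≠ 0) : ContinuousAt A2un z :=
  Units.isEmbedding_val₀.continuousAt_iff.2 (continuousAt_id.congr
    ((eventually_ne_nhds h).mono fun _ a => (A2un_val a).symm))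

section ps

variable (hY : IsAS Y ι) {E : VB Y} (hE : HV E ι)
include hY

theorem A2_cocP (x : E.PT) {τ : Y.T → Y.G} (hτ : Coc Y ι τ x.t)
    {ψ : Y.T → (Fin E.r → ℂ) →L[ℂ] E.W} (hψ : Frm E ι ψ x.t) :
    ∃ (c : E.PT → ℂ) (l : (Fin E.r → ℂ) →L[ℂ] ℂ), HolAt (fun x : E.PT => (ι x.t, x.w)) c x ∧
      c x = 1 ∧ (∀ᶠ q : (Y.G × ℂˣ) × E.PT in 𝓝 (1, x), c (q.1 • q.2) = q.1.2 * c q.2) ∧
      (∀ᶠ y in 𝓝 x, ∃ a, l a = c y ∧ ψ y.t a = y.w) ∧
      Coc E.PS (fun x : E.PT => (ι x.t, x.w)) (fun y : E.PT => (τ y.t, A2un (c y))) x := by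
  have hι := hY.emb.continuous
  obtain ⟨p, h1, h2⟩ := hψ.leftInv hι.continuousAt
  obtain ⟨l, hl⟩ := SeparatingDual.exists_eq_one (R := ℂ) (x := p x.t x.w) fun e =>
    x.ne (by rw [← h2.self_of_nhds.2 _ x.mem, e, map_zero])
  have ct : Continuous (VB.PT.t : E.PT → Y.T) := VB.PT.continuous_t
  have cι : Continuous fun x : E.PT => (ι x.t, x.w) := by fun_prop
  have k1 : HolAt (fun x : E.PT => (ι x.t, x.w)) (fun y : E.PT => ι y.t) x :=
    HolAt.of_an (Φ := Prod.fst) analyticAt_fst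
  have k2 : HolAt (fun x : E.PT => (ι x.t, x.w)) (fun y : E.PT => y.w) x :=
    HolAt.of_an (Φ := Prod.snd) analyticAt_snd
  have k3 : HolAt (fun x : E.PT => (ι x.t, x.w)) (fun y : E.PT => l (p y.t y.w)) x :=
    ((h1.comp ct.continuousAt k1).apply k2).clm l
  have k4 : Tendsto (fun q : (Y.G × ℂˣ) × E.PT => (q.1.1, q.2.t)) (𝓝 (1, x)) (𝓝 (1, x.t)) :=
    (show Continuous fun q : (Y.G × ℂˣ) × E.PT => (q.1.1, q.2.t) by fun_prop).tendsto _
  have k5 : ∀ᶠ q : (Y.G × ℂˣ) × E.PT in 𝓝 (1, x),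
      l (p (q.1 • q.2).t (q.1 • q.2).w) = q.1.2 * l (p q.2.t q.2.w) := by
    filter_upwards [k4.eventually hψ.eqv, k4.eventually ((A2_act x.t).eventually h2),
      k4.eventually ((A2_snd x.t).eventually h2)] with q a b d
    rw [VB.PT.smul_t, VB.PT.smul_w, map_smul, map_smul, smul_eq_mul]
    exact congrArg (fun z => _ * l z) (by rw [← b.1 (p q.2.t q.2.w), a, d.2 _ q.2.mem])
  have k6 : ∀ᶠ y : E.PT in 𝓝 x, l (p y.t y.w) ≠ 0 :=
    (k3.cont cι.continuousAt).eventually_ne (hl.trans_ne one_ne_zero)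
  refine ⟨fun y => l (p y.t y.w), l, k3, hl, k5,
    (ct.continuousAt.eventually h2).mono fun y a => ⟨_, rfl, a.2 _ y.mem⟩,
    Prod.ext hτ.one (Units.ext ((A2un_val k6.self_of_nhds).trans hl)), ?_, ?_, ?_⟩
  · filter_upwards [ct.continuousAt.eventually hτ.cont, k3.eventually cι.continuousAt, k6]
      with y a b d
    exact (a.comp ct.continuousAt).prodMk ((A2un_cont d).comp
      (f := fun y : E.PT => l (p y.t y.w))
      (HolAt.cont (ι := fun x : E.PT => (ι x.t, x.w)) b cι.continuousAt))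
  · filter_upwards [k4.eventually hτ.eqv, k5, (continuous_snd.tendsto _).eventually k6]
      with q a b d
    refine Prod.ext a (Units.ext ?_)
    exact (A2un_val (b ▸ mul_ne_zero (Units.ne_zero _) d)).trans
      (b.trans (congrArg (_ * ·) (A2un_val d).symm))
  · refine (hτ.hol.comp ct.continuousAt k1).prod (((k3.comp_an
      (analyticAt_inv k6.self_of_nhds)).smul (hψ.hol_inv hτ hι.continuousAt rfl ct.continuousAt k1
        k2 (.of_forall fun y => y.mem))).congr (k6.mono fun y a => ?_))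
    change _ = (((A2un (l (p y.t y.w)))⁻¹ : ℂˣ) : ℂ) • (τ y.t)⁻¹ • y.w
    rw [Units.val_inv_eq_inv_val, A2un_val a]

include hE

theorem isAS_PS : IsAS E.PS fun x : E.PT => (ι x.t, x.w) := by
  have := hY.fd
  refine ⟨inferInstance, (hY.emb.prodMap IsEmbedding.id).comp IsEmbedding.subtypeVal,
    fun x : E.PT => ?_, fun (g : Y.G × ℂˣ) (x : E.PT) => ?_, fun x : E.PT => ?_⟩
  · have e : range (fun x : E.PT => (ι x.t, x.w)) =
        Prod.map ι id '' {x | x.2 ∈ E.F x.1 ∧ x.2 ≠ 0} :=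
      Set.ext fun z => ⟨fun ⟨y, a⟩ => ⟨y.1, y.2, a⟩, fun ⟨y, a, b⟩ => ⟨⟨y, a⟩, b⟩⟩
    exact e ▸ A2_anV hY hE _ _
      ((continuousAt_snd.eventually_ne x.ne).mono fun _ a => and_iff_left a)
  · exact ((hY.act g.1 _).comp VB.PT.continuous_t.continuousAt
      (HolAt.of_an (Φ := Prod.fst) analyticAt_fst)).prod ((HolAt.const (g.2 : ℂ)).smul
        ((HolAt.of_an (Φ := Prod.snd) analyticAt_snd).clm (lin E.W g.1)))
  · obtain ⟨τ, hτ⟩ := hY.coc x.t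
    obtain ⟨ψ, hψ⟩ := hE x.t
    obtain ⟨c, -, -, -, -, -, h⟩ := A2_cocP hY x hτ hψ
    exact ⟨_, h⟩

theorem hv_o1 : HV (char E.o1) fun x : E.PT => (ι x.t, x.w) :=
  hv_char_of (isAS_PS hY hE).emb.continuous fun x : E.PT => by
    obtain ⟨τ, hτ⟩ := hY.coc x.t
    obtain ⟨ψ, hψ⟩ := hE x.t
    obtain ⟨c, -, h1, h2, h3, -⟩ := A2_cocP hY x hτ hψ
    exact ⟨c, h1, h2.trans_ne one_ne_zero, h3⟩

theorem dim_PS {m r : ℕ} (hm : Dim Y ι m) (hr : E.r = r + 1) :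
    Dim E.PS (fun x : E.PT => (ι x.t, x.w)) (m + r) := by
  have := hY.fd
  have cι := (isAS_PS hY hE).emb.continuous
  refine A2_dim cι fun x : E.PT => ?_
  obtain ⟨τ, hτ⟩ := hY.coc x.t
  obtain ⟨U, h1, h2⟩ := hm _ τ hτ
  obtain ⟨ψ, hψ⟩ := hE x.t
  obtain ⟨c, l, k1, k2, -, k3, k4⟩ := A2_cocP hY x hτ hψ
  obtain ⟨Ψ, h3, h4⟩ := hψ.hol
  obtain ⟨a₀, k5, -⟩ := k3.self_of_nhds
  rw [k2] at k5
  have := FiniteDimensional.complete ℂ ((Fin E.r → ℂ) →L[ℂ] E.W)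
  refine ⟨_, k4, _, (VB.PT.continuous_t.continuousAt.eventually ((h4.and h1).and
    (hY.emb.continuous.continuousAt.eventually h3.eventually_analyticAt))).and (k3.and
      ((k1.cont cι.continuousAt).eventually_ne (k2.trans_ne one_ne_zero))), ?_⟩
  have h6 := A2_small (h2.mono (inter_subset_left (t := {a | AnalyticAt ℂ Ψ a})))
    (f := fun q : A × LinearMap.ker (l : (Fin E.r → ℂ) →ₗ[ℂ] ℂ) => (q.1, Ψ q.1 (a₀ + q.2.1)))
    fun a ha u => analyticAt_fst.prod (an_apply (AnalyticAt.comp (f := Prod.fst) (x := (a, u)) ha.2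
      analyticAt_fst) (analyticAt_const.add (((LinearMap.ker (l : (Fin E.r → ℂ) →ₗ[ℂ] ℂ)).subtypeL.comp
        (ContinuousLinearMap.snd ℂ A _)).analyticAt (a, u))))
  have h7 := Module.Dual.finrank_ker_add_one_of_ne_zero (f := (l : (Fin E.r → ℂ) →ₗ[ℂ] ℂ))
    fun e => one_ne_zero (k5.symm.trans (LinearMap.congr_fun e a₀))
  rw [Module.finrank_fin_fun] at h7
  rw [Nat.succ_injective (h7.trans hr), ← mul_add] at h6
  refine h6.mono ?_
  rintro _ ⟨y, ⟨⟨⟨⟨a, b⟩, d⟩, ⟨u, e1, e2⟩, e3⟩, f⟩, rfl⟩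
  have f2 : c y = 1 := (A2un_val e3).symm.trans (congrArg (fun g : Y.G × ℂˣ => (g.2 : ℂ)) f)
  refine ⟨(_, ⟨u - a₀, ?_⟩), ⟨⟨⟨_, ⟨b, congrArg Prod.fst f⟩, rfl⟩, d⟩, trivial⟩,
    Prod.ext rfl ?_⟩
  · change l (u - a₀) = 0
    rw [map_sub, e1, f2, k5, sub_self]
  · change Ψ _ (a₀ + (u - a₀)) = _
    rw [add_sub_cancel, ← a]
    exact e2

end ps

theorem stPS : StPS := fun _ _ _ _ _ hY E hE =>
  ⟨isAS_PS hY hE, hm_pp E, hv_o1 hY hE, fun _ _ => dim_PS hY hE⟩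

end Vale.Agent.P287Q.H3
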