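import Vale.Agent.P287Q.H3.St
import Vale.Agent.P269.Spl.Dim0
import Vale.Agent.P269.Spl.Dim1
import Vale.Agent.P269.Ch.Tot
import Vale.Agent.P269.Holo.Bundle

/-!
# Analytic sets with an action of a unit group are analytic orbispaces
-/

namespace Vale.Agent.P287Q.H3

open Set Function Topology Filter P291Z P269 P269.Ch P269.Holo P269.Mono

set_option linter.unusedSectionVars false

section gen

variable {B B' : Type} [NormedAddCommGroup B] [NormedSpace ℂ B] [NormedAddCommGroup B']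
  [NormedSpace ℂ B'] {Y Y' : Ch.Sp} {ι : Y.T → B} {ι' : Y'.T → B'}

theorem A3.tendsto_one {τ : Y.T → Y.G} {t : Y.T} (h : Coc Y ι τ t) : Tendsto τ (𝓝 t) (𝓝 1) :=
  h.one ▸ h.cont.self_of_nhds.tendsto

/-- A holomorphic frame can be made equivariant. -/
theorem A3.frm_of_frame {τ : Y.T → Y.G} {t : Y.T} (h : Coc Y ι τ t) (E : VB Y)
    (hw : ∀ w : E.W, HolAt ι (fun s => τ s • w) t) {ψ : Y.T → (Fin E.r → ℂ) →L[ℂ] E.W}
    (h1 : HolAt ι ψ t) (h2 : ∀ᶠ s in 𝓝 t, ∀ w, w ∈ E.F s ↔ w ∈ range (ψ s)) :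
    Frm E ι (fun s => (lin E.W (τ s)).comp (ψ ((τ s)⁻¹ • s))) t := by
  have h3 : (τ t)⁻¹ • t = t := by rw [h.one, inv_one, one_smul]
  have h4 : ContinuousAt (fun s => (τ s)⁻¹ • s) t := h.cont.self_of_nhds.inv.smul continuousAt_id
  refine ⟨(HolAt.of_apply (m := fun s => lin E.W (τ s)) hw).clm_comp
    (HolAt.comp (u := fun s => (τ s)⁻¹ • s) (h3.symm ▸ h1) h4 h.hol),
    (h4.eventually (h3.symm ▸ h2)).mono fun s hs w => ?_, h.eqv.mono fun q hq a => ?_⟩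
  · rw [← E.smul_mem_iff (g := (τ s)⁻¹), hs]
    exact exists_congr fun a => eq_inv_smul_iff
  · change τ (q.1 • q.2) • ψ ((τ (q.1 • q.2))⁻¹ • q.1 • q.2) a = q.1 • τ q.2 • ψ _ a
    rw [hq, mul_smul, mul_inv_rev, mul_smul, inv_smul_smul]

/-- the constant frame of a bundle with full fibres -/
theorem A3.exists_frame_top (E : VB Y) (hF : ∀ s, E.F s = ⊤) (t : Y.T) :
    ∃ ψ : Y.T → (Fin E.r → ℂ) →L[ℂ] E.W,
      HolAt ι ψ t ∧ ∀ᶠ s in 𝓝 t, ∀ w, w ∈ E.F s ↔ w ∈ range (ψ s) := by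
  have h1 := E.rank t
  rw [hF, finrank_top] at h1
  let e : (Fin E.r → ℂ) ≃L[ℂ] E.W :=
    ContinuousLinearEquiv.ofFinrankEq (by rw [Module.finrank_fin_fun, h1])
  exact ⟨fun _ => e, HolAt.const _, Eventually.of_forall fun s w =>
    ⟨fun _ => e.surjective w, fun _ => (hF s).ge trivial⟩⟩

/-- A morphism given by a map which is analytic in the coordinates. -/
theorem A3.hm_of_an (h : Mor Y' Y) {f : B' → B} (he : ∀ s, ι (h.f s) = f (ι' s))
    (hf : ∀ s, AnalyticAt ℂ f (ι' s)) : HM h ι' ι :=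
  fun t => ⟨f, hf t, Eventually.of_forall he⟩

end gen

variable {A W : Type} [NormedRing A] [NormedAlgebra ℂ A] [NormedAddCommGroup W] [NormedSpace ℂ W]
  [FiniteDimensional ℂ A] [FiniteDimensional ℂ W] {act : A → W → W} {S : Set W} [IsAct act S]
  {Y : Ch.Sp}

theorem A3.hol_act {T B : Type} [TopologicalSpace T] [NormedAddCommGroup B] [NormedSpace ℂ B]
    {ι : T → B} {a : T → A} {y : T → W} {t : T} (ha : HolAt ι a t) (hy : HolAt ι y t)
    (h1 : IsUnit (a t)) (h2 : y t ∈ S) : HolAt ι (fun s => act (a s) (y s)) t :=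
  (ha.prod hy).comp_an (Ψ := fun q : A × W => act q.1 q.2) (IsAct.an _ h1 _ h2)

/-- The group of `Y` is the unit group. -/
structure A3.UG (p : Ch.Pres Y act S) : Prop where
  mul : ∀ g h, p.u (g * h) = p.u g * p.u h
  emb : IsEmbedding p.u

theorem A3.ug_presA (ho : Orb.Orb Aˣ (Holo.Sp act S)) : A3.UG (presA ho) :=
  have := FiniteDimensional.complete ℂ A
  ⟨Units.val_mul, Units.isOpenEmbedding_val.isEmbedding⟩

namespace A3.UG

variable {p : Ch.Pres Y act S} (hp : UG p)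
include hp

theorem one : p.u 1 = 1 := (p.unit 1).mul_left_cancel (by rw [← hp.mul, mul_one, mul_one])

theorem inv (g : Y.G) : p.u g⁻¹ = Ring.inverse (p.u g) :=
  (p.unit g).mul_left_cancel (by
    rw [← hp.mul, mul_inv_cancel, hp.one, Ring.mul_inverse_cancel _ (p.unit g)])

theorem finite (t : Y.T) : Finite (MulAction.stabilizer Aˣ (Sp.of act (p.i t) (p.mem t))) := by
  refine Finite.of_surjective (α := MulAction.stabilizer Y.G t)
    (fun g => ⟨(p.unit g).unit, Sp.ext ((p.eqv g t).symm.trans (congrArg p.i g.2))⟩) fun a => ?_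
  obtain ⟨g, hg⟩ := p.usurj _ a.1.isUnit
  refine ⟨⟨g, p.emb.injective ?_⟩, Subtype.ext (Units.ext hg)⟩
  rw [p.eqv, hg]
  exact congrArg Sp.val a.2

/-- the inverse of `u` -/
theorem exists_inv : ∃ κ : A → Y.G, (∀ a, IsUnit a → p.u (κ a) = a) ∧ Tendsto κ (𝓝 1) (𝓝 1) := by
  have := FiniteDimensional.complete ℂ A
  choose! κ hκ using p.usurj
  refine ⟨κ, hκ, hp.emb.isInducing.tendsto_nhds_iff.2 ?_⟩
  rw [hp.one]
  exact tendsto_id.congr' (mem_of_superset (Units.nhds (1 : Aˣ)) fun a ha => (hκ a ha).symm)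

/-- A local trivialisation which is holomorphic as a map to `A`. -/
theorem exists_coc_hol (t : Y.T) : ∃ τ, Coc Y p.i τ t ∧ HolAt p.i (fun s => p.u (τ s)) t ∧
    HolAt p.i (fun s => p.u (τ s)⁻¹) t := by
  have := FiniteDimensional.complete ℂ A
  have := FiniteDimensional.complete ℂ W
  obtain ⟨m, j, g, -, h1, h2, h3, h4⟩ := Sp.exists_aff _ (hp.finite t)
  rw [Sp.val_of] at h1 h2 h3 h4
  obtain ⟨κ, h5, -⟩ := hp.exists_inv
  have hc : ContinuousAt p.i t := p.emb.continuous.continuousAt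
  have h6 := (hc.eventually h4).mono fun s hs => hs (p.mem s)
  have h7 : ∀ᶠ s in 𝓝 t, p.u (κ (g (p.i s)).1) = (g (p.i s)).1 := h6.mono fun s hs => h5 _ hs.1
  have h8 : p.u (κ (g (p.i t)).1) = 1 := by rw [h7.self_of_nhds, h2]
  have h9 : HolAt p.i (fun s => p.u (κ (g (p.i s)).1)) t :=
    ⟨fun y => (g y).1, analyticAt_fst.comp h1, h7⟩
  have h10 : HolAt p.i (fun s => p.u (κ (g (p.i s)).1)⁻¹) t :=
    (h9.comp_an (Ψ := Ring.inverse) (h8 ▸ analyticAt_inverse (1 : Aˣ))).congr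
      (Eventually.of_forall fun s => (hp.inv _).symm)
  refine ⟨fun s => κ (g (p.i s)).1, ⟨hp.emb.injective (h8.trans hp.one.symm), ?_, ?_, ?_⟩, h9, h10⟩
  · exact (h9.eventually hc).mono fun s hs =>
      hp.emb.isInducing.continuousAt_iff.2 (hs.cont p.emb.continuous.continuousAt)
  · have t1 : Tendsto (fun q : Y.G × Y.T => g (p.i q.2)) (𝓝 (1, t)) (𝓝 (1, 0)) :=
      h2 ▸ (h1.continuousAt.comp hc).tendsto.comp continuousAt_snd.tendsto
    have t2 : Tendsto (fun q : Y.G × Y.T => p.u q.1) (𝓝 (1, t)) (𝓝 1) :=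
      hp.one ▸ hp.emb.continuous.continuousAt.tendsto.comp continuousAt_fst.tendsto
    have t3 : Tendsto (fun q : Y.G × Y.T => p.u q.1 * (g (p.i q.2)).1) (𝓝 (1, t)) (𝓝 1) := by
      simpa only [mul_one] using t2.mul t1.fst_nhds
    filter_upwards [(t3.prodMk_nhds t1.snd_nhds).eventually h3,
      continuousAt_snd.eventually h6] with q e1 e2
    have e3 := e1 e2.2.1
    rw [IsAct.mul (act := act) _ _ (p.unit _) e2.1 _ e2.2.1, e2.2.2, ← p.eqv] at e3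
    refine hp.emb.injective ?_
    rw [hp.mul, e3, h5 _ e2.1, h5 _ ((p.unit _).mul e2.1)]
  · exact (A3.hol_act h10 HolAt.self (p.unit _) (p.mem t)).congr
      (Eventually.of_forall fun s => (p.eqv _ _).symm)

theorem isAS (hS : ∀ x ∈ S, An S x) : IsAS Y p.i := by
  have h1 : range p.i = S := Subset.antisymm (range_subset_iff.2 p.mem) p.surj
  exact ⟨inferInstance, p.emb, fun t => h1.symm ▸ hS _ (p.mem t), fun g t =>
    (A3.hol_act (HolAt.const _) HolAt.self (p.unit g) (p.mem t)).congr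
      (Eventually.of_forall fun s => (p.eqv _ _).symm),
    fun t => (hp.exists_coc_hol t).imp fun _ h => h.1⟩

/-- Subbundles of holomorphic representations with holomorphic frames. -/
theorem hv_of_frame (E : VB Y)
    (hw : ∀ w : E.W, ∃ Φ : A → E.W, AnalyticAt ℂ Φ 1 ∧ ∀ᶠ g in 𝓝 (1 : Y.G), g • w = Φ (p.u g))
    (hF : ∀ t, ∃ ψ : Y.T → (Fin E.r → ℂ) →L[ℂ] E.W,
      HolAt p.i ψ t ∧ ∀ᶠ s in 𝓝 t, ∀ w, w ∈ E.F s ↔ w ∈ range (ψ s)) : HV E p.i := fun t => by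
  obtain ⟨τ, h1, h2, -⟩ := hp.exists_coc_hol t
  obtain ⟨ψ, h3, h4⟩ := hF t
  refine ⟨_, A3.frm_of_frame h1 E (fun w => ?_) h3 h4⟩
  obtain ⟨Φ, h5, h6⟩ := hw w
  exact (h2.comp_an (Ψ := Φ) (by rwa [h1.one, hp.one])).congr
    (((A3.tendsto_one h1).eventually h6).mono fun s hs => hs.symm)

/-- Bundles given by holomorphic representations. -/
theorem hv_of_an (E : VB Y) (hF : ∀ s, E.F s = ⊤)
    (hw : ∀ w : E.W, ∃ Φ : A → E.W, AnalyticAt ℂ Φ 1 ∧ ∀ᶠ g in 𝓝 (1 : Y.G), g • w = Φ (p.u g)) :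
    HV E p.i := hp.hv_of_frame E hw (A3.exists_frame_top E hF)

theorem hv_char (χ : Y.G →ₜ* ℂˣ)
    (h : ∃ Φ : A → ℂ, AnalyticAt ℂ Φ 1 ∧ ∀ᶠ g in 𝓝 (1 : Y.G), (χ g : ℂ) = Φ (p.u g)) :
    HV (char χ) p.i := by
  obtain ⟨Φ, h1, h2⟩ := h
  exact hp.hv_of_an (char χ) (fun _ => rfl) fun w : ℂ => ⟨fun a => Φ a * w,
    h1.mul analyticAt_const, h2.mono fun g hg => congrArg (fun z : ℂ => z * w) hg⟩

theorem hv_chars {I : Type} [Fintype I] (χ : I → Y.G →ₜ* ℂˣ)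
    (h : ∀ i, ∃ Φ : A → ℂ, AnalyticAt ℂ Φ 1 ∧ ∀ᶠ g in 𝓝 (1 : Y.G), (χ i g : ℂ) = Φ (p.u g)) :
    HV (chars χ) p.i := by
  choose Φ h1 h2 using h
  exact hp.hv_of_an (chars χ) (fun _ => rfl) fun w : I → ℂ => ⟨fun a i => Φ i a * w i,
    AnalyticAt.pi fun i => (h1 i).mul analyticAt_const, (eventually_all.2 h2).mono fun g hg =>
      funext fun i => congrArg (fun z : ℂ => z * w i) (hg i)⟩

/-- The dimension of the quotient. -/
theorem dim {d : ℕ}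
    (hd : ∀ x ∈ S, ∃ U ∈ 𝓝 x, Small (2 * (d + Module.finrank ℂ A)) (U ∩ S)) : Dim Y p.i d := by
  intro t τ hτ
  have := FiniteDimensional.complete ℂ A
  have := FiniteDimensional.complete ℂ W
  obtain ⟨σ, h1, h2, -⟩ := hp.exists_coc_hol t
  obtain ⟨κ, h3, h4⟩ := hp.exists_inv
  obtain ⟨F, h5, h6⟩ := hτ.hol.prod h2
  obtain ⟨U, h7, h8⟩ := hd _ (p.mem t)
  have h9 : Small (2 * (d + Module.finrank ℂ A)) (F '' (U ∩ S ∩ {y | AnalyticAt ℂ F y})) :=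
    (h8.mono inter_subset_left).image fun y hy => hy.2.contDiffAt.restrict_scalars ℝ
  have t1 : Tendsto (fun q : Y.T × A => κ q.2 * (σ q.1)⁻¹) (𝓝 t ×ˢ 𝓝 1) (𝓝 1) := by
    simpa only [inv_one, mul_one, Function.comp_def] using
      (h4.comp tendsto_snd).mul ((A3.tendsto_one h1).comp tendsto_fst).inv
  have t2 := t1.prodMk_nhds (tendsto_fst (f := 𝓝 t) (g := 𝓝 (1 : A)))
  have t3 : Tendsto (fun q : Y.T × A => (κ q.2 * (σ q.1)⁻¹) • q.1) (𝓝 t ×ˢ 𝓝 1) (𝓝 t) := by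
    simpa only [one_smul] using t1.smul (tendsto_fst (f := 𝓝 t) (g := 𝓝 (1 : A)))
  have t4 := p.emb.continuous.continuousAt.tendsto.comp t3
  have h10 : ∀ᶠ q : Y.T × A in 𝓝 t ×ˢ 𝓝 1,
      τ q.1 = 1 → (p.i q.1, q.2) ∈ F '' (U ∩ S ∩ {y | AnalyticAt ℂ F y}) := by
    filter_upwards [t2.eventually hτ.eqv, t2.eventually h1.eqv, t3.eventually h6, t4.eventually h7,
      t4.eventually h5.eventually_analyticAt, tendsto_snd.eventually (Units.nhds (1 : Aˣ))]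
      with q e1 e2 e3 e4 e5 e6 e7
    refine ⟨_, ⟨⟨e4, p.mem _⟩, e5⟩, e3.symm.trans ?_⟩
    rw [e1, e2, e7, mul_one, inv_smul_smul, inv_mul_cancel_right, h3 _ e6]
  obtain ⟨V, h11, O, h12, h13⟩ := mem_prod_iff.1 h10
  refine ⟨V, h11, Small.of_prod (N := A) isOpen_interior ⟨1, mem_interior_iff_mem_nhds.2 h12⟩ ?_⟩
  rw [finrank_real_of_complex, ← mul_add]
  refine h9.mono ?_
  rintro ⟨_, a⟩ ⟨⟨s, hs, rfl⟩, ha⟩
  exact h13 (mk_mem_prod hs.1 (interior_subset ha)) hs.2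

end A3.UG

variable (ho : Orb.Orb Aˣ (Holo.Sp act S))

theorem exists_coc_hol (t : Holo.Sp act S) : ∃ τ : Holo.Sp act S → Aˣ,
    Coc (spA ho) (Sp.val (act := act)) τ t ∧ HolAt Sp.val (fun s => (τ s : A)) t ∧
      HolAt Sp.val (fun s => (((τ s)⁻¹ : Aˣ) : A)) t :=
  (A3.ug_presA ho).exists_coc_hol t

theorem isAS_spA (hS : ∀ x ∈ S, An S x) : IsAS (spA ho) (Sp.val (act := act)) :=
  (A3.ug_presA ho).isAS hS

theorem hv_of_an (E : VB (spA ho)) (hF : ∀ s, E.F s = ⊤)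
    (hw : ∀ w : E.W, ∃ Φ : A → E.W, AnalyticAt ℂ Φ 1 ∧
      ∀ g : (spA ho).G, g • w = Φ (Units.val g)) : HV E (Sp.val (act := act)) :=
  (A3.ug_presA ho).hv_of_an E hF fun w => (hw w).imp fun _ h => ⟨h.1, Eventually.of_forall h.2⟩

theorem hv_of_frame (E : VB (spA ho))
    (hw : ∀ w : E.W, ∃ Φ : A → E.W, AnalyticAt ℂ Φ 1 ∧
      ∀ g : (spA ho).G, g • w = Φ (Units.val g))
    (hF : ∀ t : Holo.Sp act S, ∃ ψ : Holo.Sp act S → (Fin E.r → ℂ) →L[ℂ] E.W,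
      HolAt Sp.val ψ t ∧ ∀ᶠ s in 𝓝 t, ∀ w, w ∈ E.F s ↔ w ∈ range (ψ s)) :
    HV E (Sp.val (act := act)) :=
  (A3.ug_presA ho).hv_of_frame E (fun w => (hw w).imp fun _ h => ⟨h.1, Eventually.of_forall h.2⟩) hF

theorem hv_char (χ : (spA ho).G →ₜ* ℂˣ) {Φ : A → ℂ} (h1 : AnalyticAt ℂ Φ 1)
    (h2 : ∀ g, (χ g : ℂ) = Φ (Units.val g)) : HV (char χ) (Sp.val (act := act)) :=
  (A3.ug_presA ho).hv_char χ ⟨Φ, h1, Eventually.of_forall h2⟩

theorem hv_chars {I : Type} [Fintype I] (χ : I → (spA ho).G →ₜ* ℂˣ) {Φ : I → A → ℂ}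
    (h1 : ∀ i, AnalyticAt ℂ (Φ i) 1) (h2 : ∀ i g, (χ i g : ℂ) = Φ i (Units.val g)) :
    HV (chars χ) (Sp.val (act := act)) :=
  (A3.ug_presA ho).hv_chars χ fun i => ⟨Φ i, h1 i, Eventually.of_forall (h2 i)⟩

theorem dim_spA {d : ℕ}
    (hd : ∀ x ∈ S, ∃ U ∈ 𝓝 x, Small (2 * (d + Module.finrank ℂ A)) (U ∩ S)) :
    Dim (spA ho) (Sp.val (act := act)) d := (A3.ug_presA ho).dim hd

theorem hm_spA {A' W' : Type} [NormedRing A'] [NormedAlgebra ℂ A'] [NormedAddCommGroup W']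
    [NormedSpace ℂ W'] {act' : A' → W' → W'} {S' : Set W'} [IsAct act' S']
    (ho' : Orb.Orb A'ˣ (Holo.Sp act' S')) (h : Mor (spA ho') (spA ho)) {f : W' → W}
    (he : ∀ s, Sp.val (act := act) (h.f s) = f (Sp.val (act := act') s))
    (hf : ∀ x : Holo.Sp act' S', HolAt Sp.val (fun s : Holo.Sp act' S' => f s.val) x) :
    HM h (Sp.val (act := act')) (Sp.val (act := act)) :=
  fun t => (hf t).congr (Eventually.of_forall fun s => (he s).symm)

end Vale.Agent.P287Q.H3
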