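import Vale.Agent.P287Q.H3.St

/-!
# Dimension of nowhere dense analytic subsets; resolutions detect the top cohomology
-/

namespace Vale.Agent.P287Q.H3

open Set Function Topology Filter P291Z P269 P269.Ch P269.Holo P269.Mono P269.Orb
open scoped Manifold ContDiff

theorem stInj : StInj := by
  intro X M _ _ _ _ _ _ φ B k hB h1 h2 hinj hsurj c hc h0
  have hB' : IsClosed (φ ⁻¹' B) := hB.preimage φ.continuous
  have hj' : IsOpenEmbedding (Subtype.val : ((φ ⁻¹' B)ᶜ : Set M) → M) :=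
    hB'.isOpen_compl.isOpenEmbedding_subtypeVal
  have hj : IsOpenEmbedding (φ ∘ (Subtype.val : ((φ ⁻¹' B)ᶜ : Set M) → M)) := by
    refine IsOpenEmbedding.of_continuous_injective_isOpenMap
      (φ.continuous.comp continuous_subtype_val)
      (fun x y e => Subtype.ext (hinj x.2 y.2 e)) fun W hW => ?_
    have e1 : IsOpen (Subtype.val '' W) := hj'.isOpenMap W hW
    have e2 : (φ ∘ Subtype.val) '' W = Bᶜ ∩ (φ '' (Subtype.val '' W)ᶜ)ᶜ := by
      ext x
      constructor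
      · rintro ⟨w, hw, rfl⟩
        refine ⟨w.2, ?_⟩
        rintro ⟨m, hm, e⟩
        have e3 : m ∈ φ ⁻¹' Bᶜ := by
          rw [mem_preimage, e]
          exact w.2
        exact hm ⟨w, hw, hinj w.2 e3 e.symm⟩
      · rintro ⟨hx, hx'⟩
        obtain ⟨m, rfl⟩ := hsurj hx
        obtain ⟨w, hw, rfl⟩ : m ∈ Subtype.val '' W := by
          by_contra e
          exact hx' ⟨m, e, rfl⟩
        exact ⟨w, hw, rfl⟩
    rw [e2]
    exact hB.isOpen_compl.inter
      (e1.isClosed_compl.isCompact.image φ.continuous).isClosed.isOpen_compl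
  have hr : range (φ ∘ (Subtype.val : ((φ ⁻¹' B)ᶜ : Set M) → M)) =
      (range (Subtype.val : B → X))ᶜ := by
    rw [range_comp, Subtype.range_val, Subtype.range_val]
    exact image_preimage_eq_of_subset hsurj
  obtain ⟨a, ha, hk, rfl⟩ := H.isDeg_iff.1 hc
  obtain ⟨c', h3, h4⟩ := Top.push_surj hB.isClosedEmbedding_subtypeVal hj hr
    (h1 B Subset.rfl hB.isLocallyClosed) (by omega : k - 1 < k) (cls_mem_deg (a := a) hk)
  obtain ⟨b, b1, b2, b3, rfl⟩ := cls_surj_open hj h3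
  rw [Hc.push_cls hj b1 b3] at h4
  have h5 := (cls_eq_iff_hcls b1.2 ha).1 h4
  have h6 : supp (δ (pull φ b)) = ∅ := cocycle_pull φ.continuous b1.2
  rw [← h5, H.map_hcls φ b1.2, ← hcls_zero, ← cls_eq_iff_hcls h6 cocycle_zero, cls_zero] at h0
  have h7 : supp (pull φ b) ⊆ range (Subtype.val : ((φ ⁻¹' B)ᶜ : Set M) → M) := by
    rw [Subtype.range_val]
    intro m hm
    have e := b3 (supp_pull φ.continuous b hm)
    rw [hr, Subtype.range_val] at e
    exact e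
  have h8 := Top.push_inj hB'.isClosedEmbedding_subtypeVal hj' (Dim.range_compl _)
    (h2 _ Subset.rfl hB'.isLocallyClosed) (by omega : k - 2 + 1 < k)
    (cls_mem_deg ((b2.pull φ).pull _)) ((Hc.push_cls hj' (Zc_of_compact h6) h7).trans h0)
  rw [pull_pull] at h8
  rw [← h5, ← hcls_zero, ← cls_eq_iff_hcls b1.2 cocycle_zero, cls_zero,
    ← Hc.push_cls hj b1 b3, h8, map_zero]

section an

variable {P Q : Type} [NormedAddCommGroup P] [NormedSpace ℂ P] [NormedAddCommGroup Q]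
  [NormedSpace ℂ Q]

theorem drop_an [FiniteDimensional ℂ Q] {S : Set P} {a : P} {h : P → Q} (h1 : AnalyticAt ℂ h a)
    (h2 : ∀ᶠ z in 𝓝 a, z ∈ S ↔ h z = 0) : An S a := by
  let e : Q ≃L[ℂ] (Fin (Module.finrank ℂ Q) → ℂ) :=
    ContinuousLinearEquiv.ofFinrankEq (Module.finrank_fin_fun ℂ).symm
  exact ⟨_, fun z => e (h z), (e.analyticAt _).comp h1,
    h2.mono fun z hz => hz.trans (EmbeddingLike.map_eq_zero_iff).symm⟩

theorem drop_an_pre {S : Set P} {f : Q → P} {b : Q} (h : An S (f b)) (hf : AnalyticAt ℂ f b) :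
    An (f ⁻¹' S) b :=
  let ⟨k, g, h1, h2⟩ := h
  ⟨k, fun z => g (f z), h1.comp hf, hf.continuousAt.eventually h2⟩

theorem drop_an_iInter {ι : Type} [Fintype ι] {S : ι → Set P} {a : P} (h : ∀ i, An (S i) a) :
    An (⋂ i, S i) a := by
  choose k g h1 h2 using h
  refine drop_an (Q := ∀ i, Fin (k i) → ℂ) (h := fun z i => g i z) (analyticAt_pi_iff.2 h1) ?_
  filter_upwards [eventually_all.2 h2] with z hz
  rw [mem_iInter, funext_iff]
  exact forall_congr' hz

theorem drop_an_inter {S T : Set P} {a : P} (h : An S a) (h' : An T a) : An (S ∩ T) a := by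
  obtain ⟨k, g, h1, h2⟩ := h
  obtain ⟨k', g', h3, h4⟩ := h'
  refine drop_an (h := fun z => (g z, g' z)) (h1.prod h3) ?_
  filter_upwards [h2, h4] with z a b
  rw [Prod.mk_eq_zero]
  exact and_congr a b

/-- An analytic set is closed near the point. -/
theorem drop_closed [CompleteSpace P] {S : Set P} {a : P} (h : An S a) :
    ∀ᶠ z in 𝓝 a, z ∈ closure S → z ∈ S := by
  obtain ⟨k, g, h1, h2⟩ := h
  filter_upwards [h1.eventually_analyticAt, h2.eventually_nhds] with z a1 a2 hz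
  rw [a2.self_of_nhds]
  by_contra e
  obtain ⟨w, ⟨w1, w2⟩, w3⟩ := mem_closure_iff_nhds.1 hz _
    ((a1.continuousAt.eventually_ne e).and a2)
  exact w1 (w2.1 w3)

variable [FiniteDimensional ℂ P]

theorem drop_img [FiniteDimensional ℂ Q] {k : ℕ} {S : Set P} (h : Small k S) {f : P → Q}
    (hf : ∀ x ∈ S, AnalyticAt ℂ f x) : Small k (f '' S) :=
  have := FiniteDimensional.complete ℂ Q
  h.image fun x hx => (hf x hx).contDiffAt.restrict_scalars ℝ

theorem drop_germ {k : ℕ} (hk : 2 * Module.finrank ℂ P ≤ k + 2) {f : P → ℂ} {p : P}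
    (hf : AnalyticAt ℂ f p) (h : ¬∀ᶠ z in 𝓝 p, f z = 0) :
    ∃ O ∈ 𝓝 p, Small k (O ∩ f ⁻¹' {0}) := by
  have ht : Tendsto (fun z => z - p) (𝓝 p) (𝓝 0) := by
    simpa using (continuous_sub_right p).tendsto p
  obtain ⟨O, h1, h2⟩ := Dim.small_zero_germ hk (f := fun z => f (z + p))
    (hf.comp_of_eq (analyticAt_id.add analyticAt_const) (zero_add p)) fun e =>
      h ((ht.eventually e).mono fun z hz => by simpa using hz)
  refine ⟨_, ht h1, (drop_img h2 (f := fun z => z + p) fun x _ =>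
    analyticAt_id.add analyticAt_const).mono fun z hz => ⟨z - p, ⟨hz.1, ?_⟩, sub_add_cancel z p⟩⟩
  simpa using hz.2

theorem drop_dim {S U : Set P} {j l : ℕ} {y : P} (h : MfdAt S j y) (hU : U ∈ 𝓝 y)
    (hs : Small l (U ∩ S)) : 2 * j ≤ l := by
  obtain ⟨hy, ψ, ⟨-, h1, w, h2, h3⟩, h4⟩ := h
  have h5 : ((ψ 0 : S) : P) = y := congrArg Subtype.val h4
  by_contra e
  have h6 := drop_img (hs.mono (inter_subset_inter_left S
    (inter_subset_left (t := {z | AnalyticAt ℂ w z})))) (f := w) fun x hx => hx.1.2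
  obtain ⟨z, ⟨z1, z2, z3⟩, z4⟩ := h6.exists_notMem
    (by rw [finrank_real, Module.finrank_fin_fun]; omega)
    ((h1.continuousAt.eventually (h5 ▸ hU)).and
      ((h1.continuousAt.eventually h2.eventually_analyticAt).and h3))
  exact z4 ⟨(ψ z : S), ⟨⟨z1, z2⟩, (ψ z).2⟩, z3⟩

theorem drop_reg (S : Set P) (j : ℕ) : Small (2 * j) (Reg S j) := by
  have := FiniteDimensional.complete ℂ P
  refine Small.of_locally' fun y hy => ?_
  obtain ⟨hy, ψ, ⟨h0, h1, -⟩, h4⟩ := hy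
  have h2 : ψ '' {z | AnalyticAt ℂ (fun z => ((ψ z : S) : P)) z} ∈ 𝓝 (⟨y, hy⟩ : S) := by
    rw [← h4, ← h0.map_nhds]
    exact image_mem_map h1.eventually_analyticAt
  obtain ⟨O, h5, h6⟩ := (mem_nhds_subtype _ _ _).1 h2
  have h7 := small_finrank {z | AnalyticAt ℂ (fun z => ((ψ z : S) : P)) z}
  rw [finrank_real, Module.finrank_fin_fun] at h7
  refine ⟨O, h5, (drop_img h7 fun _ hx => hx).mono fun x hx => ?_⟩
  obtain ⟨z, z1, z2⟩ := h6 (show (⟨x, hx.1.1⟩ : S) ∈ Subtype.val ⁻¹' O from hx.2)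
  exact ⟨z, z1, congrArg Subtype.val z2⟩

end an

theorem drop_hyp (m : ℕ) : Small (2 * m) {z : Fin (m + 1) → ℂ | ∃ i, z i = 0} := by
  rw [ofPred_exists]
  refine Small.iUnion fun i => small_zero_fun (h := fun z : Fin (m + 1) → ℂ => z i)
    (contDiff_apply ℂ ℂ i) (a := 1) one_ne_zero ?_
  rw [Module.finrank_fin_fun]
  omega

theorem drop_core0 (hX : StRegX) (hH : StHir) {N : ℕ} {S B : Set (Fin N → ℂ)} {a : Fin N → ℂ}
    (m : ℕ) (hS : An S a) (hB : An B a) (hd : ∀ᶠ x in 𝓝 a, x ∈ B → x ∈ closure (S \ B)) :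
    ∃ U ∈ 𝓝 a, Small (2 * m) (U ∩ (B ∩ closure (Reg S (m + 1)))) := by
  obtain ⟨k, h, h1, h2⟩ := hS
  obtain ⟨l, g, g1, g2⟩ := hB
  obtain ⟨Ω, hΩ, ho, ha⟩ := eventually_nhds_iff.1 (h1.eventually_analyticAt.and (h2.and
    (g1.eventually_analyticAt.and (g2.and hd))))
  obtain ⟨K, hK, hKΩ, hKc⟩ := local_compact_nhds (ho.mem_nhds ha)
  obtain ⟨u, hu, hu'⟩ := continuousOn_iff_isClosed.1
    (fun z hz => (hΩ z hz).1.continuousAt.continuousWithinAt : ContinuousOn h Ω) {0}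
    isClosed_singleton
  obtain ⟨S', hS'⟩ : ∃ S' : Set (Fin N → ℂ), S' = {z ∈ Ω | ∀ i, h z i = 0} := ⟨_, rfl⟩
  have e1 : ∀ z, z ∈ S' ↔ z ∈ u ∩ Ω := fun z => by
    rw [← hu', hS']
    exact ⟨fun e => ⟨funext e.2, e.1⟩, fun e => ⟨e.2, congrFun e.1⟩⟩
  have e2 : ∀ z ∈ Ω, z ∈ S ↔ z ∈ S' := fun z hz => by
    rw [(hΩ z hz).2.1, hS']
    exact ⟨fun e => ⟨hz, congrFun e⟩, fun e => funext e.2⟩
  have e3 : ∀ z ∈ S', z ∈ Ω := fun z hz => ((e1 z).1 hz).2
  have : LocallyCompactSpace S' := by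
    rw [show S' = u ∩ Ω from Set.ext e1]
    exact (hu.isLocallyClosed.inter ho.isLocallyClosed).locallyCompactSpace
  have hm : P277.IsModel (fun (f : S' → ℂ) x => HolAt Subtype.val f x) univ Ω
      (fun i z => h z i) Subtype.val :=
    ⟨isOpen_univ, ho, fun i z hz => analyticAt_pi_iff.1 (hΩ z hz).1 i,
      by rw [image_univ, Subtype.range_val]; exact hS',
      IsEmbedding.subtypeVal.comp IsEmbedding.subtypeVal, fun _ _ _ => Iff.rfl⟩
  obtain ⟨R⟩ := hH S' (fun (f : S' → ℂ) x => HolAt Subtype.val f x) (m + 1)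
    (Subtype.val ⁻¹' (K ∩ u)) (fun x => ⟨N, k, univ, Ω, _, _, trivial, hm, trivial⟩) (by omega)
    (IsInducing.subtypeVal.isCompact_preimage' (hKc.inter_right hu) fun z hz => by
      rw [Subtype.range_val]
      exact (e1 z).2 ⟨hz.2, hKΩ hz.1⟩)
  refine ⟨K, hK, Small.mono (Small.of_locally (f := fun y => (R.π y).1)
    (T := {y | (R.π y).1 ∈ B}) fun y hy => ?_) ?_⟩
  · set c := chartAt (Fin (m + 1) → ℂ) y with hc
    have hyc : y ∈ c.source := mem_chart_source _ y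
    have hF : AnalyticAt ℂ (fun z => (R.π (c.symm z)).1) (c y) :=
      analyticAt_pi_iff.2 fun i => R.hol y (fun x => x.1 i)
        (HolAt.of_an (Φ := fun z : Fin N → ℂ => z i) (analyticAt_pi_iff.1 analyticAt_id i))
    have hG : ∀ i, AnalyticAt ℂ (fun z => g (R.π (c.symm z)).1 i) (c y) := fun i =>
      R.hol y (fun x => g x.1 i) (HolAt.of_an (Φ := fun z => g z i)
        (analyticAt_pi_iff.1 (hΩ _ (e3 _ (R.π y).2)).2.2.1 i))
    obtain ⟨i, hi⟩ : ∃ i, ¬∀ᶠ z in 𝓝 (c y), g (R.π (c.symm z)).1 i = 0 := by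
      by_contra e
      push Not at e
      obtain ⟨z, ⟨z1, z2⟩, z3⟩ := (drop_hyp m).exists_notMem
        (by rw [finrank_real, Module.finrank_fin_fun]; omega)
        ((eventually_all.2 e).eventually_nhds.and
          (c.open_target.mem_nhds (c.map_source hyc)))
      have y1 := c.map_target z2
      have y2 : R.π (c.symm z) ∈ RegX (fun (f : S' → ℂ) x => HolAt Subtype.val f x) (m + 1) := by
        by_contra e'
        have := R.snc y _ y1 e'
        rw [← hc, c.right_inv z2] at this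
        exact z3 this
      have y3 : ∀ᶠ y' in 𝓝 (c.symm z), g (R.π y').1 = 0 := by
        have t1 := (c.continuousAt y1).tendsto
        rw [c.right_inv z2] at t1
        filter_upwards [t1.eventually z1, c.open_source.mem_nhds y1] with y' a1 a2
        rw [c.left_inv a2] at a1
        exact funext a1
      have y4 : ∀ᶠ x : S' in 𝓝 (R.π (c.symm z)), g x.1 = 0 := R.opn _ y2 y3
      have y5 := e3 _ (R.π (c.symm z)).2
      have y6 := (hΩ _ y5).2.2.2.2 ((hΩ _ y5).2.2.2.1.2 y4.self_of_nhds)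
      obtain ⟨s, ⟨s1, s2⟩, s3⟩ := mem_closure_iff_nhds.1 y6 _
        (((ev_sub (p := fun s => g s = 0) (R.π (c.symm z)).2).1 y4).and (ho.mem_nhds y5))
      exact s3.2 ((hΩ s s2).2.2.2.1.2 (s1 ((e2 s s2).1 s3.1)))
    obtain ⟨O, o1, o2⟩ := drop_germ (k := 2 * m)
      (by rw [Module.finrank_fin_fun]; omega) (hG i) hi
    refine ⟨c.source ∩ c ⁻¹' (O ∩ {z | AnalyticAt ℂ (fun z => (R.π (c.symm z)).1) z}),
      inter_mem (c.open_source.mem_nhds hyc)
        (c.continuousAt hyc (inter_mem o1 hF.eventually_analyticAt)), ?_⟩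
    refine (drop_img (o2.mono (inter_subset_inter_left _ (inter_subset_left
      (t := {z | AnalyticAt ℂ (fun z => (R.π (c.symm z)).1) z})))) fun x hx => hx.1.2).mono ?_
    rintro _ ⟨y', ⟨y1, y2, y3⟩, rfl⟩
    refine ⟨c y', ⟨y3, ?_⟩, congrArg (fun w => (R.π w).1) (c.left_inv y2)⟩
    change g (R.π (c.symm (c y'))).1 i = 0
    rw [c.left_inv y2, (hΩ _ (e3 _ (R.π y').2)).2.2.2.1.1 y1]
    rfl
  · rintro x ⟨x1, x2, x3⟩
    have x4 := hKΩ x1
    have x5 : x ∈ u := hu.closure_subset (closure_mono (fun z hz =>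
      ((e1 z).1 ((e2 z hz.1).1 hz.2.1)).1) (ho.inter_closure ⟨x4, (hΩ x x4).2.2.2.2 x2⟩))
    have x6 : (⟨x, (e1 x).2 ⟨x5, x4⟩⟩ : S') ∈ range R.π := by
      rw [R.rng]
      refine ⟨R.sub ⟨x1, x5⟩, closure_subtype.2 (closure_mono ?_ (ho.inter_closure ⟨x4, x3⟩))⟩
      rintro z ⟨z1, z2⟩
      refine ⟨⟨z, (e2 z z1).1 z2.1⟩, (hX _ _ _ _ _ _ _ _ _ hm _ trivial).2 ?_, rfl⟩
      rw [image_univ, Subtype.range_val]
      exact MfdAt.congr z2 (mem_of_superset (ho.mem_nhds z1) e2)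
    obtain ⟨y, hy⟩ := x6
    have hy' : (R.π y).1 = x := congrArg Subtype.val hy
    exact ⟨y, show (R.π y).1 ∈ B from hy' ▸ x2, hy'⟩

section core

variable {E : Type} [NormedAddCommGroup E] [NormedSpace ℂ E] [FiniteDimensional ℂ E]

theorem drop_core (hX : StRegX) (hH : StHir) {S B : Set E} {a : E} (m : ℕ) (hS : An S a)
    (hB : An B a) (hd : ∀ᶠ x in 𝓝 a, x ∈ B → x ∈ closure (S \ B)) :
    ∃ U ∈ 𝓝 a, Small (2 * m) (U ∩ (B ∩ closure (Reg S (m + 1)))) := by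
  have := FiniteDimensional.complete ℂ E
  let e : E ≃L[ℂ] (Fin (Module.finrank ℂ E) → ℂ) :=
    ContinuousLinearEquiv.ofFinrankEq (Module.finrank_fin_fun ℂ).symm
  have ha : e.symm (e a) = a := e.symm_apply_apply a
  obtain ⟨U, h1, h2⟩ := drop_core0 hX hH (S := e.symm ⁻¹' S) (B := e.symm ⁻¹' B) (a := e a) m
    (drop_an_pre (ha.symm ▸ hS) (e.symm.analyticAt _))
    (drop_an_pre (ha.symm ▸ hB) (e.symm.analyticAt _)) (by
      have t := e.symm.continuous.tendsto (e a)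
      rw [ha] at t
      filter_upwards [t.eventually hd] with x hx hb
      have h3 := map_mem_closure (t := e.symm ⁻¹' S \ e.symm ⁻¹' B) e.continuous (hx hb)
        fun z hz => by simpa using hz
      rwa [e.apply_symm_apply] at h3)
  refine ⟨e ⁻¹' U, e.continuous.continuousAt h1,
    (drop_img h2 fun x _ => e.symm.analyticAt x).mono fun x hx => ?_⟩
  refine ⟨e x, ⟨hx.1, by simpa using hx.2.1, map_mem_closure e.continuous hx.2.2 fun z hz => ?_⟩,
    e.symm_apply_apply x⟩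
  exact MfdAt.iso hz (G := e.symm) (e.analyticAt _) (e.symm.analyticAt _)
    (.of_forall fun s hs => ⟨by simpa using hs, e.symm_apply_apply s⟩)
    (.of_forall fun s hs => ⟨hs, e.apply_symm_apply s⟩)

theorem drop_zero (hX : StRegX) (hH : StHir) {S : Set E} {a : E} (hS : An S a) :
    ∃ U ∈ 𝓝 a, Small 0 (U ∩ (S ∩ closure (Reg S 0))) := by
  have h0 : An (Prod.fst ⁻¹' S : Set (E × ℂ)) (a, 0) := drop_an_pre hS analyticAt_fst
  obtain ⟨U, h1, h2⟩ := drop_core hX hH (B := Prod.fst ⁻¹' S ∩ {z | z.2 = 0}) 0 h0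
    (drop_an_inter h0 (drop_an analyticAt_snd (.of_forall fun _ => Iff.rfl)))
    (.of_forall fun x hx => by
      have t : Tendsto (fun t : ℂ => (x.1, t)) (𝓝[≠] 0) (𝓝 x) := by
        have t1 := (Continuous.prodMk_right (Y := ℂ) x.1).tendsto 0
        rw [show (x.1, (0 : ℂ)) = x from Prod.ext rfl hx.2.symm] at t1
        exact t1.mono_left nhdsWithin_le_nhds
      exact mem_closure_of_tendsto t
        (eventually_nhdsWithin_of_forall fun s hs => ⟨hx.1, fun e => hs e.2⟩))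
  refine ⟨(fun x => (x, (0 : ℂ))) ⁻¹' U, (Continuous.prodMk_left _).continuousAt h1,
    (drop_img h2 fun x _ => analyticAt_fst).mono fun x hx => ?_⟩
  refine ⟨(x, 0), ⟨hx.1, ⟨hx.2.1, rfl⟩,
    map_mem_closure (f := fun x => (x, (0 : ℂ))) (by fun_prop) hx.2.2 fun z hz => ?_⟩, rfl⟩
  have h3 := MfdAt.prod hz (MfdAt.univ (0 : ℂ))
  rw [Module.finrank_self, prod_univ] at h3
  exact h3

end core

theorem stDrop (hR : StReg) (hX : StRegX) (hH : StHir) : StDrop := by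
  intro E _ _ _ S B a k hS hB hd ⟨U₀, h0, hs⟩
  have := FiniteDimensional.complete ℂ E
  obtain ⟨O, hO, ho, ha⟩ := eventually_nhds_iff.1 (((hR E S a hS).1.and hd).and
    (((drop_closed hS).and (drop_closed hB)).and h0))
  have hn : ∀ y ∈ O, y ∉ B → O ∩ Bᶜ ∈ 𝓝 y := fun y hy hy' =>
    inter_mem (ho.mem_nhds hy) (mem_of_superset (isClosed_closure.isOpen_compl.mem_nhds
      fun e => hy' ((hO y hy).2.1.2 e)) (compl_subset_compl.2 subset_closure))
  have key : ∀ j, ∃ U ∈ 𝓝 a, Small k (U ∩ (B ∩ closure (O ∩ Bᶜ ∩ Reg S j))) := by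
    intro j
    cases j with
    | zero =>
      obtain ⟨U, h1, h2⟩ := drop_zero hX hH hS
      refine ⟨U ∩ O, inter_mem h1 (ho.mem_nhds ha), (h2.le k.zero_le).mono fun x hx => ?_⟩
      exact ⟨hx.1.1, (hO x hx.1.2).2.1.1 (closure_mono sdiff_subset ((hO x hx.1.2).1.2 hx.2.1)),
        closure_mono inter_subset_right hx.2.2⟩
    | succ m =>
      rcases (O ∩ Bᶜ ∩ Reg S (m + 1)).eq_empty_or_nonempty with e | ⟨y, y1, y2⟩
      · rw [e, closure_empty, inter_empty]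
        exact ⟨univ, univ_mem, by rw [inter_empty]; exact small_empty k⟩
      · have h3 := drop_dim y2 (hn y y1.1 y1.2)
          (hs.mono fun x hx => ⟨(hO x hx.1.1).2.2, hx.2, hx.1.2⟩)
        obtain ⟨U, h1, h2⟩ := drop_core hX hH m hS hB hd
        exact ⟨U, h1, (h2.le (by omega)).mono fun x hx =>
          ⟨hx.1, hx.2.1, closure_mono inter_subset_right hx.2.2⟩⟩
  choose U h1 h2 using key
  refine ⟨O ∩ ⋂ j ≤ Module.finrank ℂ E, U j, inter_mem (ho.mem_nhds ha)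
    ((biInter_mem (finite_le_nat _)).2 fun j _ => h1 j),
    (Small.iUnion h2).mono fun x hx => ?_⟩
  have h3 : x ∈ closure (⋃ j ∈ {j | j ≤ Module.finrank ℂ E}, O ∩ Bᶜ ∩ Reg S j) := by
    refine closure_minimal (fun y hy => ?_) isClosed_closure
      (ho.inter_closure ⟨hx.1.1, (hO x hx.1.1).1.2 hx.2⟩)
    rw [← inter_iUnion₂]
    exact mem_closure_iff_nhds.2 fun W hW => by
      obtain ⟨z, z1, z2⟩ := mem_closure_iff_nhds.1 ((hO y hy.1).1.1 hy.2.1) _
        (inter_mem hW (hn y hy.1 hy.2.2))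
      exact ⟨z, z1.1, z1.2, z2⟩
  rw [(finite_le_nat _).closure_biUnion] at h3
  obtain ⟨j, hj, h4⟩ := mem_iUnion₂.1 h3
  exact mem_iUnion.2 ⟨j, mem_iInter₂.1 hx.1.2 j hj, hx.2, h4⟩

theorem stTop (hR : StReg) (hD : StDrop) : StTop := by
  intro E _ _ _ S a m hS ⟨U₀, h0, hs⟩
  obtain ⟨r1, r2⟩ := hR E S a hS
  obtain ⟨U, h1, h2⟩ := hD E S (⋂ j : Fin (Module.finrank ℂ E + 1), S \ Reg S j) a (2 * m) hS
    (drop_an_iInter fun j => r2 j)
    (r1.mono fun x hx hb => closure_mono (iUnion₂_subset fun j hj z hz => mem_sdiff_of_mem hz.1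
      fun e => (mem_iInter.1 e ⟨j, Nat.lt_succ_of_le hj⟩).2 hz) (hx (mem_iInter.1 hb 0).1))
    ⟨U₀, h0, hs.mono fun x hx => ⟨hx.1, hx.2.1⟩⟩
  refine ⟨U ∩ interior U₀, inter_mem h1 (interior_mem_nhds.2 h0),
    (h2.union (Small.iUnion fun j : Fin (m + 1) => (drop_reg S j).le (by omega))).mono
      fun x hx => ?_⟩
  by_cases e : x ∈ ⋂ j : Fin (Module.finrank ℂ E + 1), S \ Reg S j
  · exact Or.inl ⟨hx.1.1, e⟩
  · rw [mem_iInter, not_forall] at e
    obtain ⟨j, hj⟩ := e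
    have h3 : x ∈ Reg S j := by
      by_contra e
      exact hj ⟨hx.2.1, e⟩
    have h4 := drop_dim h3 (mem_interior_iff_mem_nhds.1 hx.1.2) hs
    have h5 : (j : ℕ) ≠ m + 1 := fun e => hx.2.2 (e ▸ h3)
    exact Or.inr (mem_iUnion.2 ⟨⟨j, by omega⟩, h3⟩)

theorem drop_cd {X : Type} [TopologicalSpace X] [Nice X] {N k : ℕ} {V : Set X} (hV : IsOpen V)
    {f : X → Fin N → ℂ} (hf : IsEmbedding (V.domRestrict f)) {T : Set (Fin N → ℂ)}
    (h : Small k T) : CD k (V ∩ f ⁻¹' T) := by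
  have := Dim.nice_open hV
  exact ((h.cd.preimage hf).image_emb IsEmbedding.subtypeVal).mono fun x hx =>
    ⟨⟨x, hx.1⟩, hx.2, rfl⟩

theorem stResC (hH : StHir) (hT : StTop) (hX : StRegX) (hI : StInj) : StResC := by
  intro X _ _ _ Hol m hM
  obtain ⟨R⟩ := hH X Hol (m + 1) univ (fun x => by
    obtain ⟨N, k, V, Ω, h, φ, h1, h2, -⟩ := hM x
    exact ⟨N, k, V, Ω, h, φ, h1, h2, trivial⟩) (by omega) isCompact_univ
  have : CompactSpace R.Y := ⟨R.proper univ R.sub isCompact_univ⟩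
  have : Nice R.Y := ⟨inferInstance, inferInstance, inferInstance⟩
  refine ⟨⟨m + 1, R.Y⟩, ⟨R.π, R.cont⟩, rfl, R.hol, fun c => hI X R.Y ⟨R.π, R.cont⟩
    (RegX Hol (m + 1))ᶜ _ ?_ ?_ ?_ ?_ ?_ c⟩
  · refine IsOpen.isClosed_compl (isOpen_iff_mem_nhds.2 ?_)
    rintro x ⟨V, Ω, h, φ, h1, h2⟩
    exact mem_of_superset (h2.isOpen.mem_nhds h1) fun y hy => ⟨V, Ω, h, φ, hy, h2⟩
  · refine CD.of_locally fun x _ => ?_
    obtain ⟨N, k, V, Ω, h, φ, h1, h2, h3⟩ := hM x
    have h4 : φ x ∈ Ω := (h2.image.le (mem_image_of_mem φ h1)).1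
    obtain ⟨U, h5, h6⟩ := hT _ (φ '' V) (φ x) m
      ⟨k, fun z i => h i z, analyticAt_pi_iff.2 fun i => h2.holo i _ h4,
        mem_of_superset (h2.isOpen'.mem_nhds h4) fun z hz => by
          rw [mem_ofPred_eq, h2.image]
          exact ⟨fun e => funext e.2, fun e => ⟨hz, congrFun e⟩⟩⟩
      ⟨univ, univ_mem, h3.mono inter_subset_right⟩
    have h7 : ContinuousAt φ x := (continuousOn_iff_continuous_domRestrict.2
      h2.emb.continuous).continuousAt (h2.isOpen.mem_nhds h1)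
    refine ⟨V ∩ φ ⁻¹' U, inter_mem (h2.isOpen.mem_nhds h1) (h7 h5),
      ((drop_cd h2.isOpen h2.emb h6).le (by push_cast; omega)).mono fun y hy => ?_⟩
    exact ⟨hy.2.1, hy.2.2, mem_image_of_mem φ hy.2.1,
      fun e => hy.1 ((hX _ _ _ _ _ _ _ _ _ h2 y hy.2.1).2 e)⟩
  · refine CD.of_locally fun y _ => ⟨_, chart_source_mem_nhds (Fin (m + 1) → ℂ) y, ?_⟩
    exact ((drop_cd (chartAt (Fin (m + 1) → ℂ) y).open_source
      (chartAt (Fin (m + 1) → ℂ) y).isEmbedding_restrict (drop_hyp m)).le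
        (by push_cast; omega)).mono fun y' hy' => ⟨hy'.2, R.snc y y' hy'.2 hy'.1⟩
  · exact fun y hy y' _ e => (R.one y y' (not_not.1 hy) e.symm).symm
  · rw [compl_compl]
    change _ ⊆ range R.π
    rw [R.rng]
    exact fun x hx => ⟨R.sub trivial, subset_closure hx⟩

end Vale.Agent.P287Q.H3
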