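import Vale.Agent.P287Q.H3.St
import Vale.Agent.P277Z.Hir.All
import Vale.Agent.P277Z.Oka.All

/-!
# Resolution of the part of dimension `n` of a complex space
-/

namespace Vale.Agent.P287Q.H3

open Set Function Topology Filter P277 P277Z

section model

variable {X : Type} [TopologicalSpace X] {Hol : (X → ℂ) → X → Prop} {V : Set X} {N k : ℕ}
  {Ω : Set (Fin N → ℂ)} {h : Fin k → (Fin N → ℂ) → ℂ} {φ : X → Fin N → ℂ}

theorem hir_ca (M : IsModel Hol V Ω h φ) {x : X} (hx : x ∈ V) : ContinuousAt φ x :=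
  (continuousOn_iff_continuous_domRestrict.2 M.emb.continuous).continuousAt (M.isOpen.mem_nhds hx)

theorem hir_inj (M : IsModel Hol V Ω h φ) : InjOn φ V := fun a ha b hb e =>
  congrArg Subtype.val (@M.emb.injective ⟨a, ha⟩ ⟨b, hb⟩ e)

theorem hir_mem (M : IsModel Hol V Ω h φ) {x : X} (hx : x ∈ V) : φ x ∈ Ω :=
  (M.image ▸ mem_image_of_mem φ hx : φ x ∈ {z ∈ Ω | ∀ i, h i z = 0}).1

theorem hir_an (M : IsModel Hol V Ω h φ) {x : X} (hx : x ∈ V) : An (φ '' V) (φ x) := by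
  refine ⟨k, fun z i => h i z, analyticAt_pi_iff.2 fun i => M.holo i _ (hir_mem M hx), ?_⟩
  filter_upwards [M.isOpen'.mem_nhds (hir_mem M hx)] with z hz
  rw [M.image]
  exact ⟨fun a => funext a.2, fun a => ⟨hz, congrFun a⟩⟩

/-- closures are computed in the models -/
theorem hir_clo (M : IsModel Hol V Ω h φ) (R : Set X) {z : Fin N → ℂ} (hz : z ∈ Ω) :
    z ∈ closure (φ '' (V ∩ R)) ↔ z ∈ φ '' (V ∩ closure R) := by
  constructor
  · intro a
    obtain ⟨y, hy, rfl⟩ : z ∈ φ '' V := by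
      rw [M.image]
      refine ⟨hz, fun i => by_contra fun b => ?_⟩
      obtain ⟨w, w1, u, hu, rfl⟩ := mem_closure_iff_nhds.1 a _
        ((M.holo i z hz).continuousAt.eventually_ne b)
      exact w1 ((M.image ▸ mem_image_of_mem φ hu.1 : φ u ∈ {z ∈ Ω | ∀ i, h i z = 0}).2 i)
    refine ⟨y, ⟨hy, mem_closure_iff_nhds.2 fun t ht => ?_⟩, rfl⟩
    obtain ⟨w, w1, u, hu, rfl⟩ := mem_closure_iff_nhds.1 a _ (Oka.Csp.push M hy ht)
    exact ⟨u, w1 u hu.1 rfl, hu.2⟩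
  · rintro ⟨y, hy, rfl⟩
    exact mem_closure_image (hir_ca M hy.1) (M.isOpen.inter_closure hy)

/-- the holomorphic functions on a subset -/
def hirHol (Hol : (X → ℂ) → X → Prop) (C : Set X) (f : C → ℂ) (x : C) : Prop :=
  ∃ F, Hol F x.1 ∧ ∀ᶠ y in 𝓝 x, f y = F y.1

/-- models of analytic subsets -/
theorem hir_sub (M : IsModel Hol V Ω h φ) (C : Set X) {k' : ℕ} {Ω' : Set (Fin N → ℂ)}
    {h' : Fin k' → (Fin N → ℂ) → ℂ} (ho : IsOpen Ω') (ha : ∀ i, ∀ z ∈ Ω', AnalyticAt ℂ (h' i) z)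
    (he : ∀ z ∈ Ω', z ∈ φ '' (V ∩ C) ↔ ∀ i, h' i z = 0) :
    IsModel (hirHol Hol C) {y : C | y.1 ∈ V ∧ φ y.1 ∈ Ω'} Ω' h' fun y => φ y.1 where
  isOpen := isOpen_iff_mem_nhds.2 fun y hy => continuousAt_subtype_val.eventually
    (Eventually.and (M.isOpen.mem_nhds hy.1) ((hir_ca M hy.1).eventually (ho.mem_nhds hy.2)))
  isOpen' := ho
  holo := ha
  image := Set.ext fun z => ⟨fun ⟨y, hy, e⟩ => e ▸ ⟨hy.2, (he _ hy.2).1 ⟨y.1, ⟨hy.1, y.2⟩, rfl⟩⟩,
    fun hz => let ⟨y, hy, e⟩ := (he z hz.1).2 hz.2; ⟨⟨y, hy.2⟩, ⟨hy.1, e ▸ hz.1⟩, e⟩⟩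
  emb := M.emb.comp ((IsEmbedding.subtypeVal.comp IsEmbedding.subtypeVal).codRestrict V
    fun y : {y : C | y.1 ∈ V ∧ φ y.1 ∈ Ω'} => y.2.1)
  hol := fun x hx f => by
    constructor
    · rintro ⟨F, hF, e⟩
      obtain ⟨g, hg, e'⟩ := (M.hol _ hx.1 F).1 hF
      refine ⟨g, hg, ?_⟩
      filter_upwards [e, continuousAt_subtype_val.eventually e'] with y a b using a.trans b
    · rintro ⟨g, hg, e⟩
      exact ⟨g ∘ φ, (M.hol _ hx.1 _).2 ⟨g, hg, .rfl⟩, e⟩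

theorem hir_sub' (M : IsModel Hol V Ω h φ) (C : Set X) (x : C)
    (hC : An (φ '' (V ∩ C)) (φ x.1)) :
    ∃ (k' : ℕ) (Ω' : Set (Fin N → ℂ)) (h' : Fin k' → (Fin N → ℂ) → ℂ), IsOpen Ω' ∧ φ x.1 ∈ Ω' ∧
      IsModel (hirHol Hol C) {y : C | y.1 ∈ V ∧ φ y.1 ∈ Ω'} Ω' h' fun y => φ y.1 := by
  obtain ⟨k', g, hg, e⟩ := hC
  obtain ⟨Ω', a, b, c⟩ := eventually_nhds_iff.1 (hg.eventually_analyticAt.and e)
  exact ⟨k', Ω', fun i z => g z i, b, c, hir_sub M C b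
    (fun i z hz => analyticAt_pi_iff.1 (a z hz).1 i) fun z hz => (a z hz).2.trans funext_iff⟩

/-- the functions `f l` define `A` at `x` and generate the functions which vanish on `A` -/
structure HirGen (Hol : (X → ℂ) → X → Prop) (A : Set X) {m : ℕ} (f : Fin m → X → ℂ) (x : X) :
    Prop where
  hol : ∀ l, Hol (f l) x
  mem : x ∈ A ↔ ∀ l, f l x = 0
  gen : ∀ F, Hol F x → (∀ᶠ y in 𝓝 x, y ∈ A → F y = 0) →
    ∃ c : Fin m → X → ℂ, (∀ l, ContinuousAt (c l) x) ∧ ∀ᶠ y in 𝓝 x, F y = ∑ l, c l y * f l y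

theorem hir_gen (M : IsModel Hol V Ω h φ) {A : Set X} {x : X} (hx : x ∈ V)
    (hA : An (φ '' (V ∩ A)) (φ x)) :
    ∃ (m : ℕ) (f : Fin m → X → ℂ), ∀ᶠ y in 𝓝 x, HirGen Hol A f y := by
  obtain ⟨k', s, hs, e⟩ := hA
  have hs' := analyticAt_pi_iff.1 hs
  obtain ⟨m, g, hg, h1, h2⟩ := Oka.car_all _ (Fin k') (φ x) (fun i z => s z i) hs'
  have h3 : ∀ i, Oka.Van (φ x) (Oka.Zs g) (fun z => s z i) := fun i =>
    (h2.self_of_nhds _ (hs' i) (.of_forall fun y hy => hy i)).van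
  refine ⟨m, fun l y => g l (φ y), ?_⟩
  filter_upwards [M.isOpen.mem_nhds hx, (hir_ca M hx).eventually
    (e.eventually_nhds.and (h2.and ((eventually_all.2 fun l => (hg l).eventually_analyticAt).and
      ((eventually_all.2 h1).and (eventually_all.2 h3)))))] with y hy ⟨a1, a2, a3, a4, a5⟩
  refine ⟨fun l => (M.hol y hy _).2 ⟨g l, a3 l, .rfl⟩,
    ⟨fun b l => a4 l (congrFun (a1.self_of_nhds.1 ⟨y, ⟨hy, b⟩, rfl⟩)), fun b => ?_⟩,
    fun F hF h0 => ?_⟩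
  · obtain ⟨y', c, d⟩ := a1.self_of_nhds.2 (funext fun i => a5 i b)
    exact hir_inj M c.1 hy d ▸ c.2
  obtain ⟨G, hG, e'⟩ := (M.hol y hy F).1 hF
  obtain ⟨c, c1, c2⟩ := a2 G hG (by
    filter_upwards [a1, Oka.Csp.push M hy (h0.and e')] with z b hz d
    obtain ⟨y', b', rfl⟩ := b.2 (funext d)
    exact (hz y' b'.1 rfl).2.symm.trans ((hz y' b'.1 rfl).1 b'.2))
  refine ⟨fun l y => c l (φ y), fun l => (c1 l).continuousAt.comp (hir_ca M hy), ?_⟩
  filter_upwards [e', (hir_ca M hy).eventually c2] with z b d using b.trans d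

theorem HirGen.le {A : Set X} {m m' : ℕ} {f : Fin m → X → ℂ} {f' : Fin m' → X → ℂ} {x : X}
    (h : ∀ᶠ y in 𝓝 x, HirGen Hol A f y) (h' : HirGen Hol A f' x) :
    ∃ C : ℝ, 0 ≤ C ∧ ∀ᶠ y in 𝓝 x, ∑ k, ‖f k y‖ ≤ C * ∑ l, ‖f' l y‖ := by
  choose c c1 c2 using fun k => h'.gen (f k) (h.self_of_nhds.hol k)
    (h.mono fun y a b => a.mem.1 b k)
  refine ⟨∑ k, ∑ l, (‖c k l x‖ + 1), by positivity, ?_⟩
  filter_upwards [eventually_all.2 c2, eventually_all.2 fun k => eventually_all.2 fun l =>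
    (c1 k l).norm.eventually (gt_mem_nhds (lt_add_one ‖c k l x‖))] with y a b
  rw [Finset.sum_mul]
  refine Finset.sum_le_sum fun k _ => ?_
  rw [a k, Finset.mul_sum]
  refine (norm_sum_le _ _).trans (Finset.sum_le_sum fun l _ => ?_)
  rw [norm_mul]
  exact mul_le_mul_of_nonneg_right ((b k l).le.trans (Finset.single_le_sum
    (f := fun l => ‖c k l x‖ + 1) (fun _ _ => by positivity) (Finset.mem_univ l))) (norm_nonneg _)

/-- the base attached to a complex space and a closed analytic subset -/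
noncomputable def hirBase [T2Space X] [LocallyCompactSpace X] (hM : Mdl Hol fun _ _ => True)
    (A : Set X) (hA : IsClosed A) (m : X → ℕ) (f : ∀ x, Fin (m x) → X → ℂ)
    (hf : ∀ x, ∀ᶠ y in 𝓝 x, HirGen Hol A (f x) y) : Hir.Base where
  X := X
  Hol := Hol
  comp := fun x ι _ g G F hg hG e => by
    obtain ⟨N, k, V, Ω, h, φ, hx, M, -⟩ := hM x
    choose a a1 a2 using fun l => (M.hol x hx _).1 (hg l)
    have e' : ∀ᶠ y in 𝓝 x, g y = fun l => a l (φ y) :=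
      (eventually_all.2 a2).mono fun y hy => funext hy
    refine (M.hol x hx _).2 ⟨fun z => G fun l => a l z,
      hG.comp_of_eq (analyticAt_pi_iff.2 a1) e'.self_of_nhds.symm, ?_⟩
    filter_upwards [e, e'] with y b c using b.trans (congrArg G c)
  cont := fun F x hF => by
    obtain ⟨N, k, V, Ω, h, φ, hx, M, -⟩ := hM x
    obtain ⟨g, hg, e⟩ := (M.hol x hx _).1 hF
    exact (hg.continuousAt.comp (hir_ca M hx)).congr e.symm
  ev := fun F x hF => by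
    obtain ⟨N, k, V, Ω, h, φ, hx, M, -⟩ := hM x
    obtain ⟨g, hg, e⟩ := (M.hol x hx _).1 hF
    filter_upwards [M.isOpen.mem_nhds hx, (hir_ca M hx).eventually hg.eventually_analyticAt,
      e.eventually_nhds] with y a b c using (M.hol y a _).2 ⟨g, b, c⟩
  Bad := A
  closed := hA
  Γ := X
  XO := fun γ => interior {y | HirGen Hol A (f γ) y}
  isOpen := fun _ => isOpen_interior
  cover := fun x => ⟨x, mem_interior_iff_mem_nhds.2 (hf x)⟩
  m := m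
  f := f
  hol := fun _ k _ hx => (interior_subset hx).hol k
  zero := fun _ _ hx => (interior_subset hx).mem
  cpb := fun γ γ' x a b => by
    obtain ⟨C, c0, c1⟩ := HirGen.le (mem_interior_iff_mem_nhds.1 a) (interior_subset b)
    obtain ⟨D, d0, d1⟩ := HirGen.le (mem_interior_iff_mem_nhds.1 b) (interior_subset a)
    refine ⟨C + D + 1, by positivity, ?_⟩
    filter_upwards [c1, d1] with y p q
    exact ⟨p.trans (mul_le_mul_of_nonneg_right (by linarith) (by positivity)),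
      q.trans (mul_le_mul_of_nonneg_right (by linarith) (by positivity))⟩

theorem hir_open (Hol : (X → ℂ) → X → Prop) (n : ℕ) : IsOpen (RegX Hol n) :=
  isOpen_iff_mem_nhds.2 fun _ ⟨V, Ω, h, φ, hx, M⟩ =>
    mem_of_superset (M.isOpen.mem_nhds hx) fun _ hy => ⟨V, Ω, h, φ, hy, M⟩

theorem hir_inter {S T : Set (Fin N → ℂ)} {a : Fin N → ℂ} (hS : An S a) (hT : An T a) :
    An (S ∩ T) a := by
  obtain ⟨k, g, hg, e⟩ := hS
  obtain ⟨k', g', hg', e'⟩ := hT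
  refine ⟨k + k', fun z => Fin.append (g z) (g' z), analyticAt_pi_iff.2 fun i => ?_, ?_⟩
  · refine Fin.addCases (fun i => ?_) (fun i => ?_) i
    · simpa only [Fin.append_left] using analyticAt_pi_iff.1 hg i
    · simpa only [Fin.append_right] using analyticAt_pi_iff.1 hg' i
  · filter_upwards [e, e'] with z a b
    rw [mem_inter_iff, a, b]
    simp only [funext_iff, Fin.forall_fin_add, Fin.append_left, Fin.append_right, Pi.zero_apply]

theorem hir_congr {S T : Set (Fin N → ℂ)} {a : Fin N → ℂ} (hS : An S a)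
    (e : ∀ᶠ z in 𝓝 a, z ∈ S ↔ z ∈ T) : An T a :=
  let ⟨k, g, hg, e'⟩ := hS
  ⟨k, g, hg, (e.and e').mono fun _ b => b.1.symm.trans b.2⟩

/-- the closure of the regular points and the other points are analytic in the models -/
theorem hir_two (h1 : StClo) (h2 : StReg) (h3 : StRegX) (M : IsModel Hol V Ω h φ) (n : ℕ) {x : X}
    (hx : x ∈ V) : An (φ '' (V ∩ closure (RegX Hol n))) (φ x) ∧
      An (φ '' (V ∩ (RegX Hol n)ᶜ)) (φ x) := by
  have e := h3 X Hol N k n V Ω h φ M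
  have a := (h2 _ _ _ (hir_an M hx)).2 n
  have e1 : φ '' V \ Reg (φ '' V) n = φ '' (V ∩ (RegX Hol n)ᶜ) := Set.ext fun z =>
    ⟨fun ⟨⟨y, hy, c⟩, b⟩ => ⟨y, ⟨hy, fun d => b (c ▸ (e y hy).1 d)⟩, c⟩,
      fun ⟨y, hy, c⟩ => ⟨⟨y, hy.1, c⟩, fun d => hy.2 ((e y hy.1).2 (c ▸ d))⟩⟩
  have e2 : φ '' V \ (φ '' V \ Reg (φ '' V) n) = φ '' (V ∩ RegX Hol n) := Set.ext fun z =>
    ⟨fun ⟨⟨y, hy, c⟩, b⟩ => ⟨y, ⟨hy, (e y hy).2 (c ▸ by_contra fun d => b ⟨⟨y, hy, c⟩, d⟩)⟩, c⟩,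
      fun ⟨y, hy, c⟩ => ⟨⟨y, hy.1, c⟩, fun d => d.2 (c ▸ (e y hy.1).1 hy.2)⟩⟩
  refine ⟨hir_congr (h1 _ _ _ _ (hir_an M hx) a) ?_, e1 ▸ a⟩
  filter_upwards [M.isOpen'.mem_nhds (hir_mem M hx)] with z hz
  rw [e2, hir_clo M _ hz]

end model

/-- **Resolution of singularities.** -/
theorem stHir (h1 : StClo) (h2 : StReg) (h3 : StRegX) : StHir := by
  intro X _ _ _ Hol n K hM hn hK
  set R := RegX Hol n with hR
  set C := closure R with hC
  have ho : IsOpen R := hir_open Hol n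
  have hc : IsClosed C := isClosed_closure
  have : LocallyCompactSpace C := hc.locallyCompactSpace
  have key : ∀ x : C, ∃ (N k : ℕ) (V : Set C) (Ω : Set (Fin N → ℂ))
      (h : Fin k → (Fin N → ℂ) → ℂ) (φ : C → Fin N → ℂ), x ∈ V ∧
      IsModel (hirHol Hol C) V Ω h φ ∧ An (φ '' (V ∩ {y | y.1 ∉ R})) (φ x) := by
    intro x
    obtain ⟨N, k, V, Ω, h, φ, hx, M, -⟩ := hM x.1
    obtain ⟨a, b⟩ := hir_two h1 h2 h3 M n hx
    obtain ⟨k', Ω', h', o, m, M'⟩ := hir_sub' M C x a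
    refine ⟨N, k', _, Ω', h', _, (And.intro hx m :), M', hir_congr (hir_inter a b) ?_⟩
    filter_upwards [o.mem_nhds m] with z hz
    constructor
    · rintro ⟨⟨y, hy, rfl⟩, y', hy', e⟩
      obtain rfl := hir_inj M hy'.1 hy.1 e
      exact ⟨⟨y', hy.2⟩, ⟨⟨hy.1, hz⟩, hy'.2⟩, rfl⟩
    · rintro ⟨y, hy, rfl⟩
      exact ⟨⟨y.1, ⟨hy.1.1, y.2⟩, rfl⟩, y.1, ⟨hy.1.1, hy.2⟩, rfl⟩
  have hM' : Mdl (hirHol Hol C) fun _ _ => True := fun x =>
    let ⟨N, k, V, Ω, h, φ, hx, M, _⟩ := key x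
    ⟨N, k, V, Ω, h, φ, hx, M, trivial⟩
  choose m f hf using fun x : C =>
    let ⟨_, _, _, _, _, _, hx, M, a⟩ := key x
    hir_gen M hx a
  have hB : IsClosed {y : C | y.1 ∉ R} := (ho.isClosed_compl).preimage continuous_subtype_val
  have hd : Dense {y : C | y.1 ∉ R}ᶜ := Subtype.dense_iff.2 (closure_mono fun z hz =>
    ⟨⟨z, subset_closure hz⟩, fun a => a hz, rfl⟩)
  have hp : ∀ L : Set X, IsCompact L → IsCompact ((↑) ⁻¹' L : Set C) := fun L hL =>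
    hc.isClosedEmbedding_subtypeVal.isCompact_preimage hL
  obtain ⟨o⟩ := Hir.stMain (hirBase hM' _ hB m f hf) n ((↑) ⁻¹' K : Set C) hn
    ⟨fun x => let ⟨N, k, V, Ω, h, φ, hx, M, _⟩ := key x; ⟨N, k, V, Ω, h, φ, hx, M⟩,
      fun x hx => by
        obtain ⟨V, Ω, h, φ, hx, M⟩ : x.1 ∈ R := not_not.1 hx
        refine ⟨_, Ω, h, _, (And.intro hx (hir_mem M hx) :),
          hir_sub M C M.isOpen' M.holo fun z hz => ?_⟩
        have : V ⊆ C := fun y hy => subset_closure (⟨V, Ω, h, φ, hy, M⟩ : y ∈ RegX Hol n)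
        rw [inter_eq_left.2 this, M.image]
        exact and_iff_right hz, hd⟩ (hp K hK)
  obtain ⟨O, hO, eO⟩ := isOpen_induced_iff.1 o.isOpen
  have mO : ∀ x : C, x.1 ∈ O ∪ Cᶜ ↔ x ∈ o.O := fun x =>
    (or_iff_left fun a => a x.2).trans (eO ▸ Iff.rfl)
  let := o.top
  have := o.t2
  have := o.sc
  let := o.cs
  have := o.mf
  refine ⟨{
    O := O ∪ Cᶜ
    isOpen := hO.union hc.isOpen_compl
    sub := fun x hx => by_cases (fun a : x ∈ C => (mO ⟨x, a⟩).2 (o.sub hx)) Or.inr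
    Y := o.Y
    π := fun y => (o.π y : C).1
    cont := continuous_subtype_val.comp o.cont
    rng := ?_
    proper := fun L hL hL' => o.proper _ (fun x hx => (mO x).1 (hL hx)) (hp L hL')
    hol := fun y g hg => o.hol y (fun x : C => g x.1) ⟨g, hg, .of_forall fun _ => rfl⟩
    one := fun y y' a b => o.one y y' (fun c => c a) (Subtype.ext b)
    opn := fun y a => ?_
    snc := fun y y' a b => ?_ }⟩
  · refine Subset.antisymm ?_ fun x hx => ?_
    · rintro _ ⟨y, rfl⟩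
      exact ⟨(mO _).2 (o.maps y), (o.π y : C).2⟩
    obtain ⟨L, l1, l2, l3⟩ := local_compact_nhds (o.isOpen.mem_nhds ((mO ⟨x, hx.2⟩).1 hx.1))
    have c : IsClosed (o.π '' (o.π ⁻¹' L)) := ((o.proper L l2 l3).image o.cont).isClosed
    obtain ⟨y, -, e⟩ : (⟨x, hx.2⟩ : C) ∈ o.π '' (o.π ⁻¹' L) := by
      refine c.closure_subset (mem_closure_iff_nhds.2 fun t ht => ?_)
      obtain ⟨z, z1, z2⟩ := hd.inter_nhds_nonempty (inter_mem ht l1)
      obtain ⟨y, rfl⟩ := o.surj z (l2 z2.2) z1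
      exact ⟨_, z2.1, y, z2.2, rfl⟩
    exact ⟨y, congrArg Subtype.val e⟩
  · obtain ⟨σ, s1, s2, s3, -⟩ := o.sec y fun c => c a
    have e1 : 𝓝 (o.π y) ≤ map o.π (𝓝 y) := fun t ht => by
      filter_upwards [s3, s1.eventually_mem (s2.symm ▸ mem_map.1 ht :)] with z b c using b ▸ c
    have e2 : 𝓝 (o.π y : C).1 = map (Subtype.val : C → X) (𝓝 (o.π y : C)) :=
      ((map_nhds_subtype_val (o.π y : C)).trans (nhdsWithin_eq_nhds.2
        (mem_of_superset (ho.mem_nhds a) subset_closure))).symm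
    exact e2.le.trans (map_mono e1)
  · obtain ⟨l, hl⟩ := (o.bad y').1 b
    exact ((o.snc y l y' a).1 hl).imp fun _ c => c.2

end Vale.Agent.P287Q.H3
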