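import Vale.Agent.P287Q.H3.St

/-!
# The quotient of an analytic orbispace is a complex space (Cartan)
-/

namespace Vale.Agent.P287Q.H3

open Set Function Topology Filter P291Z P269 P269.Ch P269.Holo P269.Mono P269.Orb

theorem quot_fin {n N : ℕ} (a : Fin n → Fin N → ℂ) :
    {x : Fin n → ℂ | ∀ i, mp (a i) (x i) = 0}.Finite := by
  refine (Finite.pi' fun i => Polynomial.finite_setOfPred_isRoot (Polynomial.monic_X_pow_add
    (Polynomial.degree_sum_fin_lt (a i))).ne_zero).subset fun x hx i => ?_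
  simpa [mp, Polynomial.eval_finsetSum] using hx i

theorem quot_patch {M β : Type} [TopologicalSpace M] [T2Space M] {Z : Set M} (hZ : Z.Finite)
    (F : M → M → β) : ∃ f : M → β, (∀ z ∈ Z, f =ᶠ[𝓝 z] F z) ∧ ∀ y, ∃ z, f y = F z y := by
  classical
  obtain ⟨U, h1, h2⟩ := hZ.t2_separation
  refine ⟨fun y => F (if h : ∃ z ∈ Z, y ∈ U z then h.choose else y) y, fun z hz => ?_,
    fun y => ⟨_, rfl⟩⟩
  filter_upwards [(h1 z).2.mem_nhds (h1 z).1] with y hy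
  have h : ∃ z ∈ Z, y ∈ U z := ⟨z, hz, hy⟩
  rw [dif_pos h, h2.elim_set h.choose_spec.1 hz y h.choose_spec.2 hy]

theorem quot_mkAn {A B : Type} [NormedAddCommGroup A] [NormedSpace ℂ A] [NormedAddCommGroup B]
    [NormedSpace ℂ B] [FiniteDimensional ℂ B] {S : Set A} {a : A} (h : A → B)
    (h1 : AnalyticAt ℂ h a) (h2 : ∀ᶠ z in 𝓝 a, z ∈ S ↔ h z = 0) : An S a := by
  let L : B ≃L[ℂ] (Fin (Module.finrank ℂ B) → ℂ) := ContinuousLinearEquiv.ofFinrankEq (by simp)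
  exact ⟨_, fun z => L (h z), (L.analyticAt _).comp h1,
    h2.mono fun z hz => hz.trans L.map_eq_zero_iff.symm⟩

open Polynomial in
/-- Symmetric functions of finitely many points. -/
theorem quot_sym (Γ : Type) [Fintype Γ] (n : ℕ) : ∃ (M N : ℕ) (Ψ : (Γ → Fin n → ℂ) → Fin M → ℂ)
    (e : (Fin M → ℂ) → Fin n → Fin N → ℂ) (r : (Fin M → ℂ) → (Fin n → Fin N) → ℂ),
    (∀ x, AnalyticAt ℂ Ψ x) ∧ (∀ y, AnalyticAt ℂ e y) ∧ (∀ y, AnalyticAt ℂ r y) ∧
    (∀ (σ : Γ ≃ Γ) x, Ψ (fun γ => x (σ γ)) = Ψ x) ∧ (∀ x γ i, mp (e (Ψ x) i) (x γ i) = 0) ∧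
    ∀ x α, r (Ψ x) α = ∑ γ, ∏ i, x γ i ^ (α i : ℕ) := by
  let N := Fintype.card Γ
  let E := (Fin n → Fin N → ℂ) × ((Fin n → Fin N) → ℂ)
  let L : E ≃L[ℂ] (Fin (Module.finrank ℂ E) → ℂ) := ContinuousLinearEquiv.ofFinrankEq (by simp)
  have h0 : ∀ (γ : Γ) (i : Fin n) (x : Γ → Fin n → ℂ),
      AnalyticAt ℂ (fun x : Γ → Fin n → ℂ => x γ i) x := fun γ i x =>
    ((ContinuousLinearMap.proj (R := ℂ) (φ := fun _ : Fin n => ℂ) i).comp
      (ContinuousLinearMap.proj (R := ℂ) (φ := fun _ : Γ => Fin n → ℂ) γ)).analyticAt x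
  refine ⟨_, N, fun x => L (fun i k => (∏ γ, (X - C (x γ i))).coeff k,
    fun α => ∑ γ, ∏ i, x γ i ^ (α i : ℕ)), fun y => (L.symm y).1, fun y => (L.symm y).2,
    fun x => (L.analyticAt _).comp (AnalyticAt.prod (.pi fun i => .pi fun k => ?_) (.pi fun α =>
      Finset.analyticAt_fun_sum _ fun γ _ => Finset.analyticAt_fun_prod _ fun i _ =>
        (h0 γ i x).fun_pow _)),
    fun y => analyticAt_fst.comp (L.symm.analyticAt y),
    fun y => analyticAt_snd.comp (L.symm.analyticAt y), fun σ x => ?_, fun x γ i => ?_,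
    fun x α => by simp only [L.symm_apply_apply]⟩
  · simp only [sub_eq_add_neg, ← C_neg, Finset.prod_X_add_C_coeff _ _ k.2.le]
    exact Finset.analyticAt_fun_sum _ fun s _ => Finset.analyticAt_fun_prod _ fun γ _ =>
      (h0 γ i x).fun_neg
  · refine congrArg L (Prod.ext (funext₂ fun i k => ?_) (funext fun α => ?_))
    · exact congrArg (coeff · k) (σ.prod_comp fun γ => X - C (x γ i))
    · exact σ.sum_comp fun γ => ∏ i, x γ i ^ (α i : ℕ)
  · have h1 := congrArg (Polynomial.eval (x γ i))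
      (monic_prod_X_sub_C (fun γ => x γ i) Finset.univ).as_sum
    rw [natDegree_finsetProd_X_sub_C_eq_card, eval_prod,
      Finset.prod_eq_zero (Finset.mem_univ γ) (by simp), Finset.card_univ,
      ← Fin.sum_univ_eq_sum_range] at h1
    simpa [mp, eval_finsetSum, N] using h1.symm

section cartan

variable {Γ U X : Type} [Group Γ] [Fintype Γ] [TopologicalSpace U] [TopologicalSpace X]
  {n M N : ℕ} {a : Γ → U → U} {p : U → X} {j : U → Fin n → ℂ} {Φ : U → Fin M → ℂ}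
  {e : (Fin M → ℂ) → Fin n → Fin N → ℂ} {r : (Fin M → ℂ) → (Fin n → Fin N) → ℂ}

omit [Group Γ] [TopologicalSpace U] in
/-- Sums over the orbits are analytic functions of the invariants. -/
theorem quot_herm (hH : StHerm) (he : ∀ y, AnalyticAt ℂ e y) (hr : ∀ y, AnalyticAt ℂ r y)
    (h1 : ∀ v γ i, mp (e (Φ v) i) (j (a γ v) i) = 0)
    (h2 : ∀ v α, r (Φ v) α = ∑ γ, ∏ i, j (a γ v) i ^ (α i : ℕ)) (u : U)
    (F : (Fin n → ℂ) → (Fin n → ℂ) → ℂ) (hF : ∀ z, AnalyticAt ℂ (F z) z) :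
    ∃ (f : (Fin n → ℂ) → ℂ) (g : (Fin M → ℂ) → ℂ), AnalyticAt ℂ g (Φ u) ∧
      (∀ γ, f =ᶠ[𝓝 (j (a γ u))] F (j (a γ u))) ∧ (∀ y, ∃ z, f y = F z y) ∧
      ∀ᶠ y in 𝓝 (Φ u), ∀ v, Φ v = y → ∑ γ, f (j (a γ v)) = g y := by
  obtain ⟨f, h3, h4⟩ := quot_patch (quot_fin (e (Φ u))) F
  obtain ⟨c, h5, h6⟩ := hH _ n N e (Φ u) (fun z => f z.1) (he _) fun x hx =>
    AnalyticAt.comp (g := f) ((hF x).congr (h3 x hx).symm) analyticAt_fst
  refine ⟨f, fun y => ∑ α, c y α * r y α, Finset.analyticAt_fun_sum _ fun α _ =>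
    (analyticAt_pi_iff.1 h5 α).mul (analyticAt_pi_iff.1 (hr _) α), fun γ => h3 _ (h1 u γ), h4,
    h6.mono ?_⟩
  rintro _ h7 v rfl
  simp only [h2, Finset.mul_sum]
  rw [Finset.sum_comm]
  exact Finset.sum_congr rfl fun γ _ => h7 _ (h1 v γ)

/-- The invariants determine the orbit, continuously. -/
theorem quot_near (hH : StHerm) (hp : IsUC a p) (hj : IsEmbedding j) (he : ∀ y, AnalyticAt ℂ e y)
    (hr : ∀ y, AnalyticAt ℂ r y) (h1 : ∀ v γ i, mp (e (Φ v) i) (j (a γ v) i) = 0)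
    (h2 : ∀ v α, r (Φ v) α = ∑ γ, ∏ i, j (a γ v) i ^ (α i : ℕ)) (u : U) {W : Set U}
    (hW : W ∈ 𝓝 u) : ∀ᶠ y in 𝓝 (Φ u), ∀ v, Φ v = y → ∃ γ, a γ v ∈ W := by
  classical
  rw [hj.nhds_eq_comap] at hW
  obtain ⟨B, hB, hBW⟩ := hW
  obtain ⟨f, g, h3, h4, h5, h6⟩ := quot_herm hH he hr h1 h2 u
    (fun z y => if z = j u ∧ y ∈ B then 1 else 0) fun z => by
      by_cases hz : z = j u
      · exact (analyticAt_const (v := 1)).congr (by
          filter_upwards [hz ▸ hB] with y hy using (if_pos ⟨hz, hy⟩).symm)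
      · simp only [hz, false_and, if_false]
        exact analyticAt_const
  have h7 : g (Φ u) ≠ 0 := by
    rw [← h6.self_of_nhds u rfl, Finset.sum_congr rfl fun γ _ => (h4 γ).self_of_nhds,
      Finset.sum_boole, Nat.cast_ne_zero, Finset.card_ne_zero]
    exact ⟨1, by simp [hp.one, mem_of_mem_nhds hB]⟩
  filter_upwards [h6, h3.continuousAt.eventually_ne h7] with y h8 h9 v hv
  obtain ⟨γ, -, h10⟩ := Finset.exists_ne_zero_of_sum_ne_zero ((h8 v hv).trans_ne h9)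
  obtain ⟨z, hz⟩ := h5 (j (a γ v))
  exact ⟨γ, hBW (by_contra fun h => h10 (hz.trans (if_neg fun h' => h h'.2)))⟩

/-- The image of the invariants is analytic. -/
theorem quot_an (hF : StFin) (hp : IsUC a p) (hj : IsEmbedding j) (han : ∀ u, An (range j) (j u))
    (hΦ : ∀ u, HolAt j Φ u) (he : ∀ y, AnalyticAt ℂ e y)
    (h1 : ∀ v γ i, mp (e (Φ v) i) (j (a γ v) i) = 0) (u : U)
    (h2 : ∀ W ∈ 𝓝 u, ∀ᶠ y in 𝓝 (Φ u), ∀ v, Φ v = y → ∃ γ, a γ v ∈ W) : An (range Φ) (Φ u) := by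
  have := hF _ n N e (Φ u) (range fun v => (j v, Φ v)) (he _) (by
    rintro _ ⟨v, rfl⟩ i
    simpa only [hp.one] using h1 v 1 i) fun x _ => ?_
  · rwa [← range_comp] at this
  by_cases hx : ∃ γ, j (a γ u) = x
  · obtain ⟨γ, rfl⟩ := hx
    obtain ⟨k, h, h3, h4⟩ := han (a γ u)
    obtain ⟨Ψ, h5, h6⟩ := hΦ (a γ u)
    rw [hj.nhds_eq_comap, eventually_comap] at h6
    refine quot_mkAn (fun z => (h z.1, z.2 - Ψ z.1)) ((AnalyticAt.comp (f := Prod.fst) h3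
      analyticAt_fst).prod (analyticAt_snd.sub (AnalyticAt.comp (f := Prod.fst) h5 analyticAt_fst)))
      ?_
    filter_upwards [continuousAt_fst.eventually (h4.and h6)] with z hz
    rw [Prod.mk_eq_zero, ← hz.1, sub_eq_zero]
    constructor
    · rintro ⟨v, rfl⟩
      exact ⟨⟨v, rfl⟩, hz.2 v rfl⟩
    · rintro ⟨⟨v, hv⟩, h7⟩
      exact ⟨v, Prod.ext hv ((hz.2 v hv).trans (by rw [h7, hv]))⟩
  · have h3 : ∀ᶠ q : U × (Fin n → ℂ) in 𝓝 (u, x), ∀ γ, j (a γ q.1) ≠ q.2 :=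
      eventually_all.2 fun γ => (ContinuousAt.ne_iff_eventually_ne
        ((hj.continuous.comp (hp.cont_a γ)).comp continuous_fst).continuousAt
        continuousAt_snd).1 fun h => hx ⟨γ, h⟩
    obtain ⟨W, hW, Q, hQ, h4⟩ := mem_nhds_prod_iff.1 h3
    refine quot_mkAn (fun _ => (1 : ℂ)) analyticAt_const ?_
    filter_upwards [prod_mem_nhds hQ (h2 W hW)] with z hz
    refine iff_of_false ?_ one_ne_zero
    rintro ⟨v, rfl⟩
    obtain ⟨γ, hγ⟩ := hz.2 v rfl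
    exact h4 (mk_mem_prod hγ hz.1) γ⁻¹ (by rw [← hp.mul, inv_mul_cancel, hp.one])

/-- **Cartan's theorem on quotients by finite groups.** -/
theorem quot_cartan (hH : StHerm) (hF : StFin) [T0Space X] (hp : IsUC a p) (hj : IsEmbedding j)
    (han : ∀ u, An (range j) (j u)) (hol : ∀ γ u, HolAt j (fun v => j (a γ v)) u)
    {Hol : (X → ℂ) → X → Prop} (hHol : ∀ f u, Hol f (p u) ↔ HolAt j (fun v => f (p v)) u) {d : ℕ}
    (hs : Small d (range j)) (u₀ : U) : ∃ (N k : ℕ) (V : Set X) (Ω : Set (Fin N → ℂ))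
      (h : Fin k → (Fin N → ℂ) → ℂ) (φ : X → Fin N → ℂ),
      p u₀ ∈ V ∧ P277.IsModel Hol V Ω h φ ∧ Small d (φ '' V) := by
  classical
  obtain ⟨M, N, Ψ, e, r, hΨ, he, hr, hσ, h1, h2⟩ := quot_sym Γ n
  let Φ : U → Fin M → ℂ := fun v => Ψ fun γ => j (a γ v)
  have hΦ : ∀ u, HolAt j Φ u := fun u => by
    choose Θ h3 h4 using fun γ => hol γ u
    exact HolAt.comp_an (f := fun v γ => j (a γ v)) ⟨fun z γ => Θ γ z, .pi h3,
      (eventually_all.2 h4).mono fun v hv => funext hv⟩ (hΨ _)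
  have hc : Continuous Φ := continuous_iff_continuousAt.2 fun u =>
    (hΦ u).cont hj.continuous.continuousAt
  have hi : ∀ γ u, Φ (a γ u) = Φ u := fun γ u => by
    simp only [Φ, ← hp.mul]
    exact hσ (Equiv.mulRight γ) fun γ => j (a γ u)
  have hpa : ∀ γ u, p (a γ u) = p u := fun γ u => ((hp.fib _ _).2 ⟨γ, rfl⟩).symm
  have h3 := fun u W => quot_near (Φ := Φ) hH hp hj he hr (fun v => h1 _) (fun v => h2 _) u (W := W)
  obtain ⟨k, h, h4, h5⟩ := quot_an hF hp hj han hΦ he (fun v => h1 _) u₀ (h3 u₀)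
  obtain ⟨Ω, hΩ, hΩo, hΩ₀⟩ := eventually_nhds_iff.1 (h4.eventually_analyticAt.and h5)
  have hφ : ∀ v, extend p Φ 0 (p v) = Φ v := FactorsThrough.extend_apply (g := Φ) (f := p)
    (fun v v' hv => by
      obtain ⟨γ, rfl⟩ := (hp.fib _ _).1 hv
      exact (hi γ v).symm) 0
  have hn : ∀ u, map p (𝓝 u) = 𝓝 (p u) := fun u => hp.isOpen.map_nhds_eq hp.cont.continuousAt
  have him : extend p Φ 0 '' (p '' (Φ ⁻¹' Ω)) = range Φ ∩ Ω := by
    rw [image_image, funext hφ, image_preimage_eq_range_inter]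
  refine ⟨M, k, p '' (Φ ⁻¹' Ω), Ω, fun i z => h z i, extend p Φ 0, ⟨u₀, hΩ₀, rfl⟩,
    ⟨hp.isOpen _ (hΩo.preimage hc), hΩo, fun i z hz => analyticAt_pi_iff.1 (hΩ z hz).1 i, ?_,
      IsInducing.isEmbedding (isInducing_iff_nhds.2 ?_), ?_⟩, ?_⟩
  · rw [him]
    ext z
    exact ⟨fun hz => ⟨hz.2, congrFun ((hΩ z hz.2).2.1 hz.1)⟩,
      fun hz => ⟨(hΩ z hz.1).2.2 (funext hz.2), hz.1⟩⟩
  · rintro ⟨_, u, hu, rfl⟩
    refine le_antisymm (map_le_iff_le_comap.1 (ContinuousAt.comp (g := extend p Φ 0) ?_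
      continuous_subtype_val.continuousAt)) fun S hS => ?_
    · change map _ (𝓝 (p u)) ≤ 𝓝 (extend p Φ 0 (p u))
      rw [← hn, map_map, hφ, show extend p Φ 0 ∘ p = Φ from funext hφ]
      exact hc.continuousAt
    · obtain ⟨S', h6, h7⟩ := (mem_nhds_subtype _ _ _).1 hS
      refine ⟨_, (hφ u).symm ▸ h3 u _ (hp.cont.continuousAt h6), ?_⟩
      rintro ⟨_, v, hv, rfl⟩ h8
      obtain ⟨γ, hγ⟩ := h8 v (hφ v).symm
      exact h7 (show p v ∈ S' from hpa γ v ▸ hγ)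
  · rintro _ ⟨u, -, rfl⟩ f
    rw [hφ, ← hn]
    refine ⟨fun hf => ?_, fun ⟨g, h6, h7⟩ => (hHol f u).2 (((hΦ u).comp_an h6).congr
      (Eventually.mono h7 fun v hv => ((congrArg g (hφ v)).symm.trans hv.symm)))⟩
    have h6 : ∀ z, ∃ F : (Fin n → ℂ) → ℂ, AnalyticAt ℂ F z ∧ ∀ γ, j (a γ u) = z →
        ∀ᶠ v in 𝓝 (a γ u), f (p v) = F (j v) := fun z => by
      by_cases hz : ∃ γ, j (a γ u) = z
      · obtain ⟨γ, rfl⟩ := hz
        obtain ⟨F, h6, h7⟩ := (hHol f (a γ u)).1 (by rwa [hpa])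
        exact ⟨F, h6, fun γ' h8 => by rwa [hj.injective h8]⟩
      · exact ⟨0, analyticAt_const, fun γ h8 => (hz ⟨γ, h8⟩).elim⟩
    choose F h6 h7 using h6
    obtain ⟨f', g, h8, h9, -, h10⟩ := quot_herm (Φ := Φ) hH he hr (fun v => h1 _) (fun v => h2 _) u
      F h6
    refine ⟨fun y => (Fintype.card Γ : ℂ)⁻¹ * g y, analyticAt_const.mul h8, ?_⟩
    change ∀ᶠ v in 𝓝 u, f (p v) = (Fintype.card Γ : ℂ)⁻¹ * g (extend p Φ 0 (p v))
    filter_upwards [hc.continuousAt.eventually h10, eventually_all.2 fun γ =>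
      (hp.cont_a γ).continuousAt.eventually
        ((h7 _ γ rfl).and (hj.continuous.continuousAt.eventually (h9 γ)))] with v h11 h12
    rw [hφ, ← h11 v rfl, Finset.sum_congr rfl fun γ _ => (h12 γ).2.trans (h12 γ).1.symm]
    simp [hpa]
  · have := hj.secondCountableTopology
    rw [him, ← image_univ]
    refine Small.mono (Small.of_locally fun u _ => ?_) inter_subset_left
    obtain ⟨Θ, h6, h7⟩ := hΦ u
    refine ⟨_, h7.and (hj.continuous.continuousAt.eventually h6.eventually_analyticAt),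
      ((hs.mono (inter_subset_left (t := {z | AnalyticAt ℂ Θ z}))).image (f := Θ) fun z hz =>
        hz.2.contDiffAt.restrict_scalars ℝ).mono ?_⟩
    rintro _ ⟨v, hv, rfl⟩
    exact ⟨j v, ⟨⟨v, rfl⟩, hv.2.2⟩, hv.2.1.symm⟩

end cartan

theorem quot_holAt {T A A' B : Type} [TopologicalSpace T] [NormedAddCommGroup A] [NormedSpace ℂ A]
    [NormedAddCommGroup A'] [NormedSpace ℂ A'] [NormedAddCommGroup B] [NormedSpace ℂ B]
    (L : A ≃L[ℂ] A') {ι : T → A} {f : T → B} {t : T} :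
    HolAt (fun s => L (ι s)) f t ↔ HolAt ι f t :=
  ⟨fun h => h.trans (HolAt.of_an (L.analyticAt _)), fun h => h.trans
    ⟨L.symm, L.symm.analyticAt _, Eventually.of_forall fun _ => (L.symm_apply_apply _).symm⟩⟩

theorem quot_lh {Y : Ch.Sp} {τ : Y.T → Y.G} {t : Y.T} (h0 : τ t = 1)
    (h1 : ∀ᶠ s in 𝓝 t, ContinuousAt τ s)
    (h2 : ∀ᶠ p : Y.G × Y.T in 𝓝 (1, t), τ (p.1 • p.2) = p.1 * τ p.2) :
    LH (fun x : Y.G × {s // τ s = 1} => x.1 • x.2.1) (1, ⟨t, h0⟩) := by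
  classical
  have h3 : ∀ᶠ s in 𝓝 t, τ ((τ s)⁻¹ • s) = 1 := by
    have : Tendsto (fun s => ((τ s)⁻¹, s)) (𝓝 t) (𝓝 ((τ t)⁻¹, t)) :=
      h1.self_of_nhds.inv.prodMk continuousAt_id
    rw [h0, inv_one] at this
    filter_upwards [this.eventually h2] with s hs using hs.trans (inv_mul_cancel _)
  have h4 : ∀ᶠ x : Y.G × {s // τ s = 1} in 𝓝 (1, ⟨t, h0⟩), τ (x.1 • x.2.1) = x.1 := by
    filter_upwards [(show ContinuousAt (fun x : Y.G × {s // τ s = 1} => (x.1, x.2.1)) (1, ⟨t, h0⟩)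
      by fun_prop).eventually h2] with x hx
    rw [hx, x.2.2, mul_one]
  refine LH.of_inv (fun s => (τ s, if h : τ ((τ s)⁻¹ • s) = 1 then ⟨_, h⟩ else ⟨t, h0⟩))
    (Eventually.of_forall fun _ => by fun_prop) ?_ ?_ ?_
  · rw [one_smul]
    filter_upwards [h1, h3.eventually_nhds] with s a b
    refine a.prodMk (IsInducing.subtypeVal.continuousAt_iff.2
      ((a.inv.smul continuousAt_id).congr (b.mono fun y hy => ?_)))
    simp only [comp_apply, dif_pos hy]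
    rfl
  · filter_upwards [h4] with x hx
    refine Prod.ext hx (Subtype.ext ?_)
    simp only [hx, inv_smul_smul, x.2.2, dif_pos]
  · rw [one_smul]
    filter_upwards [h3] with s hs
    simp only [dif_pos hs, smul_inv_smul]

/-- **The quotient of an analytic orbispace is a complex space.** -/
theorem stQuot (hH : StHerm) (hF : StFin) : StQuot := by
  intro Y A _ _ ι hY m hm x
  obtain ⟨t, rfl⟩ := Y.surj x
  have := hY.fd
  have : CompleteSpace A := FiniteDimensional.complete ℂ A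
  have hι := hY.emb.continuous
  obtain ⟨τ, hτ⟩ := hY.coc t
  obtain ⟨D, hD, hs⟩ := hm t τ hτ
  obtain ⟨V, hV, O, hO, hVO⟩ := mem_nhds_prod_iff.1 hτ.eqv
  obtain ⟨hfin, U, a, c, -, hU, h1, h⟩ := exists_ts (quot_lh hτ.one hτ.cont hτ.eqv)
    (continuous_subtype_val.continuousAt (inter_mem (inter_mem hO hD)
      (hτ.cont.and (hτ.hol.eventually hι.continuousAt))))
  have := Fintype.ofFinite (MulAction.stabilizer Y.G t)
  let φ : U → Y.T := fun u => u.1.1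
  let ρ : Y.T → Y.T := fun s => (τ s)⁻¹ • s
  have hφ : IsEmbedding φ := IsEmbedding.subtypeVal.comp IsEmbedding.subtypeVal
  have hρ : ∀ k ∈ V, ∀ w, ρ (k • φ w) = φ w := fun k hk w => by
    have : τ (k • φ w) = k * τ (φ w) := hVO (mk_mem_prod hk (h1 w.2).1.1)
    simp only [ρ, this, show τ (φ w) = 1 from w.1.2, mul_one, inv_smul_smul]
  have hρ1 : ∀ w, ρ (φ w) = φ w := fun w => by
    simpa only [one_smul] using hρ 1 (mem_of_mem_nhds hV) w
  have hρ2 : ∀ w, HolAt ι (fun s => ι (ρ s)) (φ w) := fun w => (h1 w.2).2.2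
  have hop : ∀ u, ∀ W ∈ 𝓝 u, ∀ᶠ s in 𝓝 (φ u), ∃ w ∈ W, ρ s = φ w := fun u W hW => by
    have := h.isOpen.image_mem_nhds (x := (1, u)) (prod_mem_nhds hV hW)
    rw [one_smul] at this
    filter_upwards [this]
    rintro _ ⟨y, hy, rfl⟩
    exact ⟨y.2, hy.2, hρ _ hy.1 _⟩
  have hr : ∀ {B : Type} [NormedAddCommGroup B] [NormedSpace ℂ B] {f : Y.T → B} {u : U},
      HolAt ι f (φ u) → HolAt (fun v => ι (φ v)) (fun v => f (φ v)) u := fun hf =>
    hf.comp hφ.continuous.continuousAt HolAt.self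
  let L : A ≃L[ℂ] (Fin (Module.finrank ℂ A) → ℂ) := ContinuousLinearEquiv.ofFinrankEq (by simp)
  refine quot_cartan hH hF (h.isUC Y.isQuo) (j := fun u => L (ι (φ u)))
    (L.toHomeomorph.isEmbedding.comp (hY.emb.comp hφ)) (fun u => ?_)
    (fun γ u => (quot_holAt L).2 (HolAt.comp_an (Ψ := L) ?_ (L.analyticAt _)))
    (fun f u => Iff.trans ⟨fun hf => hr (hf _ rfl), fun hf s hs => ?_⟩ (quot_holAt L).symm)
    ((hs.image (f := L) fun _ _ => (L.analyticAt _).contDiffAt.restrict_scalars ℝ).mono ?_)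
    ⟨_, hU⟩
  · obtain ⟨k, g, h2, h3⟩ := hY.an (φ u)
    obtain ⟨Θ, h4, h5⟩ := hρ2 u
    have h6 := h5.and (hop u univ univ_mem)
    rw [hY.emb.nhds_eq_comap, eventually_comap] at h6
    have h7 : Tendsto L.symm (𝓝 (L (ι (φ u)))) (𝓝 (ι (φ u))) :=
      L.symm.continuous.tendsto' _ _ (L.symm_apply_apply _)
    refine quot_mkAn (fun z => (g (L.symm z), Θ (L.symm z) - L.symm z)) (AnalyticAt.comp_of_eq
      (h2.prod (h4.sub analyticAt_id)) (L.symm.analyticAt _) (L.symm_apply_apply _)) ?_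
    filter_upwards [h7.eventually (h3.and h6)] with z hz
    rw [Prod.mk_eq_zero, ← hz.1, sub_eq_zero]
    constructor
    · rintro ⟨v, rfl⟩
      rw [L.symm_apply_apply] at hz ⊢
      exact ⟨⟨_, rfl⟩, by rw [← (hz.2 _ rfl).1, hρ1]⟩
    · rintro ⟨⟨s, h8⟩, h9⟩
      obtain ⟨h10, w, -, h11⟩ := hz.2 s h8
      exact ⟨w, show L (ι (φ w)) = z by rw [← h11, h10, h8, h9, L.apply_symm_apply]⟩
  · have h2 : φ (a γ u) = c γ u • φ u := h.equiv γ u
    refine (hr (HolAt.comp (u := fun s => c γ u • s) (h2 ▸ hρ2 (a γ u)) (by fun_prop)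
      (hY.act (c γ u) (φ u)))).congr ?_
    have h3 : Tendsto (fun v => c γ u * (c γ v)⁻¹) (𝓝 u) (𝓝 1) :=
      (continuous_const.mul (h.cont_c γ).inv).tendsto' _ _ (mul_inv_cancel _)
    filter_upwards [h3.eventually hV] with v hv
    rw [← hρ _ hv (a γ v), show φ (a γ v) = c γ v • φ v from h.equiv γ v, mul_smul, inv_smul_smul]
  · obtain ⟨g, hg⟩ := (Y.fib _ _).1 hs
    have h2 : HolAt ι (fun s => f (Y.π s)) (φ u) := by
      obtain ⟨F, h2, h3⟩ := hf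
      refine ((hρ2 u).comp_an (Ψ := F) (by rwa [hρ1])).congr ?_
      filter_upwards [hop u _ h3]
      rintro s ⟨w, h4, h5⟩
      rw [h5, ← Y.π_smul (τ s)⁻¹ s]
      exact h4.symm.trans (congrArg (fun y => f (Y.π y)) h5.symm)
    exact (HolAt.comp (u := fun s => g • s) (show HolAt ι _ (g • s) by rw [hg]; exact h2)
      (by fun_prop) (hY.act g s)).congr (Eventually.of_forall fun y => congrArg f (Y.π_smul g y))
  · rintro _ ⟨u, rfl⟩
    exact ⟨_, ⟨φ u, ⟨(h1 u.2).1.2, u.1.2⟩, rfl⟩, rfl⟩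

end Vale.Agent.P287Q.H3
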