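import Vale.Agent.P287Q.H3.St
import Vale.Agent.P277Z.Oka.All

/-!
# Closures of differences of analytic sets; regular points
-/

namespace Vale.Agent.P287Q.H3

open Set Function Topology Filter P269 P269.Holo Module
open P277Z.Oka (In Van Zs)

namespace Rg

variable {E F : Type} [NormedAddCommGroup E] [NormedSpace ℂ E] [NormedAddCommGroup F]
  [NormedSpace ℂ F] {S B : Set E} {a x : E} {m : ℕ} {G : E → Fin m → ℂ}

theorem an_of {ι : Type} [Finite ι] {g : ι → E → ℂ} (hg : ∀ i, AnalyticAt ℂ (g i) a)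
    (h : ∀ᶠ z in 𝓝 a, z ∈ S ↔ ∀ i, g i z = 0) : An S a :=
  let ⟨k, ⟨e⟩⟩ := Finite.exists_equiv_fin ι
  ⟨k, fun z j => g (e.symm j) z, AnalyticAt.pi fun _ => hg _, h.mono fun _ hz =>
    hz.trans ((e.symm.forall_congr_right (q := fun i => g i _ = 0)).symm.trans funext_iff.symm)⟩

theorem congr (h : An S a) (e : ∀ᶠ z in 𝓝 a, z ∈ B ↔ z ∈ S) : An B a :=
  let ⟨k, g, h1, h2⟩ := h
  ⟨k, g, h1, (e.and h2).mono fun _ hz => hz.1.trans hz.2⟩

theorem inter (h : An S a) (h' : An B a) : An (S ∩ B) a := by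
  obtain ⟨k, g, h1, h2⟩ := h
  obtain ⟨k', g', h1', h2'⟩ := h'
  refine an_of (g := Sum.elim (fun i z => g z i) fun i z => g' z i)
    (Sum.rec (analyticAt_pi_iff.1 h1) (analyticAt_pi_iff.1 h1')) ?_
  filter_upwards [h2, h2'] with z e e'
  rw [Sum.forall, mem_inter_iff, e, e', funext_iff, funext_iff]
  rfl

theorem union (h : An S a) (h' : An B a) : An (S ∪ B) a := by
  obtain ⟨k, g, h1, h2⟩ := h
  obtain ⟨k', g', h1', h2'⟩ := h'
  refine an_of (g := fun (i : Fin k × Fin k') z => g z i.1 * g' z i.2)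
    (fun i => (analyticAt_pi_iff.1 h1 _).mul (analyticAt_pi_iff.1 h1' _)) ?_
  filter_upwards [h2, h2'] with z e e'
  simp only [mem_union, e, e', funext_iff, Pi.zero_apply, Prod.forall, mul_eq_zero]
  exact ⟨fun k i j => k.imp (· i) (· j), fun k => or_iff_not_imp_left.2 fun b j =>
    let ⟨i, hi⟩ := not_forall.1 b
    (k i j).resolve_left hi⟩

theorem empty : An (∅ : Set E) a :=
  an_of (g := fun (_ : Unit) _ => 1) (fun _ => analyticAt_const) (.of_forall fun _ => by simp)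

theorem iUnion {ι : Type} [Finite ι] {T : ι → Set E} (h : ∀ i, An (T i) a) : An (⋃ i, T i) a := by
  induction ι using Finite.induction_empty_option with
  | of_equiv e ih => exact e.surjective.iUnion_comp T ▸ ih fun i => h (e i)
  | h_empty => exact iUnion_of_empty T ▸ empty
  | h_option ih => exact iUnion_option T ▸ union (h none) (ih fun i => h (some i))

theorem ev_not (h : An S a) (ha : a ∉ S) : ∀ᶠ z in 𝓝 a, z ∉ S :=
  let ⟨_, _, h1, h2⟩ := h
  (h2.and (h1.continuousAt.eventually_ne (mt h2.self_of_nhds.2 ha))).mono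
    fun _ hz => mt hz.1.1 hz.2

omit [NormedSpace ℂ E] in
theorem clo_congr (e : ∀ᶠ z in 𝓝 a, z ∈ B ↔ z ∈ S) :
    ∀ᶠ z in 𝓝 a, z ∈ closure B ↔ z ∈ closure S :=
  e.eventually_nhds.mono fun _ hz => by
    rw [mem_closure_iff_frequently, mem_closure_iff_frequently]
    exact frequently_congr hz

/-- At `y` the components of `G` generate the ideal of `S`. -/
structure Gen (S : Set E) (G : E → Fin m → ℂ) (y : E) : Prop where
  an : AnalyticAt ℂ G y
  mem : y ∈ S ↔ G y = 0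
  gen : ∀ f, AnalyticAt ℂ f y → Van y S f → In y (fun l z => G z l) f

theorem Gen.der (h : Gen S G x) (hx : x ∈ S) {f : E → F} (hf : AnalyticAt ℂ f x)
    (h0 : ∀ᶠ y in 𝓝 x, y ∈ S → f y = 0) {v : E} (hv : fderiv ℂ G x v = 0) :
    fderiv ℂ f x v = 0 := by
  refine SeparatingDual.eq_zero_of_forall_dual_eq_zero (R := ℂ) fun l => ?_
  obtain ⟨c, hc, e⟩ := h.gen (fun y => l (f y)) ((l.analyticAt _).comp hf)
    (h0.mono fun y k hy => (congrArg l (k hy)).trans (map_zero l))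
  have e2 := (l.hasFDerivAt.comp x hf.differentiableAt.hasFDerivAt).unique
    ((HasFDerivAt.fun_sum fun i _ => (hc i).differentiableAt.hasFDerivAt.mul
      (hasFDerivAt_pi'.1 h.an.differentiableAt.hasFDerivAt i)).congr_of_eventuallyEq e)
  simpa [h.mem.1 hx, hv] using congrArg (fun L => L v) e2

/-- the rank -/
noncomputable def rk (D : E →L[ℂ] F) : ℕ := finrank ℂ (LinearMap.range (D : E →ₗ[ℂ] F))

theorem rows {α β : Type} [Fintype α] [Fintype β] {A : Matrix α β ℂ} {k : ℕ} (h : k ≤ A.rank) :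
    ∃ r : Fin k → α, LinearIndependent ℂ (A.submatrix r id).row := by
  obtain ⟨κ, r, h1, h2, h3⟩ := exists_linearIndependent' ℂ A.row
  have : Finite κ := Finite.of_injective r h1
  have := Fintype.ofFinite κ
  obtain ⟨e⟩ : Nonempty (Fin k ↪ κ) := Embedding.nonempty_of_card_le (by
    rwa [Fintype.card_fin, ← finrank_span_eq_card h3, h2, ← Matrix.rank_eq_finrank_span_row])
  exact ⟨r ∘ e, h3.comp e e.injective⟩

theorem minor {α β : Type} [Fintype α] [Fintype β] {A : Matrix α β ℂ} {k : ℕ} :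
    A.rank < k ↔ ∀ p : (Fin k → α) × (Fin k → β), (A.submatrix p.1 p.2).det = 0 := by
  refine ⟨fun h p => by_contra fun e => ?_, fun h => by_contra fun e => ?_⟩
  · have := A.rank_submatrix_le p.1 p.2
    rw [Matrix.rank_of_det_ne_zero e, Fintype.card_fin] at this
    omega
  obtain ⟨r, hr⟩ := rows (not_lt.1 e)
  obtain ⟨c, hc⟩ := rows (A := (A.submatrix r id).transpose) (k := k)
    (by rw [Matrix.rank_transpose, hr.rank_matrix, Fintype.card_fin])
  exact ((Matrix.isUnit_iff_isUnit_det _).1 (Matrix.linearIndependent_cols_iff_isUnit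
    (A := A.submatrix r c).1 hc)).ne_zero (h (r, c))

theorem vanish {Z : Set F} {b : F} (hb : b ∈ Z)
    (h : ∀ᶠ z in 𝓝 b, z ∈ Z → ∀ u : F → ℂ, AnalyticAt ℂ u z → Van z Z u → fderiv ℂ u z = 0)
    {u : F → ℂ} (hu : AnalyticAt ℂ u b) (h0 : Van b Z u) : ∀ᶠ z in 𝓝 b, u z = 0 := by
  have k : ∀ n, ∀ᶠ z in 𝓝 b, z ∈ Z → iteratedFDeriv ℂ n u z = 0 := fun n => by
    induction n with
    | zero => exact h0.mono fun z e hz => ContinuousMultilinearMap.ext fun _ => e hz
    | succ n ih =>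
      have a1 : AnalyticAt ℂ (iteratedFDeriv ℂ n u) b :=
        AnalyticOnNhd.iteratedFDeriv (s := {b}) (fun _ e => e ▸ hu) n b rfl
      filter_upwards [h, ih.eventually_nhds, a1.eventually_analyticAt] with z e1 e2 e3 hz
      refine ContinuousMultilinearMap.ext fun v => ?_
      rw [iteratedFDeriv_succ_apply_left,
        ← fderiv_continuousMultilinear_apply_const_apply e3.differentiableAt,
        e1 hz (fun y => iteratedFDeriv ℂ n u y (Fin.tail v))
          (((ContinuousMultilinearMap.apply ℂ _ ℂ (Fin.tail v)).analyticAt _).comp e3)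
          (e2.mono fun y d hy => congrArg (fun L => L (Fin.tail v)) (d hy))]
      rfl
  obtain ⟨p, r, hp⟩ := hu
  have t : Tendsto (fun z => z - b) (𝓝 b) (𝓝 0) := tendsto_sub_nhds_zero_iff.2 tendsto_id
  filter_upwards [t.eventually (Metric.eball_mem_nhds 0 hp.r_pos)] with z hz
  have := hp.hasSum_iteratedFDeriv hz
  simp only [(k _).self_of_nhds hb, _root_.zero_apply, smul_zero,
    add_sub_cancel] at this
  exact this.unique hasSum_zero

variable [FiniteDimensional ℂ E]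

theorem exists_gen (h : An S a) : ∃ (m : ℕ) (G : E → Fin m → ℂ), ∀ᶠ y in 𝓝 a, Gen S G y := by
  obtain ⟨k, g, h1, h2⟩ := h
  have h3 : ∀ᶠ z in 𝓝 a, z ∈ S ↔ z ∈ Zs fun i z => g z i := h2.mono fun _ e => e.trans funext_iff
  obtain ⟨m, r, k1, k2, k3⟩ := P277Z.Oka.car_all E _ a (fun i z => g z i) (analyticAt_pi_iff.1 h1)
  have h4 : ∀ i, Van a (Zs r) fun z => g z i := fun i =>
    (k3.self_of_nhds _ (analyticAt_pi_iff.1 h1 i) (.of_forall fun y hy => hy i)).van
  refine ⟨m, fun z l => r l z, ?_⟩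
  filter_upwards [(AnalyticAt.pi k1).eventually_analyticAt, h3.eventually_nhds, k3,
    eventually_all.2 k2, eventually_all.2 h4] with y e1 e2 e3 e4 e5
  refine ⟨e1, e2.self_of_nhds.trans ⟨fun k => funext fun l => e4 l k,
    fun k i => e5 i (funext_iff.1 k)⟩, fun f hf hv => e3 f hf ?_⟩
  filter_upwards [e2, hv] with z d1 d2 hz using d2 (d1.2 hz)

theorem clo_one (h : An S a) {f : E → ℂ} (hf : AnalyticAt ℂ f a) :
    An (closure (S ∩ {z | f z ≠ 0})) a := by
  obtain ⟨m, G, hG⟩ := exists_gen h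
  obtain ⟨k, r, k1, k2, k3⟩ := P277Z.Oka.col_all E _ a (fun l z => G z l) f
    (analyticAt_pi_iff.1 hG.self_of_nhds.an) hf
  refine an_of k1 ?_
  filter_upwards [hG.eventually_nhds, k3, hf.eventually_analyticAt,
    eventually_all.2 fun l => (k1 l).eventually_analyticAt,
    (eventually_all.2 fun l => (k2 l).van).eventually_nhds] with y e1 e2 e3 e4 e5
  rw [mem_closure_iff_frequently]
  refine ⟨fun hy l => by_contra fun d => ?_, fun hy d => one_ne_zero (α := ℂ) ?_⟩
  · obtain ⟨z, d1, d2, d3, d4⟩ :=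
      (hy.and_eventually (e1.and (e5.and ((e4 l).continuousAt.eventually_ne d)))).exists
    exact mul_ne_zero d4 d1.2 (d3 l (funext_iff.1 (d2.mem.1 d1.1)))
  · refine (e2 (fun _ => 1) analyticAt_const (e1.self_of_nhds.gen _ (analyticAt_const.mul e3)
      (d.mono fun z k hz => ?_))).van.self_of_nhds hy
    exact (one_mul _).trans (by_contra fun b => k ⟨hz, b⟩)

theorem clo (h : An S a) (h' : An B a) : An (closure (S \ B)) a := by
  obtain ⟨k, f, h1, h2⟩ := h'
  refine congr (iUnion fun i => clo_one h (analyticAt_pi_iff.1 h1 i)) ?_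
  rw [← closure_iUnion_of_finite]
  exact clo_congr (h2.mono fun z e => by simp [e, funext_iff])

theorem an_rk {D : E → E →L[ℂ] Fin m → ℂ} (h : AnalyticAt ℂ D a) (k : ℕ) :
    An {x | rk (D x) < k} a := by
  let b := finBasis ℂ E
  let A : E → Matrix (Fin m) (Fin (finrank ℂ E)) ℂ := fun x =>
    LinearMap.toMatrix b (Pi.basisFun ℂ _) (D x : E →ₗ[ℂ] Fin m → ℂ)
  have e : ∀ x, rk (D x) = (A x).rank := fun x => by
    rw [Matrix.rank_eq_finrank_range_toLin _ (Pi.basisFun ℂ _) b, Matrix.toLin_toMatrix, rk]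
  refine an_of (g := fun (p : (Fin k → Fin m) × (Fin k → Fin (finrank ℂ E))) x =>
    ((A x).submatrix p.1 p.2).det) (fun p => ?_) (.of_forall fun x => by rw [mem_ofPred, e, minor])
  simp only [Matrix.det_apply', Matrix.submatrix_apply, A, LinearMap.toMatrix_apply,
    Pi.basisFun_repr]
  refine Finset.analyticAt_fun_sum _ fun σ _ => analyticAt_const.fun_mul
    (Finset.analyticAt_fun_prod _ fun i _ => ?_)
  exact (((ContinuousLinearMap.proj (R := ℂ) (φ := fun _ : Fin m => ℂ) (p.1 (σ i))).comp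
    (ContinuousLinearMap.apply ℂ (Fin m → ℂ) (b (p.2 i)))).analyticAt _).comp h

theorem rk_add (D : E →L[ℂ] F) :
    rk D + finrank ℂ (LinearMap.ker (D : E →ₗ[ℂ] F)) = finrank ℂ E :=
  LinearMap.finrank_range_add_finrank_ker _

theorem rk_of_mfd {j : ℕ} (h : ∀ᶠ y in 𝓝 x, Gen S G y) (hm : MfdAt S j x) :
    rk (fderiv ℂ G x) + j = finrank ℂ E := by
  obtain ⟨hx, hm⟩ := hm
  rw [← hm.finrank_tan, ← rk_add (fderiv ℂ G x)]
  refine congrArg (fun p : Submodule ℂ E => _ + finrank ℂ p) (le_antisymm (fun v hv => ?_)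
    fun v hv Φ h1 h2 => h.self_of_nhds.der hx h1 ((ev_sub (p := fun s => Φ s = 0) hx).1 h2) hv)
  exact hm.fderiv_eq_zero h.self_of_nhds.an
    ((ev_sub (p := fun s => G s = 0) hx).2 (h.mono fun y e => e.mem.1)) hv

theorem mfd_of_rk {j : ℕ} (h : ∀ᶠ y in 𝓝 x, Gen S G y) (hx : x ∈ S)
    (hr : ∀ᶠ y in 𝓝 x, y ∈ S → rk (fderiv ℂ G y) ≤ rk (fderiv ℂ G x))
    (hj : rk (fderiv ℂ G x) + j = finrank ℂ E) : MfdAt S j x := by
  have := FiniteDimensional.complete ℂ E
  have g0 := h.self_of_nhds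
  obtain ⟨r, er⟩ : ∃ r, rk (fderiv ℂ G x) = r := ⟨_, rfl⟩
  obtain ⟨e⟩ : Nonempty (LinearMap.range (fderiv ℂ G x : E →ₗ[ℂ] Fin m → ℂ) ≃ₗ[ℂ] Fin r → ℂ) :=
    FiniteDimensional.nonempty_linearEquiv_of_finrank_eq (er.trans (finrank_fin_fun ℂ).symm)
  obtain ⟨P₀, hP⟩ := LinearMap.exists_extend e.toLinearMap
  let P := LinearMap.toContinuousLinearMap P₀
  have hs : Surjective (P.comp (fderiv ℂ G x)) := fun c => by
    obtain ⟨⟨_, v, rfl⟩, rfl⟩ := e.surjective c
    exact ⟨v, LinearMap.congr_fun hP ⟨_, v, rfl⟩⟩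
  have hd : ∀ y, AnalyticAt ℂ G y → HasFDerivAt (fun z => P (G z)) (P.comp (fderiv ℂ G y)) y :=
    fun y k => P.hasFDerivAt.comp y k.differentiableAt.hasFDerivAt
  obtain ⟨σ, s1, s2, -, s3, s4⟩ := (IsParam.self x).submersion (f := fun z => P (G z))
    ((P.analyticAt _).comp g0.an) ((hd x g0.an).fderiv ▸ hs) (n := j)
    (by rw [finrank_fin_fun, ← hj, er, add_comm])
  rw [g0.mem.1 hx, map_zero] at s1 s2 s3 s4
  have r1 : ∀ᶠ y in 𝓝 x, r ≤ rk (P.comp (fderiv ℂ G y)) :=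
    (ev_not (an_rk (D := fun y => P.comp (fderiv ℂ G y)) (((ContinuousLinearMap.compL ℂ E _ _
      P).analyticAt _).comp g0.an.fderiv) r) (by
        rw [mem_ofPred, rk, LinearMap.range_eq_top.2 hs, finrank_top, finrank_fin_fun]
        exact lt_irrefl r)).mono fun y k => not_lt.1 k
  have t1 : Tendsto σ (𝓝 (0, 0)) (𝓝 x) := s2 ▸ s1.continuousAt.tendsto
  have a1 : ∀ᶠ p in 𝓝 (0, 0), σ p ∈ S → p.2 = 0 := by
    filter_upwards [s4, t1.eventually h] with p e1 e2 hp
    rw [← e1, e2.mem.1 hp, map_zero]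
  have t2 := tendsto_inl (0 : Fin j → ℂ) (0 : Fin r → ℂ)
  have a2 : ∀ l, ∀ᶠ z in 𝓝 0, G (σ (z, 0)) l = 0 := fun l => by
    refine vanish (Z := {z | σ (z, 0) ∈ S}) (show σ (0, 0) ∈ S from s2 ▸ hx) ?_
      ((analyticAt_pi_iff.1 g0.an l).comp_of_eq
        (s1.comp_of_eq (analyticAt_id.prod analyticAt_const) rfl) s2)
      (((t1.comp t2).eventually h).mono fun z e1 hz => congrFun (e1.mem.1 hz) l)
    filter_upwards [t2.eventually (s3.eventually.and (a1.eventually_nhds.and s4.eventually_nhds)),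
      (t1.comp t2).eventually (h.and (hr.and r1))] with z ⟨e1, e2, e3⟩ ⟨e4, e5, e6⟩ hz u hu h0
    obtain ⟨w, w1, w2, w3, w4, -⟩ := e1.exists_inv
    have b1 : AnalyticAt ℂ (fun z' => σ (z', 0)) z :=
      e1.an.comp_of_eq (analyticAt_id.prod analyticAt_const) rfl
    have b2 : AnalyticAt ℂ (fun s => u (w s).1) (σ (z, 0)) :=
      hu.comp_of_eq (analyticAt_fst.comp w1) (congrArg Prod.fst w2)
    have t3 : Tendsto w (𝓝 (σ (z, 0))) (𝓝 (z, 0)) :=
      w1.continuousAt.tendsto.mono_right (by rw [w2])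
    have b3 : u =ᶠ[𝓝 z] (fun s => u (w s).1) ∘ fun z' => σ (z', 0) :=
      ((tendsto_inl z 0).eventually w3).mono fun z' d => congrArg (fun p => u p.1) d.symm
    have b4 : LinearMap.ker (fderiv ℂ G (σ (z, 0)) : E →ₗ[ℂ] Fin m → ℂ) =
        LinearMap.ker (P.comp (fderiv ℂ G (σ (z, 0))) : E →ₗ[ℂ] Fin r → ℂ) := by
      refine Submodule.eq_of_le_of_finrank_le (fun v hv => (congrArg P hv).trans (map_zero P)) ?_
      have c1 := rk_add (fderiv ℂ G (σ (z, 0)))
      have c2 := rk_add (P.comp (fderiv ℂ G (σ (z, 0))))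
      have c3 : rk (fderiv ℂ G (σ (z, 0))) ≤ r := er ▸ e5 hz
      have c4 : r ≤ rk (P.comp (fderiv ℂ G (σ (z, 0)))) := e6
      omega
    ext1 v
    rw [b3.fderiv_eq, (b2.differentiableAt.hasFDerivAt.comp z b1.differentiableAt.hasFDerivAt).fderiv]
    refine e4.der hz b2 ?_ (show _ ∈ LinearMap.ker (fderiv ℂ G (σ (z, 0)) : E →ₗ[ℂ] Fin m → ℂ) from
      b4 ▸ ?_)
    · filter_upwards [w4, t3.eventually e2, (continuous_fst.tendsto _).comp t3 |>.eventually h0]
        with s d1 d2 d3 hs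
      exact d3 (show σ ((w s).1, 0) ∈ S by rw [← d2 (d1.symm ▸ hs), Prod.mk.eta, d1]; exact hs)
    · exact congrArg (fun L => L v) (((hd _ e4.an).comp z b1.differentiableAt.hasFDerivAt).unique
        ((hasFDerivAt_const (0 : Fin r → ℂ) z).congr_of_eventuallyEq ((tendsto_inl z 0).eventually e3)))
  obtain ⟨φ, p1, p2⟩ := s3.restrict (j := (Subtype.val : S → E)) .subtypeVal (by
    filter_upwards [a1, t1.eventually h,
      (continuous_fst.tendsto (0, 0)).eventually (eventually_all.2 a2)] with p e1 e2 e3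
    rw [Subtype.range_coe]
    exact ⟨e1, fun k => e2.mem.2 (funext fun l => (congrArg (fun c => G (σ (p.1, c)) l) k).trans (e3 l))⟩)
  exact ⟨hx, φ, p1, Subtype.ext (p2.self_of_nhds.trans s2)⟩

end Rg

open Rg

theorem stClo : StClo := fun _ _ _ _ _ _ _ => clo

theorem stReg : StReg := fun E _ _ _ S a h => by
  have := FiniteDimensional.complete ℂ E
  obtain ⟨m, G, hG⟩ := exists_gen h
  refine ⟨hG.eventually_nhds.eventually_nhds.mono fun x e hx => mem_closure_iff_nhds.2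
    fun U hU => ?_, fun j => ?_⟩
  · let W := S ∩ interior (U ∩ {y | ∀ᶠ z in 𝓝 y, Gen S G z})
    let d := fun y => finrank ℂ (LinearMap.ker (fderiv ℂ G y : E →ₗ[ℂ] Fin m → ℂ))
    have hW : W.Nonempty := ⟨x, hx, mem_interior_iff_mem_nhds.2 (inter_mem hU e)⟩
    obtain ⟨b, h1, h3⟩ : ∃ b ∈ W, ∀ y ∈ W, d b ≤ d y :=
      ⟨_, argminOn_mem d W hW, fun _ hy => argminOn_le d W hy⟩
    have h2 : ∀ y, _ + d y = _ := fun y => rk_add (fderiv ℂ G y)
    refine ⟨b, (interior_subset h1.2).1, mem_biUnion (show d b ≤ finrank ℂ E from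
      h2 b ▸ Nat.le_add_left _ _) (mfd_of_rk (interior_subset h1.2).2 h1.1 ?_ (h2 b))⟩
    filter_upwards [isOpen_interior.mem_nhds h1.2] with y k hy
    have h4 := h3 y ⟨hy, k⟩
    have h5 := h2 y
    have h6 := h2 b
    omega
  · have k := fun c => an_rk hG.self_of_nhds.an.fderiv (finrank ℂ E + 1 - c)
    refine congr (inter h (union (k (j + 1)) (clo h (k j)))) ?_
    filter_upwards [hG.eventually_nhds.eventually_nhds] with x e
    refine and_congr_right fun hx => ⟨fun d => by_contra fun d' => d ?_, fun d d' => ?_⟩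
    · rw [mem_union, not_or, mem_closure_iff_frequently, not_frequently, mem_ofPred] at d'
      have c1 : rk (fderiv ℂ G x) < finrank ℂ E + 1 - j :=
        by_contra fun b => d'.2.self_of_nhds ⟨hx, b⟩
      refine mfd_of_rk e.self_of_nhds hx (d'.2.mono fun y b hy => ?_) (by omega)
      have c2 : rk (fderiv ℂ G y) < finrank ℂ E + 1 - j := by_contra fun b' => b ⟨hy, b'⟩
      omega
    · rcases d with d | d
      · have c1 := rk_of_mfd e.self_of_nhds d'
        rw [mem_ofPred] at d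
        omega
      · obtain ⟨y, c1, c2, c3⟩ := ((mem_closure_iff_frequently.1 d).and_eventually
          (e.and (MfdAt.eventually d'))).exists
        have c4 := rk_of_mfd c2 (c3 c1.1)
        exact c1.2 (by rw [mem_ofPred]; omega)

theorem stRegX : StRegX := fun X _ Hol N k n V Ω h φ M x hx => by
  have lift : ∀ {N N' k k' : ℕ} {V V' : Set X} {Ω Ω'} {h : Fin k → _} {h' : Fin k' → _}
      {φ : X → Fin N → ℂ} {φ' : X → Fin N' → ℂ}, P277.IsModel Hol V Ω h φ →
      P277.IsModel Hol V' Ω' h' φ' → x ∈ V → x ∈ V' →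
      ∃ G, AnalyticAt ℂ G (φ x) ∧ ∀ᶠ y in 𝓝 x, y ∈ V' ∧ G (φ y) = φ' y := fun M M' a b => by
    choose G hG e using fun i => (M.hol x a _).1 ((M'.hol x b _).2
      ⟨_, (ContinuousLinearMap.proj (R := ℂ) (φ := fun _ => ℂ) i).analyticAt _, .rfl⟩)
    exact ⟨fun z i => G i z, AnalyticAt.pi hG, (M'.isOpen.eventually_mem b).and
      ((eventually_all.2 e).mono fun y d => funext fun i => (d i).symm)⟩
  have cont : ∀ y ∈ V, ContinuousAt φ y := fun y hy =>
    (continuousOn_iff_continuous_domRestrict.2 M.emb.continuous).continuousAt (M.isOpen.mem_nhds hy)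
  constructor
  · rintro ⟨V', Ω', h', φ', hx', M'⟩
    obtain ⟨F, f1, f2⟩ := lift M' M hx' hx
    obtain ⟨G, g1, g2⟩ := lift M M' hx hx'
    have e : φ' '' V' = Ω' := M'.image.trans (sep_eq_self_iff_mem_true.2 fun _ _ i => i.elim0)
    have m : MfdAt (φ' '' V') n (φ' x) := by
      have := (MfdAt.univ (φ' x)).congr (Z := Ω') ((M'.isOpen'.eventually_mem
        (e ▸ mem_image_of_mem φ' hx')).mono fun _ d => iff_of_true trivial d)
      rwa [finrank_fin_fun, ← e] at this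
    have e0 := f2.self_of_nhds.2
    refine e0 ▸ m.iso f1 (e0.symm ▸ g1) ?_ (e0.symm ▸ ?_)
    · filter_upwards [P277Z.Oka.Csp.push M' hx' (f2.and g2)] with _ d ⟨y, hy, a⟩
      obtain ⟨⟨a1, a2⟩, -, a3⟩ := d y hy a
      rw [← a, a2]
      exact ⟨mem_image_of_mem φ a1, a3⟩
    · filter_upwards [P277Z.Oka.Csp.push M hx (f2.and g2)] with _ d ⟨y, hy, a⟩
      obtain ⟨⟨-, a2⟩, a1, a3⟩ := d y hy a
      rw [← a, a3]
      exact ⟨mem_image_of_mem φ' a1, a2⟩
  rintro ⟨hm, ψ, hψ, e0⟩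
  obtain ⟨P, p1, p2, p3, p4, -⟩ := hψ.exists_inv
  let s : (Fin n → ℂ) → Fin N → ℂ := fun w => (ψ w).1
  rw [e0] at p1 p2 p4
  change AnalyticAt ℂ P (φ x) at p1
  change P (φ x) = 0 at p2
  have h1 : ∀ᶠ z in 𝓝 (φ x), z ∈ φ '' V → s (P z) = z :=
    (ev_sub (p := fun z => s (P z) = z) hm).1 (p4.mono fun _ d => congrArg Subtype.val d)
  obtain ⟨B, hB, hBo, hyB⟩ := eventually_nhds_iff.1 (hψ.an.eventually_analyticAt.and p3)
  obtain ⟨W, hW, hWo, hyW⟩ := eventually_nhds_iff.1 ((M.isOpen.eventually_mem hx).and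
    (((cont x hx).eventually (h1.and p1.eventually_analyticAt)).and
      ((p1.continuousAt.comp (cont x hx)).eventually_mem (hBo.mem_nhds
        (show P (φ x) ∈ B from p2.symm ▸ hyB)))))
  have h3 : ∀ y ∈ W, s (P (φ y)) = φ y := fun y hy => (hW y hy).2.1.1 ⟨y, (hW y hy).1, rfl⟩
  refine ⟨W, (fun y => P (φ y)) '' W, Fin.elim0, fun y => P (φ y), hyW, hWo, ?_, fun i => i.elim0,
    (sep_eq_self_iff_mem_true.2 fun _ _ i => i.elim0).symm, ?_, fun y hy f => ?_⟩
  · refine isOpen_iff_eventually.2 ?_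
    rintro _ ⟨y, hy, rfl⟩
    have h4 := P277Z.Oka.Csp.push M (hW y hy).1 (hWo.eventually_mem hy)
    rw [← h3 y hy] at h4
    filter_upwards [(hB _ (hW y hy).2.2).1.continuousAt.eventually h4,
      hBo.mem_nhds (hW y hy).2.2] with w a b
    obtain ⟨y', c, d⟩ := (ψ w).2
    exact ⟨y', a y' c d, (congrArg P d).trans (hB w b).2⟩
  · have h4 : Continuous (W.domRestrict fun y => P (φ y)) :=
      continuousOn_iff_continuous_domRestrict.1 fun y hy =>
        ((hW y hy).2.1.2.continuousAt.comp (cont y (hW y hy).1)).continuousWithinAt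
    have h5 : IsEmbedding (B.domRestrict s ∘ fun y : W => (⟨P (φ y), (hW y y.2).2.2⟩ : B)) :=
      (funext fun y => h3 y y.2 : (B.domRestrict s ∘ fun y : W =>
        (⟨P (φ y), (hW y y.2).2.2⟩ : B)) = fun y : W => φ y) ▸
        M.emb.comp (IsEmbedding.inclusion (show W ⊆ V from fun y hy => (hW y hy).1))
    exact IsEmbedding.subtypeVal.comp (IsEmbedding.of_comp (h4.subtype_mk _)
      (continuousOn_iff_continuous_domRestrict.1 fun w hw =>
        (hB w hw).1.continuousAt.continuousWithinAt) h5)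
  · rw [M.hol y (hW y hy).1]
    refine ⟨fun ⟨G, hG, e⟩ => ⟨G ∘ s, hG.comp_of_eq (hB _ (hW y hy).2.2).1 (h3 y hy), ?_⟩,
      fun ⟨G, hG, e⟩ => ⟨G ∘ P, hG.comp (hW y hy).2.1.2, e⟩⟩
    filter_upwards [e, hWo.mem_nhds hy] with y' a b
    simp only [a, Function.comp, h3 y' b]

end Vale.Agent.P287Q.H3
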