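import Vale.Agent.P287Q.H3.St
import Vale.Agent.P298.H941.Div
import Vale.Agent.P298.H941.Res

/-!
# Hermite interpolation with parameters, finite projections of analytic sets
-/

set_option linter.unusedSectionVars false

namespace Vale.Agent.P287Q.H3

open Set Function Topology Filter Polynomial
open P267.H823 (hlp hmp hmp_monic hmp_natDegree hlp_degree hlp_inj hmp_coeff hcf weierstrass)
open P298.H941 (weierstrass_division resultant_monic_eq_zero_iff)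

namespace Herm

variable {ι Y : Type} [Fintype ι] [DecidableEq ι] [NormedAddCommGroup Y] [NormedSpace ℂ Y] {N : ℕ}
  {a : Y → ι → Fin N → ℂ} {y₀ : Y}

theorem eval_hlp (b : Fin N → ℂ) (t : ℂ) : (hlp N b).eval t = ∑ j, b j * t ^ (j : ℕ) := by
  change (∑ i : Fin N, C (b i) * X ^ (i : ℕ)).eval t = _
  simp [eval_finsetSum]

theorem eval_hmp (b : Fin N → ℂ) (t : ℂ) : (hmp N b).eval t = mp b t := by
  rw [hmp, eval_add, eval_hlp, eval_pow, eval_X, mp]

theorem norm_le {b : Fin N → ℂ} {t : ℂ} (h : mp b t = 0) : ‖t‖ ≤ 1 + N * ‖b‖ := by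
  by_contra h1
  have h0 : 0 ≤ N * ‖b‖ := by positivity
  have h2 : 1 ≤ ‖t‖ := by linarith [not_le.1 h1]
  have h3 : ‖t‖ ^ N * ‖t‖ ≤ ‖t‖ ^ N * (N * ‖b‖) := by
    have e : ‖t‖ ^ N = ‖∑ j, b j * t ^ (j : ℕ)‖ := by
      rw [← norm_pow, eq_neg_of_add_eq_zero_left h, norm_neg]
    refine (mul_le_mul_of_nonneg_right (e.le.trans (norm_sum_le _ _)) (norm_nonneg _)).trans ?_
    rw [Finset.sum_mul]
    refine (Finset.sum_le_card_nsmul _ _ (‖b‖ * ‖t‖ ^ N) fun j _ => ?_).trans (le_of_eq ?_)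
    · rw [norm_mul, norm_pow, mul_assoc, ← pow_succ]
      exact mul_le_mul (norm_le_pi_norm b j) (pow_le_pow_right₀ h2 j.2) (by positivity)
        (norm_nonneg _)
    · rw [Finset.card_univ, Fintype.card_fin, nsmul_eq_mul]
      ring
  have h4 := le_of_mul_le_mul_left h3 (by positivity)
  linarith [not_le.1 h1]

theorem form (b : Fin N → ℂ) (ρ : ℂ) : ∃ (m : ℕ) (u : ℂ → ℂ), AnalyticAt ℂ u 0 ∧ u 0 ≠ 0 ∧
    ∀ᶠ t in 𝓝 (0 : ℂ), mp b (ρ + t) = t ^ m * u t := by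
  obtain ⟨q, h1, h2⟩ := exists_eq_pow_rootMultiplicity_mul_and_not_dvd _ (hmp_monic N b).ne_zero ρ
  refine ⟨rootMultiplicity ρ (hmp N b), fun t => q.eval (ρ + t), ?_,
    fun h => h2 (dvd_iff_isRoot.2 (by simpa using h)), .of_forall fun t => ?_⟩
  · exact (q.differentiable.comp (by fun_prop)).analyticAt 0
  · rw [← eval_hmp, congrArg (Polynomial.eval (ρ + t)) h1, eval_mul, eval_pow, eval_sub, eval_X, eval_C,
      add_sub_cancel_left]

theorem an_mp {E : Type} [NormedAddCommGroup E] [NormedSpace ℂ E] {b : E → Fin N → ℂ} {t : E → ℂ}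
    {e : E} (hb : AnalyticAt ℂ b e) (ht : AnalyticAt ℂ t e) :
    AnalyticAt ℂ (fun z => mp (b z) (t z)) e :=
  (ht.fun_pow N).fun_add (Finset.analyticAt_fun_sum _ fun j _ =>
    (analyticAt_pi_iff.1 hb j).fun_mul (ht.fun_pow _))

variable (a) in
/-- the common zeros -/
def Z : Set ((ι → ℂ) × Y) := {z | ∀ i, mp (a z.2 i) (z.1 i) = 0}

variable (a) in
/-- the common zeros over a point -/
noncomputable def rts (y : Y) : Finset (ι → ℂ) :=
  Fintype.piFinset fun i => (hmp N (a y i)).roots.toFinset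

theorem mem_rts {y : Y} {x : ι → ℂ} : x ∈ rts a y ↔ (x, y) ∈ Z a := by
  simp only [rts, Fintype.mem_piFinset, Multiset.mem_toFinset, mem_roots (hmp_monic N _).ne_zero,
    IsRoot, eval_hmp, Z, mem_ofPred_eq]

theorem card_rts (y : Y) : (rts a y).card ≤ N ^ Fintype.card ι := by
  rw [rts, Fintype.card_piFinset, ← Finset.card_univ]
  exact Finset.prod_le_pow_card _ _ _ fun i _ => (Multiset.toFinset_card_le _).trans
    ((card_roots' _).trans (hmp_natDegree N _).le)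

/-- the zeros stay near the zeros over the base point -/
theorem near (ha : AnalyticAt ℂ a y₀) {Q : (ι → ℂ) × Y → Prop}
    (h : ∀ ξ, (ξ, y₀) ∈ Z a → ∀ᶠ z in 𝓝 (ξ, y₀), z ∈ Z a → Q z) :
    ∀ᶠ y in 𝓝 y₀, ∀ x, (x, y) ∈ Z a → Q (x, y) := by
  have h1 : ∀ ξ, ∀ᶠ z in 𝓝 (ξ, y₀), z ∈ Z a → Q z := fun ξ => by
    by_cases h2 : (ξ, y₀) ∈ Z a
    · exact h ξ h2
    · obtain ⟨i, hi⟩ := not_forall.1 h2
      have h3 : AnalyticAt ℂ (fun z : (ι → ℂ) × Y => mp (a z.2 i) (z.1 i)) (ξ, y₀) :=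
        an_mp (analyticAt_pi_iff.1 (ha.comp_of_eq analyticAt_snd rfl) i)
          (analyticAt_pi_iff.1 analyticAt_fst i)
      exact (h3.continuousAt.eventually_ne hi).mono fun z hz h' => absurd (h' i) hz
  have h2 := IsCompact.eventually_forall_of_forall_eventually
    (isCompact_closedBall (0 : ι → ℂ) (1 + N * (‖a y₀‖ + 1))) (x₀ := y₀) (P := fun y x => (x, y) ∈ Z a → Q (x, y)) fun ξ _ =>
      (continuous_swap.tendsto (y₀, ξ)).eventually (h1 ξ)
  filter_upwards [h2, ha.continuousAt.norm.eventually_lt_const (lt_add_one _)] with y h3 h4 x hx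
  refine h3 x (mem_closedBall_zero_iff.2 ((pi_norm_le_iff_of_nonneg (by positivity)).2 fun i =>
    (norm_le (hx i)).trans ?_)) hx
  have := (norm_le_pi_norm (a y) i).trans h4.le
  gcongr

variable (ι y₀) in
/-- polynomials with analytic coefficients -/
def Pol : Subalgebra ℂ ((ι → ℂ) × Y → ℂ) :=
  Algebra.adjoin ℂ ({f | ∃ i, f = fun z => z.1 i} ∪ {f | ∃ g, AnalyticAt ℂ g y₀ ∧ f = fun z => g z.2})

theorem pol_crd (i : ι) : (fun z => z.1 i) ∈ Pol ι y₀ := Algebra.subset_adjoin (.inl ⟨i, rfl⟩)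

theorem pol_par {g : Y → ℂ} (hg : AnalyticAt ℂ g y₀) : (fun z => g z.2) ∈ Pol ι y₀ :=
  Algebra.subset_adjoin (.inr ⟨g, hg, rfl⟩)

theorem pol_ind {P : ((ι → ℂ) × Y → ℂ) → Prop} (h1 : ∀ i, P fun z => z.1 i)
    (h2 : ∀ g, AnalyticAt ℂ g y₀ → P fun z => g z.2) (h3 : ∀ f g, P f → P g → P (f + g))
    (h4 : ∀ f g, P f → P g → P (f * g)) {f : (ι → ℂ) × Y → ℂ} (hf : f ∈ Pol ι y₀) : P f := by
  induction hf using Algebra.adjoin_induction with
  | mem x hx =>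
    obtain ⟨i, rfl⟩ | ⟨g, hg, rfl⟩ := hx
    exacts [h1 i, h2 g hg]
  | algebraMap c => exact h2 (fun _ => c) analyticAt_const
  | add f g _ _ hf hg => exact h3 f g hf hg
  | mul f g _ _ hf hg => exact h4 f g hf hg

theorem pol_an {f : (ι → ℂ) × Y → ℂ} (hf : f ∈ Pol ι y₀) (x : ι → ℂ) : AnalyticAt ℂ f (x, y₀) :=
  pol_ind (P := fun f => AnalyticAt ℂ f (x, y₀)) (fun i => analyticAt_pi_iff.1 analyticAt_fst i)
    (fun _ hg => hg.comp_of_eq analyticAt_snd rfl) (fun _ _ => AnalyticAt.add)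
    (fun _ _ => AnalyticAt.mul) hf

theorem pol_sum {κ : Type} (s : Finset κ) {R : κ → (ι → ℂ) × Y → ℂ} (hR : ∀ j, R j ∈ Pol ι y₀)
    (m : κ → ℕ) (i : ι) (ρ : ℂ) : (fun z => ∑ j ∈ s, R j z * (z.1 i - ρ) ^ m j) ∈ Pol ι y₀ := by
  have := (Pol ι y₀).sum_mem fun j (_ : j ∈ s) => (Pol ι y₀).mul_mem (hR j) ((Pol ι y₀).pow_mem
    ((Pol ι y₀).sub_mem (pol_crd i) (pol_par (g := fun _ => ρ) analyticAt_const)) (m j))
  exact (congrArg (· ∈ Pol ι y₀) (funext fun z => by simp)).mp this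

/-- local division -/
theorem loc (ha : AnalyticAt ℂ a y₀) (ξ : ι → ℂ) (s : Finset ι) : ∀ {F : (ι → ℂ) × Y → ℂ},
    AnalyticAt ℂ F (ξ, y₀) → ∃ R ∈ Pol ι y₀, ∀ᶠ z in 𝓝 (ξ, y₀), z ∈ Z a →
      F (s.piecewise z.1 ξ, z.2) = R z := by
  induction s using Finset.induction_on with
  | empty =>
    intro F hF
    exact ⟨_, pol_par (g := fun y => F (ξ, y))
      (hF.comp_of_eq (analyticAt_const.prod analyticAt_id) rfl), .of_forall fun z _ => by simp⟩
  | insert i s _ ih =>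
    intro F hF
    obtain ⟨m, u, h1, h2, h3⟩ := form (a y₀ i) (ξ i)
    obtain ⟨v, r, -, h4, h5⟩ := weierstrass_division (p0 := (ξ, y₀))
      (F := fun w : ℂ × (ι → ℂ) × Y => mp (a w.2.2 i) (ξ i + w.1))
      (an_mp (analyticAt_pi_iff.1 (ha.comp_of_eq (analyticAt_snd.comp analyticAt_snd) rfl) i)
        (analyticAt_const.fun_add analyticAt_fst)) h1 h2 h3
      (g := fun w => F (update w.2.1 i (ξ i + w.1), w.2.2))
      (hF.comp_of_eq (AnalyticAt.prod (analyticAt_pi_iff.2 fun j => by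
        by_cases e : j = i
        · simp only [e, update_self]
          exact analyticAt_const.fun_add analyticAt_fst
        · simp only [update_of_ne e]
          exact analyticAt_pi_iff.1 (analyticAt_fst.comp analyticAt_snd) j)
        (analyticAt_snd.comp analyticAt_snd)) (by simp))
    choose R h6 h7 using fun j => ih (h4 j)
    refine ⟨_, pol_sum Finset.univ h6 (fun j => j) i (ξ i), ?_⟩
    have h8 : Tendsto (fun z : (ι → ℂ) × Y => (z.1 i - ξ i, s.piecewise z.1 ξ, z.2)) (𝓝 (ξ, y₀))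
        (𝓝 (0, ξ, y₀)) := Continuous.tendsto' (Continuous.prodMk (by fun_prop)
          (Continuous.prodMk (continuous_pi fun j => by
            by_cases e : j ∈ s
            · simp only [Finset.piecewise_eq_of_mem _ _ _ e]
              fun_prop
            · simp only [Finset.piecewise_eq_of_notMem _ _ _ e]
              fun_prop) continuous_snd)) _ _ (by simp [Finset.piecewise_same])
    filter_upwards [h8.eventually h5, eventually_all.2 h7] with z k1 k2 hz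
    simp only [add_sub_cancel, hz i, mul_zero, zero_add] at k1
    rw [Finset.piecewise_insert, k1]
    exact Finset.sum_congr rfl fun j _ => by rw [k2 j hz]

/-- separation of two points -/
theorem sep (ha : AnalyticAt ℂ a y₀) (ξ ξ' : ι → ℂ) : ∃ W ∈ Pol ι y₀, W (ξ', y₀) ≠ 0 ∧
    ∀ᶠ z in 𝓝 (ξ, y₀), z ∈ Z a → ξ' ≠ ξ → W z = 0 := by
  by_cases e : ξ' = ξ
  · exact ⟨1, one_mem _, one_ne_zero, .of_forall fun _ _ h => absurd e h⟩
  obtain ⟨i, hi⟩ := ne_iff.1 e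
  obtain ⟨m, u, h1, h2, h3⟩ := form (a y₀ i) (ξ i)
  obtain ⟨P, v, h4, h5, h6, -, -, h7⟩ := weierstrass (p0 := y₀)
    (F := fun w : ℂ × Y => mp (a w.2 i) (ξ i + w.1))
    (an_mp (analyticAt_pi_iff.1 (ha.comp_of_eq analyticAt_snd rfl) i)
      (analyticAt_const.fun_add analyticAt_fst)) h1 h2 h3
  have h8 : ∀ z : (ι → ℂ) × Y, ∑ j ∈ Finset.range (m + 1), (P z.2).coeff j * (z.1 i - ξ i) ^ j =
      (P z.2).eval (z.1 i - ξ i) := fun z => (eval_eq_sum_range' (by rw [(h4 _).2]; omega) _).symm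
  refine ⟨_, pol_sum (Finset.range (m + 1)) (fun j => pol_par (h5 j)) id i (ξ i), ?_, ?_⟩
  · refine (h8 (ξ', y₀)).trans_ne ?_
    rw [h6, eval_pow, eval_X]
    exact pow_ne_zero _ (sub_ne_zero.2 hi)
  · have h9 : Tendsto (fun z : (ι → ℂ) × Y => (z.1 i - ξ i, z.2)) (𝓝 (ξ, y₀)) (𝓝 (0, y₀)) :=
      Continuous.tendsto' (by fun_prop) _ _ (by simp)
    filter_upwards [h9.eventually h7] with z k1 hz _
    simp only [add_sub_cancel, hz i, zero_mul] at k1
    exact (h8 z).trans k1.symm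

/-- interpolation of germs -/
theorem glob (ha : AnalyticAt ℂ a y₀) (T : Finset (ι → ℂ)) {F : (ι → ℂ) → (ι → ℂ) × Y → ℂ}
    (hF : ∀ ξ ∈ T, AnalyticAt ℂ (F ξ) (ξ, y₀)) :
    ∃ R ∈ Pol ι y₀, ∀ ξ ∈ T, ∀ᶠ z in 𝓝 (ξ, y₀), z ∈ Z a → F ξ z = R z := by
  choose W h1 h2 h3 using sep ha
  have h4 : ∀ ξ', ∏ ξ ∈ T, W ξ ξ' ∈ Pol ι y₀ := fun ξ' => prod_mem fun ξ _ => h1 ξ ξ'
  have h5 : ∀ ξ', (∏ ξ ∈ T, W ξ ξ') (ξ', y₀) ≠ 0 := fun ξ' => by
    rw [Finset.prod_apply]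
    exact Finset.prod_ne_zero_iff.2 fun ξ _ => h2 ξ ξ'
  choose! R h6 h7 using fun ξ' (h : ξ' ∈ T) =>
    loc ha ξ' Finset.univ ((hF ξ' h).fun_div (pol_an (h4 ξ') ξ') (h5 ξ'))
  refine ⟨∑ ξ' ∈ T, (∏ ξ ∈ T, W ξ ξ') * R ξ', sum_mem fun ξ' h => mul_mem (h4 ξ') (h6 ξ' h),
    fun ξ hξ => ?_⟩
  filter_upwards [h7 ξ hξ, (pol_an (h4 ξ) ξ).continuousAt.eventually_ne (h5 ξ),
    T.eventually_all.2 fun ξ' _ => h3 ξ ξ'] with z k1 k2 k3 hz
  rw [Finset.sum_apply, Finset.sum_eq_single_of_mem ξ hξ fun ξ' h e => ?_, Pi.mul_apply, ← k1 hz,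
    Finset.piecewise_univ, mul_div_cancel₀ _ k2]
  rw [Pi.mul_apply, Finset.prod_apply, Finset.prod_eq_zero hξ (k3 ξ' h hz e), zero_mul]

variable (a y₀) in
/-- normal forms -/
def Nf (G : (ι → ℂ) × Y → ℂ) : Prop := ∃ c : Y → (ι → Fin N) → ℂ, AnalyticAt ℂ c y₀ ∧
  ∀ z ∈ Z a, G z = ∑ α, c z.2 α * ∏ i, z.1 i ^ (α i : ℕ)

theorem Nf.congr {G G' : (ι → ℂ) × Y → ℂ} (h : Nf a y₀ G) (e : ∀ z ∈ Z a, G' z = G z) :
    Nf a y₀ G' := h.imp fun _ h => ⟨h.1, fun z hz => (e z hz).trans (h.2 z hz)⟩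

theorem Nf.sum {κ : Type} [Fintype κ] {G : κ → (ι → ℂ) × Y → ℂ} (h : ∀ j, Nf a y₀ (G j))
    {g : Y → κ → ℂ} (hg : AnalyticAt ℂ g y₀) : Nf a y₀ fun z => ∑ j, g z.2 j * G j z := by
  choose c h1 h2 using h
  refine ⟨fun y α => ∑ j, g y j * c j y α, analyticAt_pi_iff.2 fun α =>
    Finset.analyticAt_fun_sum _ fun j _ => (analyticAt_pi_iff.1 hg j).fun_mul
      (analyticAt_pi_iff.1 (h1 j) α), fun z hz => ?_⟩
  simp only [h2 _ z hz, Finset.mul_sum, Finset.sum_mul, mul_assoc]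
  exact Finset.sum_comm

theorem nf_mon (α : ι → Fin N) : Nf a y₀ fun z => ∏ i, z.1 i ^ (α i : ℕ) :=
  ⟨fun _ => Pi.single α 1, analyticAt_const, fun z _ => by simp [Pi.single_apply]⟩

theorem mon_update (x : ι → ℂ) (α : ι → Fin N) (i : ι) (j : Fin N) :
    ∏ k, x k ^ (update α i j k : ℕ) = x i ^ (j : ℕ) * ∏ k ∈ Finset.univ.erase i, x k ^ (α k : ℕ) := by
  rw [← Finset.mul_prod_erase _ _ (Finset.mem_univ i), update_self]
  exact congrArg _ (Finset.prod_congr rfl fun k hk => by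
    rw [update_of_ne (Finset.ne_of_mem_erase hk)])

theorem nf_crd (ha : AnalyticAt ℂ a y₀) (i : ι) (α : ι → Fin N) :
    Nf a y₀ fun z => z.1 i * ∏ k, z.1 k ^ (α k : ℕ) := by
  by_cases h : (α i : ℕ) + 1 < N
  · refine (nf_mon (update α i ⟨_, h⟩)).congr fun z _ => ?_
    rw [mon_update, ← Finset.mul_prod_erase _ _ (Finset.mem_univ i), pow_succ']
    exact (mul_assoc _ _ _).symm
  · refine (Nf.sum (fun j => nf_mon (update α i j)) (analyticAt_pi_iff.1 ha i).neg).congr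
      fun z hz => ?_
    have e : z.1 i * z.1 i ^ (α i : ℕ) = -∑ j, a z.2 i j * z.1 i ^ (j : ℕ) := by
      rw [← pow_succ', show (α i : ℕ) + 1 = N by have := (α i).2; omega]
      exact eq_neg_of_add_eq_zero_left (hz i)
    rw [← Finset.mul_prod_erase _ _ (Finset.mem_univ i), ← mul_assoc, e]
    simp only [mon_update, Pi.neg_apply, neg_mul, Finset.sum_neg_distrib, Finset.sum_mul, mul_assoc]

theorem nf_one : Nf a y₀ 1 := by
  rcases (Z a).eq_empty_or_nonempty with h | ⟨z, hz⟩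
  · exact ⟨0, analyticAt_const, fun z hz => by simp [h] at hz⟩
  · have h : ∀ i : ι, 0 < N := fun i => Nat.pos_of_ne_zero fun e => by
      subst e
      simpa [mp] using hz i
    exact (nf_mon fun i => ⟨0, h i⟩).congr fun z _ => by simp

theorem nf_pol (ha : AnalyticAt ℂ a y₀) {G : (ι → ℂ) × Y → ℂ} (hG : G ∈ Pol ι y₀) : Nf a y₀ G := by
  rw [← mul_one G]
  refine pol_ind (P := fun G => ∀ H, Nf a y₀ H → Nf a y₀ (G * H)) (fun i H ⟨c, h1, h2⟩ => ?_)
    (fun g hg H hH => ?_) (fun f g hf hg H hH => ?_)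
    (fun f g hf hg H hH => mul_assoc f g H ▸ hf _ (hg H hH)) hG 1 nf_one
  · refine (Nf.sum (nf_crd ha i) h1).congr fun z hz => ?_
    simp only [Pi.mul_apply, h2 z hz, Finset.mul_sum, mul_left_comm]
  · refine (Nf.sum (κ := Unit) (fun _ => hH) (g := fun y _ => g y)
      (analyticAt_pi_iff.2 fun _ => hg)).congr fun z _ => by simp
  · refine (Nf.sum (κ := Bool) (G := fun b => if b then f * H else g * H)
      (fun b => by cases b; exacts [hg H hH, hf H hH]) (g := fun _ _ => 1)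
      analyticAt_const).congr fun z _ => by simp [add_mul]

/-- evaluation at a point -/
def evP (z : (ι → ℂ) × Y) : Pol ι y₀ →+* ℂ :=
  (Pi.evalRingHom (fun _ => ℂ) z).comp (Pol ι y₀).val.toRingHom

theorem exists_poly (i : ι) {G : (ι → ℂ) × Y → ℂ} (hG : G ∈ Pol ι y₀) :
    ∃ p : (Pol ι y₀)[X], ∀ z t, (p.map (evP z)).eval t = G (update z.1 i t, z.2) := by
  refine pol_ind (P := fun G => ∃ p : (Pol ι y₀)[X], ∀ z t,
    (p.map (evP z)).eval t = G (update z.1 i t, z.2)) (fun j => ?_)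
    (fun g hg => ⟨C ⟨_, pol_par hg⟩, fun z t => by rw [map_C, eval_C]; rfl⟩)
    (fun f g ⟨p, hp⟩ ⟨q, hq⟩ => ⟨p + q, fun z t => by
      rw [Polynomial.map_add, eval_add, hp, hq]; rfl⟩)
    (fun f g ⟨p, hp⟩ ⟨q, hq⟩ => ⟨p * q, fun z t => by
      rw [Polynomial.map_mul, eval_mul, hp, hq]; rfl⟩) hG
  by_cases e : j = i
  · exact ⟨X, fun z t => by simp [e]⟩
  · exact ⟨C ⟨_, pol_crd j⟩, fun z t => by rw [map_C, eval_C]; exact (update_of_ne e _ _).symm⟩

/-- norms -/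
theorem nrm (ha : AnalyticAt ℂ a y₀) {G : (ι → ℂ) × Y → ℂ} (hG : G ∈ Pol ι y₀) (s : Finset ι) :
    ∃ G' ∈ Pol ι y₀, ∀ z, G' z = 0 ↔ ∃ x : ι → ℂ, (∀ i ∈ s, mp (a z.2 i) (x i) = 0) ∧
      G (s.piecewise x z.1, z.2) = 0 := by
  induction s using Finset.induction_on with
  | empty => exact ⟨G, hG, fun z => by simp⟩
  | insert i s hi ih =>
    obtain ⟨G', h1, h2⟩ := ih
    obtain ⟨p, hp⟩ := exists_poly i h1
    let q : (Pol ι y₀)[X] := X ^ N + ∑ j : Fin N,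
      C ⟨_, pol_par (analyticAt_pi_iff.1 (analyticAt_pi_iff.1 ha i) j)⟩ * X ^ (j : ℕ)
    have hq : ∀ z, q.map (evP z) = hmp N (a z.2 i) := fun z => by
      simp only [q, Polynomial.map_add, Polynomial.map_pow, map_X, Polynomial.map_sum,
        Polynomial.map_mul, map_C]
      rfl
    refine ⟨_, (resultant q p N p.natDegree).2, fun z => ?_⟩
    change evP z _ = 0 ↔ _
    rw [← resultant_map_map, hq,
      resultant_monic_eq_zero_iff (hmp_monic _ _) (hmp_natDegree _ _) natDegree_map_le]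
    simp only [hp, h2, eval_hmp]
    have e : ∀ x : ι → ℂ, (insert i s).piecewise x z.1 = s.piecewise x (update z.1 i (x i)) :=
      fun x => by rw [Finset.piecewise_insert, Finset.update_piecewise_of_notMem _ _ _ hi]
    refine ⟨fun ⟨t, h3, x, h4, h5⟩ => ⟨update x i t, fun j hj => ?_, ?_⟩, fun ⟨x, h3, h4⟩ =>
      ⟨x i, h3 i (Finset.mem_insert_self _ _), x, fun j hj => h3 j (Finset.mem_insert_of_mem hj),
        e x ▸ h4⟩⟩
    · by_cases e' : j = i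
      · rwa [e', update_self]
      · rw [update_of_ne e']
        exact h4 j ((Finset.mem_insert.1 hj).resolve_left e')
    · rw [e, update_self, ← h5]
      exact congrArg (fun x => G (x, z.2)) (s.piecewise_congr
        (fun j hj => update_of_ne (ne_of_mem_of_not_mem hj hi) _ _) fun _ _ => rfl)

/-- the projection of the common zeros of finitely many polynomials -/
theorem proj (ha : AnalyticAt ℂ a y₀) {k : ℕ} {H : Fin k → (ι → ℂ) × Y → ℂ}
    (hH : ∀ l, H l ∈ Pol ι y₀) : ∃ (m : ℕ) (h : Y → Fin m → ℂ), AnalyticAt ℂ h y₀ ∧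
      ∀ y, h y = 0 ↔ ∃ x, (x, y) ∈ Z a ∧ ∀ l, H l (x, y) = 0 := by
  have h1 : ∀ t : ℕ, (fun z => ∑ l, H l z * (t : ℂ) ^ (l : ℕ)) ∈ Pol ι y₀ := fun t => by
    have := (Pol ι y₀).sum_mem fun l (_ : l ∈ Finset.univ) =>
      (Pol ι y₀).smul_mem (hH l) ((t : ℂ) ^ (l : ℕ))
    exact (congrArg (· ∈ Pol ι y₀) (funext fun z => by simp [mul_comm])).mp this
  choose G h2 h3 using fun t => nrm ha (h1 t) Finset.univ
  refine ⟨N ^ Fintype.card ι * k + 1, fun y t => G t (0, y), analyticAt_pi_iff.2 fun t =>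
    (pol_an (h2 t) 0).comp_of_eq (analyticAt_const.prod analyticAt_id) rfl, fun y => ?_⟩
  simp only [funext_iff, Pi.zero_apply, h3, Finset.piecewise_univ, Finset.mem_univ, forall_true_left]
  refine ⟨fun h => ?_, fun ⟨x, h4, h5⟩ t => ⟨x, h4, by simp [h5]⟩⟩
  have h4 := eq_zero_of_natDegree_lt_card_of_eval_eq_zero
    (∏ x ∈ rts a y, hlp k fun l => H l (x, y))
    (f := fun t : Fin (N ^ Fintype.card ι * k + 1) => ((t : ℕ) : ℂ))
    (Nat.cast_injective.comp Fin.val_injective) (fun t => by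
      obtain ⟨x, h5, h6⟩ := h t
      rw [eval_prod]
      exact Finset.prod_eq_zero (mem_rts.2 h5) ((eval_hlp _ _).trans h6)) (by
      rw [Fintype.card_fin, Nat.lt_succ_iff]
      exact (natDegree_prod_le _ _).trans ((Finset.sum_le_card_nsmul _ _ k fun x _ =>
        natDegree_le_of_degree_le (hlp_degree _ _).le).trans
          (Nat.mul_le_mul_right k (card_rts y))))
  obtain ⟨x, h5, h6⟩ := Finset.prod_eq_zero_iff.1 h4
  exact ⟨x, mem_rts.1 h5, funext_iff.1 (hlp_inj h6)⟩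

/-- global equations -/
theorem eqs (ha : AnalyticAt ℂ a y₀) {B : Set ((ι → ℂ) × Y)}
    (hB : ∀ ξ, (ξ, y₀) ∈ Z a → An B (ξ, y₀)) : ∃ (k : ℕ) (H : Fin k → (ι → ℂ) × Y → ℂ),
      (∀ l, H l ∈ Pol ι y₀) ∧
        ∀ᶠ y in 𝓝 y₀, ∀ x, (x, y) ∈ Z a → ((x, y) ∈ B ↔ ∀ l, H l (x, y) = 0) := by
  choose k h h1 h2 using fun ξ : rts a y₀ => hB ξ (mem_rts.1 ξ.2)
  choose R h3 h4 using fun l : Σ ξ, Fin (k ξ) => glob ha (rts a y₀)
    (F := fun ξ z => if ξ = l.1 then h l.1 z l.2 else 0) fun ξ _ => by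
      by_cases e : ξ = l.1
      · simp only [e, if_true]
        exact analyticAt_pi_iff.1 (h1 l.1) l.2
      · simp only [if_neg e]
        exact analyticAt_const
  refine ⟨_, fun l => R ((Fintype.equivFin _).symm l), fun l => h3 _,
    near ha (Q := fun z => z ∈ B ↔ ∀ l, R ((Fintype.equivFin _).symm l) z = 0) fun ξ hξ => ?_⟩
  filter_upwards [h2 ⟨ξ, mem_rts.2 hξ⟩, eventually_all.2 fun l => h4 l ξ (mem_rts.2 hξ)]
    with z k1 k2 hz
  rw [(Fintype.equivFin _).symm.forall_congr_right (q := fun l => R l z = 0), k1]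
  refine ⟨fun h0 l => (k2 l hz).symm.trans ?_, fun h0 => funext fun j =>
    (if_pos rfl).symm.trans ((k2 ⟨⟨ξ, mem_rts.2 hξ⟩, j⟩ hz).trans (h0 _))⟩
  obtain ⟨⟨ξ', h5⟩, j⟩ := l
  split_ifs with e
  · subst e
    exact congrFun h0 j
  · rfl

end Herm

open Herm

/-- **Hermite interpolation with parameters.** -/
theorem stHerm : StHerm := fun E _ _ _ n N a y₀ F ha hF => by
  obtain ⟨R, h1, h2⟩ := glob ha (rts a y₀) (F := fun _ => F) fun ξ h => hF ξ (mem_rts.1 h)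
  obtain ⟨c, h3, h4⟩ := nf_pol ha h1
  exact ⟨c, h3, (near ha fun ξ h => h2 ξ (mem_rts.2 h)).mono fun y h x hx =>
    (h x hx).trans (h4 (x, y) hx)⟩

/-- **Finite projections of analytic sets.** -/
theorem stFin : StFin := fun E _ _ _ n N a y₀ B ha h0 hB => by
  obtain ⟨k, H, h1, h2⟩ := eqs ha hB
  obtain ⟨m, h, h3, h4⟩ := proj ha h1
  refine ⟨m, h, h3, h2.mono fun y hy => ?_⟩
  rw [h4]
  exact ⟨fun ⟨z, hz, e⟩ => e ▸ ⟨z.1, h0 z hz, ((e ▸ hy) z.1 (h0 z hz)).1 hz⟩,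
    fun ⟨x, h5, h6⟩ => ⟨_, (hy x h5).2 h6, rfl⟩⟩

end Vale.Agent.P287Q.H3
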