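import Vale.Agent.P287Q.Mf.Iff
import Vale.Agent.P291Z.Fl1

/-!
# The Chern form of a Hermitian metric, on the level of cochains
-/

namespace Vale.Agent.P287Q.H3.LB

open Set Function Topology Filter Complex P291Z P291Z.Fl Mf
open scoped ContDiff ComplexConjugate

variable {E : Type} [NormedAddCommGroup E] [NormedSpace ℂ E]

/-- Two of three points. -/
noncomputable def pr (E : Type) [NormedAddCommGroup E] [NormedSpace ℂ E] (i j : Fin 3) :
    (Fin 3 → E) →L[ℝ] E × E :=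
  (ContinuousLinearMap.proj (R := ℝ) (φ := fun _ : Fin 3 => E) i).prod
    (ContinuousLinearMap.proj (R := ℝ) (φ := fun _ : Fin 3 => E) j)

theorem pr_apply (i j : Fin 3) (y : Fin 3 → E) : pr E i j y = (y i, y j) := rfl

/-- The coboundary of a function of two points. -/
noncomputable def cb (g : E × E → ℂ) : (Fin 3 → E) → ℂ :=
  g ∘ pr E 1 2 - g ∘ pr E 0 2 + g ∘ pr E 0 1

theorem two_le : ((2 : ℕ) : WithTop ℕ∞) ≤ ∞ := WithTop.coe_le_coe.2 (le_top (a := (2 : ℕ∞)))

variable {g : E × E → ℂ}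

theorem cb_two (hg : ContDiff ℝ ∞ g) (z a b : E) (m : Fin 2 → Fin 3 → E)
    (h0 : m 0 = Pi.single 1 a) (h1 : m 1 = Pi.single 2 b) :
    iteratedFDeriv ℝ 2 (cb g) (fun _ => z) m = fderiv ℝ (fderiv ℝ g) (z, z) (a, 0) (0, b) := by
  have h2 : ∀ i j, ContDiffAt ℝ ((2 : ℕ) : WithTop ℕ∞) (g ∘ pr E i j) fun _ => z := fun i j =>
    ((hg.comp (pr E i j).contDiff).of_le two_le).contDiffAt
  have h3 : ∀ i j, iteratedFDeriv ℝ 2 (g ∘ pr E i j) (fun _ => z) m =
      fderiv ℝ (fderiv ℝ g) (z, z) (m 0 i, m 0 j) (m 1 i, m 1 j) := fun i j => by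
    rw [(pr E i j).iteratedFDeriv_comp_right hg _ two_le,
      ContinuousMultilinearMap.compContinuousLinearMap_apply, iteratedFDeriv_two_apply]
    rfl
  rw [cb, iteratedFDeriv_add_apply (f := g ∘ pr E 1 2 - g ∘ pr E 0 2) ((h2 1 2).sub (h2 0 2))
    (h2 0 1), iteratedFDeriv_sub_apply (h2 1 2) (h2 0 2), _root_.add_apply,
    _root_.sub_apply, h3, h3, h3, h0, h1]
  simp [Prod.mk_zero_zero]

theorem cb_frm (hg : ContDiff ℝ ∞ g) (z : E) (v : Fin 2 → E) :
    frm (k := 2) (cb g) z v = fderiv ℝ (fderiv ℝ g) (z, z) (v 0, 0) (0, v 1) -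
      fderiv ℝ (fderiv ℝ g) (z, z) (v 1, 0) (0, v 0) := by
  have hu : (Finset.univ : Finset (Equiv.Perm (Fin 2))) = {1, Equiv.swap 0 1} := by decide
  have hn : (1 : Equiv.Perm (Fin 2)) ≠ Equiv.swap 0 1 := by decide
  have e1 := cb_two hg z (v 0) (v 1)
    (fun i => Pi.single i.succ (v ((1 : Equiv.Perm (Fin 2)) i))) rfl rfl
  have e2 := cb_two hg z (v 1) (v 0)
    (fun i => Pi.single i.succ (v (Equiv.swap (0 : Fin 2) 1 i))) rfl rfl
  rw [frm, hu, Finset.sum_pair hn, ← e1, ← e2]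
  simp [sub_eq_add_neg]

theorem sesq (S : E →L[ℝ] E →L[ℝ] ℂ) (t : ℂ) (v w : E) :
    S (I • t • v) (t • w) - S (t • v) (I • t • w) = t * conj t * (S (I • v) w - S v (I • w)) := by
  have e : ∀ (c : ℂ) (u : E), c • u = c.re • u + c.im • I • u := fun c u => by
    rw [← Complex.coe_smul, ← Complex.coe_smul, smul_smul, ← add_smul, re_add_im]
  rw [smul_smul, smul_smul, e (I * t), e (I * t), e t v, e t w, mul_conj, normSq_apply]
  simp only [map_add, map_smul, _root_.add_apply, _root_.smul_apply, real_smul, mul_re, mul_im,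
    I_re, I_im]
  push_cast
  ring

variable [FiniteDimensional ℂ E]

/-- If the derivative of `l` in the second point is `∂ ψ`, its coboundary has type `(1, 1)`. -/
theorem typ {l : E × E → ℂ} {ψ : E → ℂ} {x : E} (hl : ∀ᶠ p in 𝓝 (x, x), ContDiffAt ℝ ∞ l p)
    (hψ : ContDiffAt ℝ ∞ ψ x) (h : ∀ᶠ y in 𝓝 x, ∀ w,
      fderiv ℝ l (y, y) (0, w) = fderiv ℝ ψ y w - I * fderiv ℝ ψ y (I • w)) :
    ∃ f : (Fin 3 → E) → ℂ, ContDiff ℝ ∞ f ∧
      (∀ᶠ z in 𝓝 fun _ => x, f z = l (z 1, z 2) - l (z 0, z 2) + l (z 0, z 1)) ∧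
      ∀ (t : ℂ) v, frm (k := 2) f x (t • v) = t * conj t * frm (k := 2) f x v := by
  obtain ⟨g, h1, h2⟩ := exists_contDiff hl
  have h3 : ∀ i j, ∀ᶠ z : Fin 3 → E in 𝓝 fun _ => x, g (z i, z j) = l (z i, z j) := fun i j =>
    ((pr E i j).continuous.tendsto fun _ => x).eventually h2
  refine ⟨cb g, ((h1.comp (pr E 1 2).contDiff).sub (h1.comp (pr E 0 2).contDiff)).add
    (h1.comp (pr E 0 1).contDiff), ?_, ?_⟩
  · filter_upwards [h3 1 2, h3 0 2, h3 0 1] with z a b c
    rw [← a, ← b, ← c]; rfl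
  set S := fderiv ℝ (fderiv ℝ ψ) x
  set D := fderiv ℝ (fderiv ℝ g) (x, x)
  have s1 : ∀ v w, S v w = S w v := hψ.isSymmSndFDerivAt (by simpa using two_le)
  have s2 : ∀ v w, D v w = D w v := h1.contDiffAt.isSymmSndFDerivAt (by simpa using two_le)
  have a1 : HasFDerivAt (fderiv ℝ ψ) S x :=
    ((hψ.fderiv_right (m := 1) two_le).differentiableAt one_ne_zero).hasFDerivAt
  have a2 : HasFDerivAt (fun y => fderiv ℝ g (y, y))
      (D.comp ((ContinuousLinearMap.id ℝ E).prod (.id ℝ E))) x :=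
    ((h1.fderiv_right (m := 1) two_le).differentiable one_ne_zero (x, x)).hasFDerivAt.comp
      (f := fun y => (y, y)) x ((hasFDerivAt_id x).prodMk (hasFDerivAt_id x))
  have key : ∀ v w, D (v, 0) (0, w) = S v w - I * S v (I • w) - D (0, v) (0, w) := fun v w => by
    have b1 := ((ContinuousLinearMap.apply ℝ ℂ w).hasFDerivAt.comp x a1).sub
      (((ContinuousLinearMap.apply ℝ ℂ (I • w)).hasFDerivAt.comp x a1).const_mul I)
    have b2 := (ContinuousLinearMap.apply ℝ ℂ ((0 : E), w)).hasFDerivAt.comp x a2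
    have b3 := b2.unique (b1.congr_of_eventuallyEq (by
      filter_upwards [h, ((continuous_id.prodMk continuous_id).tendsto x).eventually
        (h2.fderiv (𝕜 := ℝ))] with y c1 c2
      exact (congrArg (fun L : E × E →L[ℝ] ℂ => L (0, w)) c2).trans (c1 w)))
    have b4 : D (v, v) (0, w) = S v w - I * S v (I • w) := congrArg (fun L : E →L[ℝ] ℂ => L v) b3
    rw [← b4, eq_sub_iff_add_eq, ← _root_.add_apply, ← map_add, Prod.mk_add_mk, add_zero, zero_add]
  have k2 : ∀ v : Fin 2 → E, frm (k := 2) (cb g) x v =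
      I * (S (I • v 0) (v 1) - S (v 0) (I • v 1)) := fun v => by
    rw [cb_frm h1, key, key, s1 (v 1), s1 (v 1), s2 (0, v 1)]
    ring
  intro t v
  rw [k2, k2, Pi.smul_apply, Pi.smul_apply, sesq]
  ring

variable {m : Type} [Fintype m] (B : m → E → ℂ) (τ : m → E → E) (u : m → E → ℂ)

/-- The local smooth sections. -/
noncomputable def sf (y : E) : m → ℂ := fun k => B k (τ k y) * u k y

/-- The logarithm of the parallel transport. -/
noncomputable def ll (p : E × E) : ℂ :=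
  lg (ip (sf B τ u p.1) (sf B τ u p.2) / ip (sf B τ u p.1) (sf B τ u p.1)) +
    (∑ k, B k (τ k p.1) * (conj (u k p.1) * u k p.1) / ip (sf B τ u p.1) (sf B τ u p.1) *
      (-I * B k (τ k p.1 + I • (τ k p.2 - τ k p.1)))) / (2 * Real.pi * I)

/-- The logarithm of the metric. -/
noncomputable def ps (y : E) : ℂ := log (ip (sf B τ u y) (sf B τ u y)) / 2 / (2 * Real.pi * I)

theorem ip_sum' (a b : m → ℂ) : ip a b = ∑ k, conj (a k) * b k := rfl

theorem ip_slit {a : m → ℂ} (h : a ≠ 0) : ip a a ∈ slitPlane := by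
  have := ip_self_ne h
  rw [ip_self] at this ⊢
  exact ofReal_mem_slitPlane.2 (lt_of_le_of_ne (by positivity) (Ne.symm (by exact_mod_cast this)))

theorem cd_conj {F : Type} [NormedAddCommGroup F] [NormedSpace ℝ F] {f : F → ℂ} {p : F}
    (h : ContDiffAt ℝ ∞ f p) : ContDiffAt ℝ ∞ (fun q => conj (f q)) p :=
  (conjCLE : ℂ →L[ℝ] ℂ).contDiff.contDiffAt.comp p h

theorem cd_log {F : Type} [NormedAddCommGroup F] [NormedSpace ℝ F] {f : F → ℂ} {p : F}
    (h : ContDiffAt ℝ ∞ f p) (hp : f p ∈ slitPlane) : ContDiffAt ℝ ∞ (fun q => log (f q)) p :=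
  ((contDiffAt_log hp).restrict_scalars ℝ).comp p h

/-- The data are regular at `y`. -/
structure Gd (y : E) : Prop where
  cd : ∀ k, ContDiff ℝ ∞ (B k)
  re : ∀ k z, conj (B k z) = B k z
  aτ : ∀ k, AnalyticAt ℂ (τ k) y
  au : ∀ k, AnalyticAt ℂ (u k) y
  ne : sf B τ u y ≠ 0

variable {B τ u} {x y : E}

namespace Gd

omit [Fintype m] in
theorem cτ (h : Gd B τ u y) (k : m) : ContDiffAt ℝ ∞ (τ k) y :=
  have := FiniteDimensional.complete ℂ E
  (h.aτ k).contDiffAt.restrict_scalars ℝ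

omit [FiniteDimensional ℂ E] [Fintype m] in
theorem cu (h : Gd B τ u y) (k : m) : ContDiffAt ℝ ∞ (u k) y :=
  (h.au k).contDiffAt.restrict_scalars ℝ

omit [Fintype m] in
theorem cs (h : Gd B τ u y) (k : m) : ContDiffAt ℝ ∞ (fun y => sf B τ u y k) y :=
  ((h.cd k).contDiffAt.comp y (h.cτ k)).mul (h.cu k)

theorem ev (h : Gd B τ u x) : ∀ᶠ y in 𝓝 x, Gd B τ u y := by
  have := FiniteDimensional.complete ℂ E
  filter_upwards [eventually_all.2 fun k => (h.aτ k).eventually_analyticAt,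
    eventually_all.2 fun k => (h.au k).eventually_analyticAt,
    (continuousAt_pi.2 fun k => (h.cs k).continuousAt).eventually_ne h.ne] with y a b c
  exact ⟨h.cd, h.re, a, b, c⟩

theorem cip (h : Gd B τ u x) (h' : Gd B τ u y) :
    ContDiffAt ℝ ∞ (fun p : E × E => ip (sf B τ u p.1) (sf B τ u p.2)) (x, y) :=
  ContDiffAt.sum fun k _ => (cd_conj (h.cs k).fst').mul (h'.cs k).snd'

theorem ch (h : Gd B τ u x) : ContDiffAt ℝ ∞ (fun y => ip (sf B τ u y) (sf B τ u y)) x :=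
  ContDiffAt.sum fun k _ => (cd_conj (h.cs k)).mul (h.cs k)

theorem cq (h : Gd B τ u x) (h' : Gd B τ u y) : ContDiffAt ℝ ∞ (fun p : E × E =>
    ip (sf B τ u p.1) (sf B τ u p.2) / ip (sf B τ u p.1) (sf B τ u p.1)) (x, y) :=
  (h.cip h').mul (h.ch.fst'.inv (ip_self_ne h.ne))

theorem cps (h : Gd B τ u x) : ContDiffAt ℝ ∞ (ps B τ u) x :=
  ((cd_log h.ch (ip_slit h.ne)).div_const _).div_const _

theorem cll (h : Gd B τ u x) (h' : Gd B τ u y)
    (hs : ip (sf B τ u x) (sf B τ u y) / ip (sf B τ u x) (sf B τ u x) ∈ slitPlane) :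
    ContDiffAt ℝ ∞ (ll B τ u) (x, y) := by
  refine ((cd_log (h.cq h') hs).div_const _).add (ContDiffAt.div_const (.sum fun k _ => ?_) _)
  have a1 : ContDiffAt ℝ ∞ (fun p : E × E => τ k p.1) (x, y) := (h.cτ k).fst'
  have a2 : ContDiffAt ℝ ∞ (fun p : E × E => τ k p.2) (x, y) := (h'.cτ k).snd'
  have a3 : ContDiffAt ℝ ∞ (fun p : E × E => u k p.1) (x, y) := (h.cu k).fst'
  exact ((((h.cd k).contDiffAt.comp _ a1).mul ((cd_conj a3).mul a3)).mul
    (h.ch.fst'.inv (ip_self_ne h.ne))).mul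
    (contDiffAt_const.mul ((h.cd k).contDiffAt.comp _ (a1.add ((a2.sub a1).const_smul I))))

theorem der (h : Gd B τ u y) (w : E) : fderiv ℝ (ll B τ u) (y, y) (0, w) =
    fderiv ℝ (ps B τ u) y w - I * fderiv ℝ (ps B τ u) y (I • w) := by
  have h0 := ip_self_ne h.ne
  have h1 : ip (sf B τ u y) (sf B τ u y) / ip (sf B τ u y) (sf B τ u y) = 1 := div_self h0
  have dτ : ∀ k w, HasDerivAt (fun s : ℝ => τ k (y + s • w)) (fderiv ℂ (τ k) y w) 0 := fun k w =>
    ((h.aτ k).differentiableAt.hasFDerivAt.restrictScalars ℝ).hasLineDerivAt w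
  have du : ∀ k w, HasDerivAt (fun s : ℝ => u k (y + s • w)) (fderiv ℂ (u k) y w) 0 := fun k w =>
    ((h.au k).differentiableAt.hasFDerivAt.restrictScalars ℝ).hasLineDerivAt w
  have dB : ∀ k {c : ℝ → E} {c' : E}, HasDerivAt c c' 0 → c 0 = τ k y →
      HasDerivAt (fun s => B k (c s)) (fderiv ℝ (B k) (τ k y) c') 0 := fun k c c' a b =>
    ((h.cd k).differentiable (by simp) _).hasFDerivAt.comp_hasDerivAt_of_eq 0 a b.symm
  have ds : ∀ k w, HasDerivAt (fun s : ℝ => sf B τ u (y + s • w) k)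
      (fderiv ℝ (B k) (τ k y) (fderiv ℂ (τ k) y w) * u k y +
        B k (τ k y) * fderiv ℂ (u k) y w) 0 := fun k w =>
    ((dB k (dτ k w) (by simp)).fun_mul (du k w)).congr_deriv (by rw [zero_smul, add_zero])
  have dh : ∀ w, HasDerivAt (fun s : ℝ => ip (sf B τ u (y + s • w)) (sf B τ u (y + s • w)))
      (∑ k, (2 * B k (τ k y) * fderiv ℝ (B k) (τ k y) (fderiv ℂ (τ k) y w) *
        (conj (u k y) * u k y) + B k (τ k y) ^ 2 *
        (conj (fderiv ℂ (u k) y w) * u k y + conj (u k y) * fderiv ℂ (u k) y w))) 0 := fun w => by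
    have e : ∀ z, ip (sf B τ u z) (sf B τ u z) = ∑ k, B k (τ k z) * B k (τ k z) *
        (star (u k z) * u k z) := fun z => Finset.sum_congr rfl fun k _ => by
      change conj (_ * _) * (_ * _) = _ * (conj _ * _)
      rw [map_mul, h.re]; ring
    simp only [e]
    refine (HasDerivAt.fun_sum fun k _ => ((dB k (dτ k w) (by simp)).fun_mul
      (dB k (dτ k w) (by simp))).fun_mul ((du k w).star.fun_mul (du k w))).congr_deriv
      (Finset.sum_congr rfl fun k _ => ?_)
    simp only [zero_smul, add_zero, star_def]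
    ring
  have dp : ∀ w, fderiv ℝ (ps B τ u) y w = _ := fun w =>
    (((h.cps.differentiableAt (by simp)).hasFDerivAt.hasLineDerivAt w).unique
      ((((dh w).clog_real (by simpa using ip_slit h.ne)).div_const 2).div_const _) :)
  have d1 := (((h.cll h (h1 ▸ one_mem_slitPlane)).differentiableAt
    (by simp)).hasFDerivAt.hasLineDerivAt (0, w) :)
  have d2 := ((((HasDerivAt.fun_sum (u := Finset.univ) fun k _ => (ds k w).const_mul
    (conj (sf B τ u y k))).div_const (ip (sf B τ u y) (sf B τ u y))).clog_real (by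
      simp [← ip_sum', h1])).div_const (2 * Real.pi * I)).fun_add
    ((HasDerivAt.fun_sum (u := Finset.univ) fun k _ => ((dB k ((((dτ k w).sub_const
      (τ k y)).fun_const_smul I).const_add (τ k y)) (by simp)).const_mul (-I)).const_mul
      (B k (τ k y) * (conj (u k y) * u k y) / ip (sf B τ u y) (sf B τ u y))).div_const
      (2 * Real.pi * I))
  rw [HasLineDerivAt] at d1
  simp only [Prod.smul_mk, smul_zero, Prod.mk_add_mk, add_zero] at d1
  rw [d1.unique d2, dp, dp]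
  simp only [zero_smul, add_zero]
  rw [← ip_sum' (sf B τ u y) (sf B τ u y), h1]
  simp only [div_one, map_smul, smul_eq_mul, Finset.sum_div,
    Finset.mul_sum, ← Finset.sum_add_distrib, ← Finset.sum_sub_distrib]
  refine Finset.sum_congr rfl fun k _ => ?_
  simp only [sf, map_mul, h.re, conj_I]
  have hπ : (Real.pi : ℂ) ≠ 0 := ofReal_ne_zero.2 Real.pi_ne_zero
  field_simp
  linear_combination (B k (τ k y) ^ 2 * (conj (u k y) * fderiv ℂ (u k) y w -
    conj (fderiv ℂ (u k) y w) * u k y)) * I_sq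

end Gd

theorem Gd.typ (h : Gd B τ u x) : ∃ f : (Fin 3 → E) → ℂ, ContDiff ℝ ∞ f ∧
    (∀ᶠ z in 𝓝 fun _ => x,
      f z = ll B τ u (z 1, z 2) - ll B τ u (z 0, z 2) + ll B τ u (z 0, z 1)) ∧
    ∀ (t : ℂ) v, frm (k := 2) f x (t • v) = t * conj t * frm (k := 2) f x v := by
  refine LB.typ ?_ h.cps (h.ev.mono fun y hy => hy.der)
  filter_upwards [continuousAt_fst.eventually h.ev, continuousAt_snd.eventually h.ev,
    (h.cq h).continuousAt.eventually_mem (isOpen_slitPlane.mem_nhds (by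
      rw [div_self (ip_self_ne h.ne)]; exact one_mem_slitPlane))] with p a b c
  exact a.cll b c

end Vale.Agent.P287Q.H3.LB
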