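import Vale.Agent.P287Q.H3.St
import Vale.Agent.P287Q.H3.LB0

/-!
# The first Chern class of a holomorphic line bundle has type `(1, 1)`
-/

namespace Vale.Agent.P287Q.H3

open Set Function Topology Filter Complex P291Z P291Z.Fl P269 P269.Ch P269.Orb Mf
open scoped Manifold ContDiff ComplexConjugate

namespace LB

variable {m : Type} [Fintype m]

/-- The multiplicative cocycle of three vectors. -/
noncomputable def kp (a b c : m → ℂ) : ℂ := ip a b * ip b c / (ip b b * ip a c)

theorem kp_smul {r s t : ℂ} (hr : r ≠ 0) (hs : s ≠ 0) (ht : t ≠ 0) (a b c : m → ℂ) :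
    kp (r • a) (s • b) (t • c) = kp a b c := by
  have := star_ne_zero.2 hr
  have := star_ne_zero.2 hs
  simp only [kp, smul_ip, ip_smul]
  field_simp

/-- **The first Chern class in terms of generating sections.** -/
theorem c1_eq (Y : Ch.Sp) (χ : Y.G →ₜ* ℂˣ) {F : Y.T → m → ℂ} (hc : Continuous F)
    (h0 : ∀ t, F t ≠ 0) (he : ∀ (g : Y.G) t, F (g • t) = (χ g : ℂ) • F t) :
    supp (δ (lg3 fun a b c => kp (F (Y.out a)) (F (Y.out b)) (F (Y.out c)))) = ∅ ∧
      hcls (lg3 fun a b c => kp (F (Y.out a)) (F (Y.out b)) (F (Y.out c))) = (c1 χ).1 := by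
  classical
  let L := char χ
  let u : L.V → Option m → ℂ := fun y o => o.elim y.1.2 (F y.1.1)
  have i0 : ∀ v : Option m → ℂ, ip (Pi.single none 1) v = v none := fun v => by
    simp [ip, Pi.star_single]
  have hu : Continuous u := continuous_pi fun o => by
    cases o
    · exact continuous_snd.comp continuous_subtype_val
    · exact (continuous_apply _).comp (hc.comp (continuous_fst.comp continuous_subtype_val))
  have hu0 : ∀ y, u y ≠ 0 := fun y h => h0 y.1.1 (funext fun i => congrFun h (some i))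
  have hug : ∀ (g : Y.G) y, u (g • y) = (χ g : ℂ) • u y := fun g y => funext fun o => by
    cases o
    · rfl
    · exact congrFun (he g _) _
  obtain ⟨k, hk⟩ := L.tot.isQuo.exists_lift (fun y : L.V => prj (u y)) fun g y =>
    (congrArg prj (hug g y)).trans (prj_smul (χ g).ne_zero _)
  have hkc : Continuous k := L.tot.isQuo.continuous_lift
    (continuous_iff_continuousAt.2 fun y => continuousAt_prj hu.continuousAt (hu0 y)) hk
  have hkP : ∀ x, k x ∈ Fl.PV ⊤ := fun x => by
    obtain ⟨y, rfl⟩ := L.tot.surj x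
    exact ⟨u y, trivial, hu0 y, hk y⟩
  have ht : IsThom L.Z L.ch (hyp (Pi.single none 1) k) := by
    refine L.isOVB.isThom_of (hyp_cocycle hkc hkP _) (fun x hx => ?_) (hyp_deg _ _) fun x => ?_
    · obtain ⟨y, rfl⟩ := L.tot.surj x
      have := supp_hyp hkc hkP _ hx
      rw [mem_ofPred_eq, hk, prj_mulVec_eq_zero (hu0 y), ip_eq_zero_comm, i0] at this
      exact VB.mk_mem_Z.2 this
    · obtain ⟨x, rfl⟩ := Y.surj x
      have c := VB.ch_mk (E := L) (t := x) (ℓ := (LinearMap.proj 0 : (Fin 1 → ℂ) →ₗ[ℂ] ℂ))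
        (fun a b h => funext fun i => by rw [Subsingleton.elim i 0]; exact h)
        (LinearMap.range_eq_top.2 fun z => ⟨fun _ => z, rfl⟩)
      refine ⟨_, c, Mor.map_π _ _, ?_⟩
      let v : (Fin 1 → ℂ) → Option m → ℂ := fun a o => o.elim (a 0) (F x)
      have h1 := hyp_cohom (u := v) (continuous_pi fun o => by
        cases o
        exacts [continuous_apply 0, continuous_const])
        (fun a => hu0 ⟨(x, a 0), trivial⟩) (Pi.single none 1)
      simp only [i0] at h1
      have h2 : {a : Fin 1 → ℂ | v a none = 0} = {0} := by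
        ext a
        exact ⟨fun h => funext fun i => by rw [Subsingleton.elim i 0]; exact h,
          fun h => by rw [show a = 0 from h]; rfl⟩
      rw [h2] at h1
      refine (congrArg P291Z.cls (pull_hyp _ _ _)).trans (Eq.trans (congrArg
        (fun g => P291Z.cls (hyp (Pi.single none 1) g)) (funext fun a => hk _))
        ((cls_eq_of_cohom isCompact_singleton h1).trans ?_))
      change _ = P291Z.cls (tau 1)
      simp [tau, v]
  have hz : ∀ x, k (L.zero.map x) = prj (u (L.zero.f (Y.out x))) := fun x => hk _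
  have hi : ∀ s t, ip (u (L.zero.f s)) (u (L.zero.f t)) = ip (F s) (F t) := fun s t => by
    rw [ip_sum', Fintype.sum_option]
    exact (congrArg (· + _) (mul_zero _)).trans (zero_add _)
  have e : xi (k ∘ L.zero.map) = lg3 fun a b c => kp (F (Y.out a)) (F (Y.out b)) (F (Y.out c)) := by
    refine congrArg lg3 (funext fun a => funext fun b => funext fun c => ?_)
    simp only [comp_apply, hz]
    exact (kap_prj (hu0 _) _ (hu0 _)).trans (by rw [hi, hi, hi, hi, kp])
  have hc' := hkc.comp L.zero.map.continuous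
  refine ⟨e ▸ xi_cocycle hc' fun _ => hkP _, ?_⟩
  refine Eq.trans ?_ (L.eu_eq ht L.isSec_zero.proj_map)
  rw [pull_hyp, ← e]
  exact (hcls_hyp hc' (fun _ => hkP _) _).symm

variable (Y : Ch.Sp) {X : Type} [TopologicalSpace X] (φ : C(X, Y.X))

/-- The fibre product. -/
def PT : Type := {p : X × Y.T // φ p.1 = Y.π p.2}

/-- The pull-back of a presentation. -/
noncomputable def pb [Nice X] : Ch.Sp :=
  letI : TopologicalSpace (PT Y φ) := inferInstanceAs (TopologicalSpace {p : X × Y.T // _})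
  letI : MulAction Y.G (PT Y φ) :=
    { smul := fun g p => ⟨(p.1.1, g • p.1.2), p.2.trans (Y.π_smul g _).symm⟩
      one_smul := fun p => Subtype.ext (Prod.ext rfl (one_smul _ _))
      mul_smul := fun g h p => Subtype.ext (Prod.ext rfl (mul_smul g h _)) }
  haveI : Nice (PT Y φ) := Nice.of_isLocallyClosed (S := {p : X × Y.T | φ p.1 = Y.π p.2})
    (isClosed_eq (φ.continuous.comp continuous_fst) (Y.cont.comp continuous_snd)).isLocallyClosed
  have c1 : Continuous fun p : PT Y φ => p.1.1 := continuous_fst.comp continuous_subtype_val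
  have c2 : Continuous fun p : PT Y φ => p.1.2 := continuous_snd.comp continuous_subtype_val
  haveI : ContinuousSMul Y.G (PT Y φ) := ⟨((c1.comp continuous_snd).prodMk
    (continuous_fst.smul (c2.comp continuous_snd))).subtype_mk _⟩
  { G := Y.G
    T := PT Y φ
    X := X
    prop := properSMul_of_map c2 fun _ _ => rfl
    free := fun _ => (Y.free _).of_map c2 fun _ _ => rfl
    π := fun p => p.1.1
    quo := ⟨fun x => ⟨⟨(x, Y.out (φ x)), (Y.π_out _).symm⟩, rfl⟩, c1, by
      refine isOpenMap_iff_nhds_le.2 fun p U hU => ?_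
      obtain ⟨W, hW, h0⟩ := (mem_nhds_subtype _ _ _).1 hU
      have h1 : ∀ {x}, (∃ q : PT Y φ, q.1 ∈ W ∧ q.1.1 = x) → x ∈ U := fun ⟨q, a, b⟩ => b ▸ h0 a
      obtain ⟨A, hA, B, hB, h2⟩ := mem_nhds_prod_iff.1 hW
      have h3 : Y.π '' B ∈ 𝓝 (φ p.1.1) := p.2 ▸ Y.quo.isOpenMap.image_mem_nhds hB
      filter_upwards [hA, φ.continuous.continuousAt.preimage_mem_nhds h3] with x a ⟨t, b, c⟩
      exact h1 ⟨⟨(x, t), c.symm⟩, h2 ⟨a, b⟩, rfl⟩⟩
    fib := fun p q => ⟨fun h => ((Y.fib p.1.2 q.1.2).1 (p.2.symm.trans (h ▸ q.2))).imp fun _ e =>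
      Subtype.ext (Prod.ext h e), fun ⟨_, e⟩ => e ▸ rfl⟩ }

/-- The projection of the pull-back. -/
noncomputable def pm [Nice X] : Mor (pb Y φ) Y :=
  ⟨MonoidHom.id _, fun p => p.1.2, continuous_id, continuous_snd.comp continuous_subtype_val,
    fun _ _ => rfl⟩

theorem pm_map [Nice X] : (pm Y φ).map = φ :=
  ContinuousMap.ext fun x => congrFun ((pm Y φ).map_eq (φ := φ) fun t => t.2).symm x

theorem c1_pb [Nice X] (χ : Y.G →ₜ* ℂˣ) {F : X → Y.T → m → ℂ}
    (hc : ∀ z t, φ z = Y.π t → ContinuousAt (fun p : X × Y.T => F p.1 p.2) (z, t))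
    (h0 : ∀ z t, φ z = Y.π t → F z t ≠ 0)
    (he : ∀ z t (g : Y.G), φ z = Y.π t → F z (g • t) = (χ g : ℂ) • F z t) {G : X → m → ℂ}
    (hG : ∀ z, G z = F z (Y.out (φ z))) : supp (δ (lg3 fun a b c => kp (G a) (G b) (G c))) = ∅ ∧
      hcls (lg3 fun a b c => kp (G a) (G b) (G c)) = H.map φ (c1 χ).1 := by
  have h := c1_eq (pb Y φ) ((pm Y φ).chr χ) (F := fun p => F p.1.1 p.1.2)
    (continuous_iff_continuousAt.2 fun p =>
      (hc _ _ p.2).comp (f := Subtype.val) continuous_subtype_val.continuousAt)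
    (fun p => h0 _ _ p.2) fun g p => he _ _ g p.2
  have o : ∀ z : X, ∃ c : ℂ, c ≠ 0 ∧
      F ((pb Y φ).out z).1.1 ((pb Y φ).out z).1.2 = c • G z := fun z => by
    have o1 : ((pb Y φ).out z).1.1 = z := (pb Y φ).π_out z
    obtain ⟨g, hg⟩ := (Y.fib (Y.out (φ z)) ((pb Y φ).out z).1.2).1
      ((Y.π_out _).trans ((congrArg φ o1.symm).trans ((pb Y φ).out z).2))
    exact ⟨χ g, (χ g).ne_zero, (congrArg₂ F o1 hg.symm).trans
      ((he _ _ g (Y.π_out _).symm).trans (congrArg _ (hG z).symm))⟩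
  choose c c0 c1 using o
  have e : (fun a b d : X => kp (F ((pb Y φ).out a).1.1 ((pb Y φ).out a).1.2)
      (F ((pb Y φ).out b).1.1 ((pb Y φ).out b).1.2)
      (F ((pb Y φ).out d).1.1 ((pb Y φ).out d).1.2)) = fun a b c => kp (G a) (G b) (G c) :=
    funext fun a => funext fun b => funext fun d =>
      (congr (congr (congrArg kp (c1 a)) (c1 b)) (c1 d)).trans (kp_smul (c0 a) (c0 b) (c0 d) _ _ _)
  exact ⟨e ▸ h.1, (congrArg (fun k => hcls (lg3 k)) e).symm.trans (h.2.trans
    ((congrArg Subtype.val (map_c1 (pm Y φ) χ).symm).trans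
      (congrArg (fun f => H.map f _) (pm_map Y φ))))⟩

variable {E : Type} [NormedAddCommGroup E] [NormedSpace ℂ E] [FiniteDimensional ℂ E]

theorem exists_bump [T2Space X] (e : OpenPartialHomeomorph X E) {x : X} (hx : x ∈ e.source)
    {U : Set X} (hU : U ∈ 𝓝 x) : ∃ (B : E → ℂ) (ρ : X → ℂ) (K : Set X), ContDiff ℝ ∞ B ∧
      (∀ z, conj (B z) = B z) ∧ IsClosed K ∧ K ⊆ e.source ∧ K ⊆ U ∧ (∀ z ∉ K, ρ z = 0) ∧
      (∀ z ∈ e.source, ρ z = B (e z)) ∧ ρ x ≠ 0 ∧ Continuous ρ := by
  classical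
  have := FiniteDimensional.proper ℂ E
  obtain ⟨r, hr, h1⟩ := Metric.nhds_basis_closedBall.mem_iff.1 (inter_mem
    (e.open_target.mem_nhds (e.map_source hx))
    ((e.continuousAt_symm (e.map_source hx)).preimage_mem_nhds (by rwa [e.left_inv hx])))
  let b : ContDiffBump (e x) := ⟨r / 2, r, by positivity, by linarith⟩
  have c1 : ContDiff ℝ ∞ fun z => (b z : ℂ) := ofRealCLM.contDiff.comp b.contDiff
  have k1 : IsClosed (e.symm '' Metric.closedBall (e x) r) :=
    ((isCompact_closedBall _ _).image_of_continuousOn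
      (e.continuousOn_symm.mono fun _ a => (h1 a).1)).isClosed
  have k2 : e.symm '' Metric.closedBall (e x) r ⊆ e.source := by
    rintro _ ⟨z, a, rfl⟩
    exact e.map_target (h1 a).1
  have k3 : ∀ z ∉ e.symm '' Metric.closedBall (e x) r,
      (if z ∈ e.source then (b (e z) : ℂ) else 0) = 0 := fun z a => by
    split_ifs with h
    · rw [b.zero_of_le_dist (le_of_lt (not_le.1 fun c => a ⟨_, c, e.left_inv h⟩)), ofReal_zero]
    · rfl
  refine ⟨fun z => b z, fun z => if z ∈ e.source then (b (e z) : ℂ) else 0, _, c1,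
    fun z => conj_ofReal _, k1, k2, ?_, k3, fun z a => if_pos a, ?_,
    continuous_iff_continuousAt.2 fun z => ?_⟩
  · rintro _ ⟨z, a, rfl⟩
    exact (h1 a).2
  · simp [hx, b.one_of_mem_closedBall (Metric.mem_closedBall_self b.rIn_pos.le)]
  · by_cases h : z ∈ e.source
    · exact (c1.continuous.continuousAt.comp (e.continuousAt h)).congr
        ((e.open_source.eventually_mem h).mono fun _ a => (if_pos a).symm)
    · exact continuousAt_const.congr ((k1.isOpen_compl.eventually_mem fun a => h (k2 a)).mono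
        fun w a => (k3 w a).symm)

/-- The local computation. -/
theorem hgAt {F : X → m → ℂ} {β : X → X → ℂ} {e : X → E} {x : X} (he : ContinuousAt e x)
    {B : m → E → ℂ} {τ : m → E → E} {u : m → E → ℂ} (h : Gd B τ u (e x))
    (hF : ∀ᶠ z in 𝓝 x, ∃ c : ℂ, c ≠ 0 ∧ F z = c • sf B τ u (e z))
    (hβ : ∀ᶠ p : X × X in 𝓝 (x, x), β p.1 p.2 = ll B τ u (e p.1, e p.2) - lg (ip (sf B τ u (e p.1))
      (sf B τ u (e p.2)) / ip (sf B τ u (e p.1)) (sf B τ u (e p.1)))) :
    HgAt 1 1 (lg3 (fun a b c => kp (F a) (F b) (F c)) + δ (fn2 β)) e x := by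
  obtain ⟨f, h1, h2, h3⟩ := h.typ
  refine ⟨f, h1, ?_, fun t v => by rw [pow_one, pow_one]; exact h3 t v⟩
  have t2 : ∀ i j, Tendsto (fun y : Fin 3 → X => (y i, y j)) (𝓝 fun _ => x) (𝓝 (x, x)) :=
    fun i j => ((continuous_apply i).prodMk (continuous_apply j)).tendsto _
  have t3 : ∀ i j, Tendsto (fun y : Fin 3 → X => ip (sf B τ u (e (y i))) (sf B τ u (e (y j))) /
      ip (sf B τ u (e (y i))) (sf B τ u (e (y i)))) (𝓝 fun _ => x) (𝓝 1) := fun i j =>
    by
    have := (h.cq h).continuousAt.tendsto.comp ((he.prodMap' he).tendsto.comp (t2 i j))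
    rwa [div_self (ip_self_ne h.ne)] at this
  filter_upwards [(tendsto_diag he).eventually h2, ev_diag (κ := Fin 3) hF,
    ev_diag (κ := Fin 3) (he.eventually h.ev), (t2 1 2).eventually hβ, (t2 0 2).eventually hβ,
    (t2 0 1).eventually hβ, lg_three (t3 0 1) (t3 1 2) (t3 0 2)] with y a1 a2 a3 b1 b2 b3 a4
  rw [a1, show List.ofFn y = [y 0, y 1, y 2] from rfl, Coch.add_val, Pi.add_apply, δ_val_three]
  change lg (kp _ _ _) + (β _ _ - β _ _ + β _ _) = _
  obtain ⟨c0, d0, e0⟩ := a2 0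
  obtain ⟨c1, d1, e1⟩ := a2 1
  obtain ⟨c2, d2, e2⟩ := a2 2
  have := ip_self_ne (a3 0).ne
  rw [e0, e1, e2, kp_smul d0 d1 d2, b1, b2, b3, kp, ← div_div_div_cancel_right₀ this,
    show ∀ a b c d n : ℂ, a * b / n / (c * d / n) = a / n * (b / c) / (d / n) from
      fun _ _ _ _ _ => by ring, a4]
  ring

end LB

open LB in
theorem stLB : StLB := by
  intro M Y φ χ I O u hO hc hu ha
  classical
  have := ChartedSpace.secondCountable_of_sigmaCompact (Fin M.n → ℂ) M.M
  have : Nice M.M := ⟨inferInstance, inferInstance, inferInstance⟩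
  choose j hj using hc
  choose B ρ K b1 b2 k1 k2 k3 r1 r2 r3 r4 using fun x : M.M => exists_bump
    (chartAt (Fin M.n → ℂ) x) (mem_chart_source _ x)
    (φ.continuous.continuousAt.preimage_mem_nhds ((hO _).mem_nhds (hj x)))
  obtain ⟨T, hT⟩ := isCompact_univ.elim_finite_subcover (fun x => {z | ρ x z ≠ 0})
    (fun x => isOpen_ne_fun (r4 x) continuous_const) fun z _ => mem_iUnion.2 ⟨z, r3 z⟩
  have hK : ∀ {x z}, ρ x z ≠ 0 → z ∈ K x := fun a => by_contra fun b => a (r1 _ _ b)
  let F : M.M → Y.T → T → ℂ := fun z t k => ρ k z * u (j k) t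
  have f0 : ∀ z t, φ z = Y.π t → F z t ≠ 0 := fun z t e h => by
    obtain ⟨x, hx, a⟩ := mem_iUnion₂.1 (hT (mem_univ z))
    exact mul_ne_zero a (hu _ t (e ▸ k3 x (hK a))).2.1 (congrFun h ⟨x, hx⟩)
  have f1 : ∀ z t (g : Y.G), φ z = Y.π t → F z (g • t) = (χ g : ℂ) • F z t := fun z t g e =>
    funext fun k => by
      by_cases a : ρ k z = 0
      · simp [F, a]
      · exact (congrArg _ ((hu _ t (e ▸ k3 k (hK a))).2.2 g)).trans (mul_left_comm _ _ _)
  let G : M.M → T → ℂ := fun z => F z (Y.out (φ z))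
  obtain ⟨c1, c2⟩ := c1_pb Y φ χ (F := F) (G := G) (fun z t e => continuousAt_pi.2 fun k => by
    by_cases a : z ∈ K k
    · exact ((r4 k).comp continuous_fst).continuousAt.mul
        ((hu _ _ (e ▸ k3 k a)).1.comp continuousAt_snd)
    · refine continuousAt_const.congr (f := fun _ => 0) (((continuousAt_fst (p := (z, t))).eventually
        ((k1 k).isOpen_compl.eventually_mem a)).mono fun q b => ?_)
      exact ((congrArg (· * _) (r1 _ _ b)).trans (zero_mul _)).symm) f0 f1 fun _ => rfl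
  let β : M.M → M.M → ℂ := fun y z => (∑ k : T, conj (G y k) * u (j k) (Y.out (φ y)) /
    ip (G y) (G y) * (-Complex.I * B k (chartAt (Fin M.n → ℂ) k.1 y + Complex.I •
      (chartAt (Fin M.n → ℂ) k.1 z - chartAt (Fin M.n → ℂ) k.1 y)))) / (2 * Real.pi * Complex.I)
  have c3 := cocycle_add c1 (cocycle_δ (fn2 β))
  refine ⟨⟨_, c3⟩, (isDeg_fn3 _).add (isDeg_fn2 _).δ, (hcls_of_mem c3).symm.trans (Eq.trans
    (hcls_eq_of_cohom (c := fn2 β) c1 (by rw [add_sub_cancel_left, sub_self, supp_zero])) c2),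
    fun x => ?_⟩
  set e := chartAt (Fin M.n → ℂ) x
  have o2 : ∀ z, φ z ∈ O (j x) → ∃ c : ℂ, c ≠ 0 ∧ ∀ i,
      u i (Y.out (φ z)) = c * (u i (Y.out (φ z)) / u (j x) (Y.out (φ z))) := fun z a => by
    have b := (hu (j x) (Y.out (φ z)) (by rwa [Y.π_out])).2.1
    exact ⟨_, b, fun i => (mul_div_cancel₀ _ b).symm⟩
  let B' : T → (Fin M.n → ℂ) → ℂ := fun k => if x ∈ K k then B k else 0
  let τ : T → (Fin M.n → ℂ) → Fin M.n → ℂ := fun k =>
    if x ∈ K k then fun w => chartAt (Fin M.n → ℂ) k.1 (e.symm w) else 0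
  let v : T → (Fin M.n → ℂ) → ℂ := fun k => if x ∈ K k then
    fun w => u (j k) (Y.out (φ (e.symm w))) / u (j x) (Y.out (φ (e.symm w))) else 0
  have ev : ∀ᶠ z in 𝓝 x, e.symm (e z) = z ∧ φ z ∈ O (j x) ∧ ∀ k : T, (x ∉ K k → ρ k z = 0) ∧
      (x ∈ K k → z ∈ (chartAt (Fin M.n → ℂ) k.1).source) := by
    refine (ev_chart x).and ((φ.continuous.continuousAt.eventually
      ((hO _).eventually_mem (hj x))).and (eventually_all.2 fun k => ?_))
    by_cases a : x ∈ K k
    · filter_upwards [(chartAt _ k.1).open_source.eventually_mem (k2 k a)] with z b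
      exact ⟨fun d => (d a).elim, fun _ => b⟩
    · filter_upwards [(k1 k).isOpen_compl.eventually_mem a] with z b
      exact ⟨fun _ => r1 _ _ b, fun d => (a d).elim⟩
  have hF : ∀ᶠ z in 𝓝 x, ∃ c : ℂ, c ≠ 0 ∧ G z = c • sf B' τ v (e z) ∧
      ∀ k : T, x ∈ K k → u (j k) (Y.out (φ z)) = c * v k (e z) := ev.mono fun z a => by
    obtain ⟨c, h1, h2⟩ := o2 z a.2.1
    refine ⟨c, h1, funext fun k => ?_, fun k b => ?_⟩
    · by_cases b : x ∈ K k
      · simp only [G, F, sf, B', τ, v, if_pos b, a.1, Pi.smul_apply, smul_eq_mul,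
          r2 _ _ ((a.2.2 k).2 b)]
        rw [mul_left_comm, ← h2]
      · simp [G, F, sf, B', if_neg b, (a.2.2 k).1 b]
    · simp only [v, if_pos b, a.1, ← h2]
  refine hgAt (F := G) (cont_chart x) (B := B') (τ := τ) (u := v) ⟨fun k => ?_, fun k w => ?_,
    fun k => ?_, fun k => ?_, fun h => ?_⟩ (hF.mono fun z a => a.imp fun c b => ⟨b.1, b.2.1⟩) ?_
  · simp only [B']
    split_ifs
    exacts [b1 k, contDiff_const]
  · simp only [B']
    split_ifs
    exacts [b2 k w, map_zero _]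
  · simp only [τ]
    split_ifs with a
    exacts [an_trans (chart_mem_atlas _ x) (chart_mem_atlas _ k.1) (mem_chart_source _ x) (k2 k a),
      analyticAt_const]
  · simp only [v]
    split_ifs with a
    exacts [ha _ _ x (k3 k a) (hj x), analyticAt_const]
  · obtain ⟨c, -, a, -⟩ := hF.self_of_nhds
    exact f0 _ _ (Y.π_out _).symm (a.trans (by rw [h, smul_zero]))
  filter_upwards [continuousAt_fst.eventually hF, continuousAt_fst.eventually ev,
    continuousAt_snd.eventually ev] with p ⟨c, h1, h2, h3⟩ a1 a2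
  rw [ll, add_sub_cancel_left]
  refine congrArg (· / _) (Finset.sum_congr rfl fun k _ => ?_)
  have := star_ne_zero.2 h1
  rw [h2, smul_ip, ip_smul]
  by_cases b : x ∈ K k
  · rw [h3 k b, Pi.smul_apply, smul_eq_mul, map_mul, sf, map_mul]
    simp only [B', τ, if_pos b, a1.1, a2.1, b2, star_def] at this ⊢
    field_simp
  · simp [sf, B', if_neg b]

end Vale.Agent.P287Q.H3
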