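import Vale.Agent.P287Q.H3.Alg
import Vale.Agent.P287Q.H3.A3
import Vale.Agent.P287Q.Mf.Api
import Vale.Agent.P287Q.Mf.Quo
import Vale.Agent.P269.Map.SQ

set_option linter.all false

/-!
# Types on manifolds are types; Euler classes of holomorphic subquotients are good
-/

namespace Vale.Agent.P287Q.H3

open Set Function Topology Filter P291Z P269 P269.Ch P269.Holo P269.Mono P269.Orb Module

section lift

variable {A A' : Type} [NormedAddCommGroup A] [NormedSpace ℂ A] [NormedAddCommGroup A']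
  [NormedSpace ℂ A'] {T X T' X' : Type} [TopologicalSpace T] [TopologicalSpace X]
  [TopologicalSpace T'] [TopologicalSpace X'] {ι : T → A} {π : T → X} {ι' : T' → A'}
  {π' : T' → X'} {p q : ℕ}

/-- Types are preserved by maps with a holomorphic lift. -/
theorem Ty.lift {c : H X'} (hc : Ty ι' π' p q c) (g : C(X, X')) {u : T → T'} (hu : Continuous u)
    (hh : ∀ t, HolAt ι (fun s => ι' (u s)) t) (e : ∀ t, g (π t) = π' (u t)) :
    Ty ι π p q (H.map g c) := by
  refine ⟨hc.1.map _, fun M φ hφ => ?_⟩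
  rw [H.map_map]
  refine hc.2 M (g.comp φ) fun y f hf => hφ y (fun x => f (g x)) fun t ht => ?_
  simp only [e]
  exact (hf (u t) ((e t).symm.trans (congrArg g ht))).comp hu.continuousAt (hh t)

/-- On a manifold the two notions of type agree. -/
theorem ty_of_pres [FiniteDimensional ℂ A] {S : Set A} {π : S → X} {n : ℕ}
    [ChartedSpace (Fin n → ℂ) X] (h : Mf.Pres n π) {c : H X} (hc : c ∈ Hb.HN S π p q) :
    Ty (Subtype.val : S → A) π p q c := by
  refine ⟨Mf.IsHd.isDeg hc, fun M φ hφ => (h.mem_HN.1 hc).map ⟨φ.continuous, fun y => ?_⟩⟩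
  refine AnalyticAt.pi fun i => hφ y (fun x => chartAt (Fin n → ℂ) (φ y) x i) fun t ht => ?_
  obtain ⟨r, h1, h2⟩ := h.prj t
  rw [← ht]
  exact ⟨fun z => r z i, analyticAt_pi_iff.1 h1 i, h2.mono fun s hs => (congrFun hs i).symm⟩

end lift

section quo

variable {A W : Type} [NormedRing A] [NormedAlgebra ℂ A] [NormedAddCommGroup W] [NormedSpace ℂ W]
  [FiniteDimensional ℂ A] [FiniteDimensional ℂ W] {act : A → W → W} {S : Set W}

/-- Classes of type `(p, q)` on the orbit space of a free action. -/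
theorem ty_of_dim [IsAct act univ] [FP act S] {n p q : ℕ} (h : Tq.Dim act S n)
    {c : H (Quo act S)} (hc : c ∈ Hb.QT act S p q) :
    Ty (Subtype.val : S → W) (Quo.mk act) p q c := by
  letI := Mf.cs h
  exact ty_of_pres (Mf.pres h) (Hb.HT_nat S (Quo.mk act) p q ▸ hc)

theorem ty_of_qt [IsAct act univ] {n : ℤ} (h : Tq.QM act S n) {p q : ℕ}
    {c : H (Quo act S)} (hc : c ∈ Hb.QT act S p q) :
    Ty (Subtype.val : S → W) (Quo.mk act) p q c :=
  haveI := h.fp
  ty_of_dim h.dim hc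

variable {P : Type} [NormedAddCommGroup P] [NormedSpace ℂ P] [FiniteDimensional ℂ P]

/-- The family of subspaces `B` is spanned by `r` holomorphic sections near every point of `S`. -/
def Spn (S : Set W) (B : W → Submodule ℂ P) (r : ℕ) : Prop :=
  ∀ x ∈ S, ∃ (k : Type) (_ : Fintype k) (b : W → k → P), Fintype.card k = r ∧ AnalyticAt ℂ b x ∧
    ∀ᶠ y in 𝓝 x, y ∈ S → B y = Submodule.span ℂ (range (b y))

variable [IsAct act S] (ho : Orb Aˣ (Holo.Sp act S))

theorem Spn.hv {ρ : A → P → P} {P₀ : Submodule ℂ P} {B : W → Submodule ℂ P} {r : ℕ}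
    (hb : Spn S B r) (h : IsFam act ρ S P₀ B r) (hρ : ∀ w ∈ P₀, AnalyticAt ℂ (fun a => ρ a w) 1)
    (E : VB (spA ho)) {j : E.W →ₗ[ℂ] P} (hj : IsEmbedding j) (hr : LinearMap.range j = P₀)
    (he : ∀ (g : (spA ho).G) w, j (g • w) = ρ ((presA ho).u g) (j w)) :
    HV (h.vb (presA ho) E hj hr he) (Holo.Sp.val (act := act)) := by
  obtain ⟨κ, hκ⟩ := j.exists_leftInverse_of_injective (LinearMap.ker_eq_bot.2 hj.injective)
  have h1 : ∀ w, κ (j w) = w := LinearMap.congr_fun hκ
  let κ' : P →L[ℂ] E.W := LinearMap.toContinuousLinearMap κ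
  refine hv_of_frame ho _ (fun w : E.W => ⟨fun a => κ' (ρ a (j w)), (κ'.analyticAt _).comp
    (hρ _ (hr.le ⟨w, rfl⟩)), fun g => (h1 _).symm.trans (congrArg κ (he g w))⟩) fun t => ?_
  obtain ⟨k, _, b, h2, h3, h4⟩ := hb _ t.val_mem
  let e : Fin r ≃ k := (Fintype.equivFinOfCardEq h2).symm
  let L : (k → P) →L[ℂ] (Fin r → ℂ) →L[ℂ] E.W := LinearMap.toContinuousLinearMap
    { toFun := fun v => ∑ i, (ContinuousLinearMap.proj i).smulRight (κ (v (e i)))
      map_add' := fun v v' => by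
        ext1 a; simp [Finset.sum_add_distrib]
      map_smul' := fun z v => by
        ext1 a; simp [Finset.smul_sum, smul_comm z] }
  have h5 : ∀ v a, L v a = κ (∑ i, a i • v (e i)) := fun v a => by simp [L]
  refine ⟨fun s => L (b (Holo.Sp.val (act := act) s)), HolAt.of_an ((L.analyticAt _).comp h3), ?_⟩
  filter_upwards [Holo.Sp.continuous_val.continuousAt.eventually h4] with s hs w
  have h6 := hs (Holo.Sp.val_mem (act := act) s)
  have h7 : range (b (Holo.Sp.val (act := act) s)) =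
      range fun i => b (Holo.Sp.val (act := act) s) (e i) := (e.surjective.range_comp _).symm
  change j w ∈ B (Holo.Sp.val (act := act) s) ↔ _
  rw [h6, h7, Submodule.mem_span_range_iff_exists_fun]
  refine exists_congr fun a => ?_
  rw [h5]
  refine ⟨fun c => by rw [c, h1], fun c => ?_⟩
  have h8 : ∑ i, a i • b (Holo.Sp.val (act := act) s) (e i) ∈ LinearMap.range j := by
    rw [hr]
    refine h.le _ (Holo.Sp.val_mem (act := act) s) (h6.ge ?_)
    rw [h7]
    exact (Submodule.mem_span_range_iff_exists_fun ℂ).2 ⟨a, rfl⟩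
  obtain ⟨v, hv⟩ := h8
  rw [← hv, h1] at c
  rw [← hv, c]

/-- **The Euler class of a holomorphic bundle of subquotients is good.** -/
theorem good_sd (hC : StChern) (hS : ∀ x ∈ S, An S x) {E : SD A W P} {r r' : ℕ}
    (h : E.Ok act S r r') (hρ : ∀ w ∈ E.P₀, AnalyticAt ℂ (fun a => E.ρ a w) 1)
    (hB : Spn S E.B r) (hN : Spn S E.N r') : ∃ η : Hev (spA ho).X,
      Good (spA ho) (Holo.Sp.val (act := act)) (r - r') η ∧ hcls (E.eu act S) = η.1 := by
  haveI := h.fin
  obtain ⟨E₀, j, h1, h2, -, h3⟩ :=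
    exists_rep (Y := spA ho) h.rep (MonoidHom.id _) continuous_id
  obtain ⟨E', M, h4, h5, h6⟩ :=
    exists_isMod_of_rep (presA ho) h.famB h.famN h.le E₀ h1 h2 h3
  have hY := isAS_spA ho hS
  have a := hC _ _ _ hY _ (hB.hv ho h.famB hρ E₀ h1 h2 h3)
  have b := hC _ _ _ hY _ (hN.hv ho h.famN hρ E₀ h1 h2 h3)
  refine ⟨E'.eu, ?_, h5.hcls_eulerC.trans (H.map_id (fun _ => rfl) _)⟩
  rw [← h4, ← E'.chern_coeff_zero]
  rcases isEmpty_or_nonempty (spA ho).T with e | ⟨⟨t⟩⟩
  · rw [show E'.chern.coeff 0 = 0 from Subtype.ext (Subsingleton.elim _ _)]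
    exact Good.zero
  · rw [h6.chern, h6.rank t] at a
    exact (stDiv _ _ _ hY _ _ _ _ a b E'.chern_mon fun j k e => by
      have := E'.chern_deg j
      rwa [← e, Nat.cast_add, add_sub_cancel_left] at this).2 0 _ (zero_add _)

end quo

end Vale.Agent.P287Q.H3
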