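import Vale.Agent.P287Q.H3.A1
import Vale.Agent.P287Q.H3.A3
import Vale.Agent.P269.Vir.Gen2
import Vale.Agent.P269.Holo.Bundle

set_option linter.all false

/-!
# Holomorphic Kuranishi data
-/

namespace Vale.Agent.P287Q.H3

open Set Function Topology Filter P291Z P269 P269.Ch P269.Holo P269.Mono P269.Orb Module

section zs

variable {B : Type} [NormedAddCommGroup B] [NormedSpace ℂ B] {Y : Ch.Sp} {ι : Y.T → B}

theorem Kd.inj {E : VB Y} {ψ : Y.T → (Fin E.r → ℂ) →L[ℂ] E.W} {t : Y.T} (h : Frm E ι ψ t) :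
    Injective (ψ t) := by
  have e : LinearMap.range (ψ t : (Fin E.r → ℂ) →ₗ[ℂ] E.W) = E.F t :=
    Submodule.ext fun w => (h.rng.self_of_nhds w).symm
  have := (ψ t : (Fin E.r → ℂ) →ₗ[ℂ] E.W).finrank_range_add_finrank_ker
  rw [e, E.rank, Module.finrank_fin_fun, add_eq_left, Submodule.finrank_eq_zero] at this
  exact LinearMap.ker_eq_bot.1 this

theorem Kd.an_mem (hY : IsAS Y ι) {E : VB Y} (hE : HV E ι) {s : Y.T → E.W} {t : Y.T}
    (hs : HolAt ι s t) : An (ι '' {x | s x ∈ E.F x}) (ι t) := by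
  obtain ⟨ψ, h⟩ := hE t
  obtain ⟨p, h1, h2⟩ := IsFrame.exists_leftInv (V := {z : Y.T × E.W | z.2 ∈ E.F z.1})
    ⟨h.hol, Kd.inj h, h.rng⟩ hY.cont.continuousAt
  refine hY.an_zero' (hs.sub (h.hol.apply (h1.apply hs))) ?_
  filter_upwards [h.rng, h2] with x a b
  refine (a _).trans ⟨?_, fun c => ⟨_, (sub_eq_zero.1 c).symm⟩⟩
  rintro ⟨y, c⟩
  rw [← c, b, sub_self]

end zs

variable {A W P : Type} [NormedRing A] [NormedAlgebra ℂ A] [NormedAddCommGroup W] [NormedSpace ℂ W]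
  [FiniteDimensional ℂ A] [FiniteDimensional ℂ W] [AddCommGroup P] [Module ℂ P]
  [TopologicalSpace P] {act : A → W → W} {Z S O : Set W} {D : KD A W P} (h : D.Dom act Z S O)
  {k : KP h.sp} {i : k.P.W →ₗ[ℂ] P} (hk : h.IsKP k i) (hO : ∀ x ∈ O, An O x)

include hO in
theorem Kd.isAS : IsAS h.sp h.pres.i := haveI := h.isAct; isAS_spA h.orb hO

include hk hO in
/-- the zero set is analytic -/
theorem Kd.an_Z (h2 : HV k.vanB h.pres.i) (h3 : ∀ t, HolAt h.pres.i k.s t) : ∀ x ∈ Z, An Z x := by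
  intro x hx
  obtain ⟨t, rfl⟩ := h.pres.surj x (h.sub hx)
  have e : h.pres.i '' {x | k.s x ∈ k.vanB.F x} = Z := Set.ext fun y =>
    ⟨by rintro ⟨s, a, rfl⟩; exact (h.mem_Zs hk).1 a, fun a =>
      let ⟨s, b⟩ := h.pres.surj y (h.sub a)
      ⟨s, (h.mem_Zs hk).2 (by rwa [b]), b⟩⟩
  have := Kd.an_mem (Kd.isAS h hO) h2 (h3 t)
  rwa [e] at this

variable [Holo.IsAct act Z] (ho : Orb Aˣ (Holo.Sp act Z))

/-- the zero set in its two forms -/
noncomputable def Kd.mor : Mor (h.sp.sub k.ZS k.isClosed_Zs.isLocallyClosed) (spA ho) :=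
  ⟨MonoidHom.id _, fun t : k.ZS => Holo.Sp.of act (h.pres.i t) ((h.mem_Zs hk).1 t.2), continuous_id,
    (h.pres.emb.continuous.comp continuous_subtype_val).subtype_mk _, fun _ _ => rfl⟩

theorem Kd.incl_mor : Quo.incl act h.sub ∘ (Kd.mor h hk ho).map =
    (h.sp.subI k.ZS k.isClosed_Zs.isLocallyClosed).map := funext fun x => by
  obtain ⟨t, rfl⟩ := Ch.Sp.surj _ x
  have a := congrArg (Quo.incl act h.sub) ((Kd.mor h hk ho).map_π t)
  have b := ((h.sp.subI k.ZS k.isClosed_Zs.isLocallyClosed).map_π t).symm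
  exact a.trans b

theorem Kd.homeo : IsHomeomorph (Kd.mor h hk ho).map := by
  have a := (h.isZ hk).emb.isEmbedding
  have b := k.isZ_subI.emb.isEmbedding
  rw [← Kd.incl_mor h hk ho] at b
  refine isHomeomorph_iff_isEmbedding_surjective.2 ⟨a.of_comp_iff.1 b, fun x => ?_⟩
  obtain ⟨t, rfl⟩ := Ch.Sp.surj _ x
  obtain ⟨s, e⟩ := h.pres.surj _ (h.sub (Holo.Sp.val_mem (act := act) t))
  have c : s ∈ k.ZS := (h.mem_Zs hk).2 (e ▸ Holo.Sp.val_mem (act := act) t)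
  exact ⟨Ch.Sp.π _ (⟨s, c⟩ : k.ZS), (Mor.map_π _ _).trans (congrArg _ (Subtype.ext e))⟩

include hk hO in
/-- **virtual classes of holomorphic Kuranishi data** -/
theorem Kd.zero (hC : StCone) [CompactSpace (Quo act Z)] {d : ℕ}
    (hd : ∀ x ∈ O, ∃ U ∈ 𝓝 x, Small (2 * (d + finrank ℂ A)) (U ∩ O)) (h1 : HV k.P h.pres.i)
    (h2 : HV k.vanB h.pres.i) (h3 : ∀ t, HolAt h.pres.i k.s t)
    (h4 : HV (k.obsB (h.sp.subI k.ZS k.isClosed_Zs.isLocallyClosed) fun t => t.2)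
      fun s : k.ZS => h.pres.i s) {β : BM (Quo act O)} (hβ : BM.IsDeg (2 * d) β) {p q : ℕ}
    {η : H (Quo act Z)} (hη : Wk (spA ho) (Holo.Sp.val (act := act)) p q η) (e : p ≠ q) :
    Loc.intg (k.vir (Quo.incl act h.sub) β) η = 0 := by
  have a := Kd.homeo h hk ho
  haveI : CompactSpace (spA ho).X := ‹_›
  haveI : Nice (Quo act Z) := h.niceZ hk
  haveI := a.homeomorph.symm.compactSpace
  have b : HM (Kd.mor h hk ho) (fun s : k.ZS => h.pres.i s) (Holo.Sp.val (act := act)) :=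
    fun _ => HolAt.self
  have c := hC h.sp W h.pres.i (Kd.isAS h hO) d k k.ZS _ (fun t => t.2) β p q _
    (haveI := h.isAct; dim_spA h.orb hd) h1 h2 h3 k.isZ_subI h4 hβ (hη.pull b) e
  have f := ((h.isZ hk).res_homeo a β).trans (congrArg (k.vir · β) (Kd.incl_mor h hk ho))
  refine .trans ?_ (((Loc.intg_push (Kd.mor h hk ho).map _ η).trans (congrArg (Loc.intg · _) f)).trans c)
  exact congrArg (Loc.intg · η) (push_res_homeo a _).symm

end Vale.Agent.P287Q.H3
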