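import Vale.Agent.P287Q.G.G3.Mod
import Vale.Agent.P287Q.H3.A2
import Vale.Agent.P287Q.H3.A3

/-!
# The bundles of a Kuranishi chart are holomorphic
-/

set_option linter.unusedSectionVars false

namespace Vale.Agent.P287Q.H3.Obs

open Set Function Topology Filter Module P269 P269.Ch P269.Holo P269.Ch.AnM P269.Vir P269.Base

section abs

variable {T A W : Type} [TopologicalSpace T] [NormedAddCommGroup A] [NormedSpace ℂ A]
  [NormedAddCommGroup W] [NormedSpace ℂ W] [FiniteDimensional ℂ W] {π : T → A} {t : T}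

/-- A family of subspaces of constant rank with enough holomorphic annihilators. -/
theorem holSub_of_sep {N : T → Submodule ℂ W} {r : ℕ} (hπ : ContinuousAt π t)
    (hr : ∀ᶠ s in 𝓝 t, finrank ℂ (N s) = r)
    (h : ∀ w ∉ N t, ∃ l : T → W →L[ℂ] ℂ, HolAt π l t ∧ l t w ≠ 0 ∧
      ∀ᶠ s in 𝓝 t, ∀ v ∈ N s, l s v = 0) : HolSub π {p : T × W | p.2 ∈ N p.1} r t := by
  obtain ⟨c, hc⟩ := Nat.exists_eq_add_of_le (N t).finrank_le
  obtain ⟨a, ha⟩ := exists_fin (fun l : {l : T → W →L[ℂ] ℂ // HolAt π l t ∧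
      ∀ᶠ s in 𝓝 t, ∀ v ∈ N s, l s v = 0} => (l.1 t).toLinearMap) c ⊤ (N t) le_top
    (fun f hf l => l.2.2.self_of_nhds f hf) (fun f _ k => by_contra fun hn =>
      let ⟨l, a, b, d⟩ := h f hn
      b (k ⟨l, a, d⟩)) (by rw [finrank_top, hc])
  let m : T → W →L[ℂ] Fin c → ℂ := fun s => .pi fun k => (a k).1 s
  have h1 : HolAt π m t := HolAt.of_apply fun v => HolAt.pi fun k =>
    (a k).2.1.apply (HolAt.const v)
  have h2 : ∀ᶠ s in 𝓝 t, N s ≤ LinearMap.ker (m s).toLinearMap :=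
    (eventually_all.2 fun k => (a k).2.2).mono fun s b v hv => funext fun k => b k v hv
  have h3 : ∀ s, finrank ℂ (LinearMap.range (m s).toLinearMap) +
      finrank ℂ (LinearMap.ker (m s).toLinearMap) = r + c := fun s => by
    rw [LinearMap.finrank_range_add_finrank_ker, hc, hr.self_of_nhds]
  have h4 : Surjective (m t) := by
    have b := h3 t
    rw [← le_antisymm h2.self_of_nhds fun v hv => ha v trivial (congrFun hv), hr.self_of_nhds] at b
    exact LinearMap.range_eq_top.1 (Submodule.eq_top_of_finrank_eq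
      (by rw [finrank_fin_fun]; omega))
  refine HolSub.of_ker hπ h1 h4 ?_ (by rw [finrank_fin_fun, hc, hr.self_of_nhds])
  filter_upwards [h2, hr, eventually_surjective (h1.cont hπ) h4] with s b1 b2 b3 w
  have b := h3 s
  rw [LinearMap.range_eq_top.2 b3, finrank_top, finrank_fin_fun] at b
  exact SetLike.ext_iff.1 (Submodule.eq_of_le_of_finrank_le b1 (by omega)) w

variable {B Φ X : Type} [AddCommGroup B] [Module ℂ B] [FiniteDimensional ℂ B] [AddCommGroup Φ]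
  [Module ℂ Φ] {ev : X → Φ →ₗ[ℂ] ℂ}

theorem exists_pr (hev : ∀ κ, (∀ x, ev x κ = 0) → κ = 0) (U : Submodule ℂ Φ)
    [FiniteDimensional ℂ U] : ∃ (c : ℕ) (x : Fin c → X), ∀ u ∈ U, (∀ k, ev (x k) u = 0) → u = 0 :=
  ⟨_, exists_fin ev (finrank ℂ U) U ⊥ bot_le (fun f hf i => by
    rw [(Submodule.mem_bot ℂ).1 hf, map_zero]) (fun f _ => hev f) (by simp)⟩

/-- Membership in the image of a holomorphic family of constant rank is a holomorphic condition. -/
theorem exists_sep (hπ : ContinuousAt π t) (hev : ∀ κ, (∀ x, ev x κ = 0) → κ = 0)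
    {a : T → B →ₗ[ℂ] Φ} {b : T → W →ₗ[ℂ] Φ} (ha : ∀ x v, HolAt π (fun s => ev x (a s v)) t)
    (hb : ∀ x v, HolAt π (fun s => ev x (b s v)) t)
    (hr : ∀ᶠ s in 𝓝 t, finrank ℂ (LinearMap.range (a s)) ≤ finrank ℂ (LinearMap.range (a t)))
    {w : W} (hw : b t w ∉ LinearMap.range (a t)) : ∃ l : T → W →L[ℂ] ℂ, HolAt π l t ∧ l t w ≠ 0 ∧
      ∀ᶠ s in 𝓝 t, ∀ v, b s v ∈ LinearMap.range (a s) → l s v = 0 := by
  obtain ⟨c, x, hx⟩ := exists_pr hev (LinearMap.range (a t) ⊔ ℂ ∙ b t w)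
  let p : Φ →ₗ[ℂ] Fin c → ℂ := .pi fun k => ev (x k)
  let e := (finBasis ℂ B).equivFun.symm
  let a' : T → (Fin (finrank ℂ B) → ℂ) →L[ℂ] Fin c → ℂ := fun s =>
    (p ∘ₗ a s ∘ₗ e.toLinearMap).toContinuousLinearMap
  have h1 : ∀ s, LinearMap.range (a' s).toLinearMap = (LinearMap.range (a s)).map p := fun s =>
    (LinearMap.range_comp _ _).trans (congrArg _ (LinearMap.range_comp_of_range_eq_top _ e.range))
  obtain ⟨f, hf⟩ := HolSub.of_range_dim (V := {q | q.2 ∈ range (a' q.1)}) (m := a') hπ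
    (HolAt.of_apply fun v => HolAt.pi fun k => ha _ _) (.of_forall fun _ _ => Iff.rfl) rfl
    (hr.mono fun s hs => by
      rw [h1, h1, finrank_map_of_inj (S := LinearMap.range (a t)) fun u hu k =>
        hx u (Submodule.mem_sup_left hu) (congrFun k)]
      exact (Submodule.finrank_map_le _ _).trans hs)
  obtain ⟨d, hd⟩ := Nat.exists_eq_add_of_le
    (LinearMap.finrank_le_finrank_of_injective (f := (f t).toLinearMap) hf.inj)
  obtain ⟨_, m, h2, h3⟩ := hf.exists_ker hπ hd.symm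
  have h4 : ∀ᶠ s in 𝓝 t, ∀ y, y ∈ (LinearMap.range (a s)).map p ↔ m s y = 0 :=
    h3.mono fun s k y => h1 s ▸ k.2.2 y
  obtain ⟨k, hk⟩ := Function.ne_iff.1 (mt (h4.self_of_nhds (p (b t w))).2 (by
    rintro ⟨u, hu, e⟩
    refine hw ((sub_eq_zero.1 (hx _ (sub_mem (Submodule.mem_sup_left hu) (Submodule.mem_sup_right
      (Submodule.mem_span_singleton_self _))) (congrFun (show p _ = 0 from ?_)))) ▸ hu)
    rw [map_sub, e, sub_self]))
  refine ⟨fun s => .proj k ∘L m s ∘L (p ∘ₗ b s).toContinuousLinearMap, (HolAt.const _).clm_comp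
    (h2.clm_comp (HolAt.of_apply fun v => HolAt.pi fun k => hb _ _)), hk,
    h4.mono fun s j v hv => congrFun ((j _).1 ⟨_, hv, rfl⟩) k⟩

/-- A map is holomorphic when separating linear forms are holomorphic on it. -/
theorem holAt_of_sep (hev : ∀ κ, (∀ x, ev x κ = 0) → κ = 0) {i : W →ₗ[ℂ] Φ} (hi : Injective i)
    {s : T → W} (h : ∀ x, HolAt π (fun y => ev x (i (s y))) t) : HolAt π s t := by
  obtain ⟨c, x, hx⟩ := exists_pr hev (LinearMap.range i)
  obtain ⟨L, hL⟩ := ((LinearMap.pi fun k => ev (x k)) ∘ₗ i).exists_leftInverse_of_injective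
    (LinearMap.ker_eq_bot'.2 fun w k => hi ((hx _ ⟨w, rfl⟩ (congrFun k)).trans i.map_zero.symm))
  exact ((HolAt.pi fun k => h (x k)).clm L.toContinuousLinearMap).congr
    (.of_forall fun y => LinearMap.congr_fun hL (s y))

end abs

variable {S Λ R J K ι ν κ : Type} [Fintype S] [Fintype Λ] [Fintype R] [Fintype J] [Fintype K]
  [Fintype ι] [DecidableEq ι] [Fintype ν] [Fintype κ] {ch : Ch ι J} {F : Fam S Λ R J K}
  {e : K → ι → ℕ} {K₀ : RD R} {ℓ : R → ι → ℤ}

/-- evaluation at a test -/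
def evF (t : Ts K ch) : Fib ch.Th K ch.Zt →ₗ[ℂ] ℂ where
  toFun f := t.elim (fun t => f.1 t.1 t.2) fun t => f.2 t.1 t.2
  map_add' _ _ := by cases t <;> rfl
  map_smul' _ _ := by cases t <;> rfl

theorem evF_sep (f : Fib ch.Th K ch.Zt) (h : ∀ t, evF t f = 0) : f = 0 :=
  Prod.ext (funext₂ fun j m => h (.inl ⟨j, m⟩)) (funext₂ fun k ζ => h (.inr (k, ζ)))

theorem evF_evZ (t : Ts K ch) (z : ch.Pt) (f : ch.P K) : evF t (evZ z f) = ev1 z t f := by
  cases t <;> rfl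

theorem ev1_sep (f : ch.P K) (h : ∀ p : ch.Pt × Ts K ch, ev1 p.1 p.2 f = 0) : f = 0 :=
  Prod.ext (funext₃ fun j z m => h (z, .inl ⟨j, m⟩)) (funext₃ fun k z ζ => h (z, .inr (k, ζ)))

theorem an_dEq {P : Type} [NormedAddCommGroup P] [NormedSpace ℂ P] {z : P → ch.Pt} {p : P}
    (hz : AnalyticAt ℂ z p) {x : P → ch.WF ν κ Λ} (hx : AnalyticAt ℂ x p)
    (Y : ∀ j, ch.Th j →ₗ[ℂ] ℂ) (t : Ts K ch) :
    AnalyticAt ℂ (fun q => evF t ((pd F e (x q) (z q)).dEq pwT Y)) p := by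
  have k := fun j μ => an_u hz (some j)
    (Holo.an_apply (W.an_X (analyticAt_snd.comp hx) j) (analyticAt_const (v := μ)))
  rcases t with ⟨j, m⟩ | ⟨k', ζ⟩
  · exact ((an_c hz _).mul analyticAt_const).sub ((an_c hz _).mul analyticAt_const)
  · refine Finset.analyticAt_fun_sum _ fun j _ => AnalyticAt.mul ?_ analyticAt_const
    simp only [pd, hp, map_sum, MvPolynomial.pderiv_monomial, MvPolynomial.eval_monomial,
      Finsupp.prod_fintype _ _ fun _ => pow_zero _]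
    exact Finset.analyticAt_fun_sum _ fun α _ => ((((AnalyticOnNhd.eval_mvPolynomial _ _
      trivial).comp (analyticAt_fst.comp hx)).mul (Finset.analyticAt_fun_prod _ fun i _ =>
        (((ζ i).analyticAt _).comp (analyticAt_pi_iff.1 (analyticAt_fst.comp hz) i)).pow _)).mul
      analyticAt_const).mul (Finset.analyticAt_fun_prod _ fun j _ => (k j _).pow _)

/-- the smooth points are dense -/
theorem mem_closure_sm {x : ch.W ν} (hx : x ∈ ch.base ν) {z : ch.Pt} (hz : z ∈ gr x) :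
    z ∈ closure {y | y ∈ gr x ∧ ¬IsNode ch.o (crv x) y.1} := by
  obtain ⟨U, a, b⟩ := exists_an_ev hx.1 z.1
  obtain ⟨n, c, hc⟩ := hx.2.2.1.nod.exists_nodes
  have t : ContinuousAt (fun y : V ch.M => (x, y)) z.1 := continuousAt_const.prodMk continuousAt_id
  have d : ContinuousAt (fun y => ((y, U (x, y)) : ch.Pt)) z.1 :=
    continuousAt_id.prodMk (a.continuousAt.comp t)
  rw [show z = (z.1, U (x, z.1)) from Prod.ext rfl (b.self_of_nhds _ hz)]
  refine mem_closure_of_frequently_of_tendsto ((((hx.2.2.1.nod.frequently_not_orb c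
    ⟨z, hz, rfl⟩).and_eventually self_mem_nhdsWithin).and_eventually
      (mem_nhdsWithin_of_mem_nhds (t.eventually b))).mono fun y k => ?_)
    (d.mono_left nhdsWithin_le_nhds)
  obtain ⟨u, hu⟩ := mem_crv.1 k.1.2
  exact ⟨k.2 u hu ▸ hu, fun g => not_exists.2 k.1.1 (hc.ex y k.1.2 g)⟩

theorem exists_reg {α : Type} {l : Filter α} [l.NeBot] (h : ch.Std F e K₀ ℓ)
    {x : α → ch.WF ν κ Λ} {x₀ : ch.WF ν κ Λ} {z : α → ch.Pt} {z₀ : ch.Pt}
    (hx : ∀ᶠ a in l, x a ∈ ch.solF ν κ F ∧ z a ∈ gr (x a).2) (h0 : x₀ ∈ ch.solF ν κ F)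
    (hz : z₀ ∈ gr x₀.2) (h1 : Tendsto x l (𝓝 x₀)) (h2 : Tendsto z l (𝓝 z₀)) :
    ∃ (K₁ : Set K) (g₀ : K → J → ℂ) (g : α → K → J → ℂ), (pd F e x₀ z₀).Reg pwT F.mov K₁ g₀ ∧
      (∀ᶠ a in l, (pd F e (x a) (z a)).Reg pwT F.mov K₁ (g a)) ∧
      ∀ k j, Tendsto (fun a => g a k j) l (𝓝 (g₀ k j)) := by
  obtain ⟨y₀, c1, c2⟩ := exists_cone h0 hz
  obtain ⟨y, d⟩ := (hx.mono fun _ c => exists_cone c.1 c.2).choice
  have u := tendsto_coef h1 h2 hz.1 (d.mono fun _ c => c.2) c2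
  obtain ⟨K₁, r⟩ := h.reg.loc _ c1
  exact ⟨K₁, _, _, h.fits.regAt h.inv hz.1 c2 c1 r, ((hx.and d).and (u.eventually r.eventually)).mono
    fun _ c => h.fits.regAt h.inv c.1.1.2.1 c.1.2.2 c.1.2.1 c.2,
    fun k j => ((Fam.continuous_jac k j).tendsto _).comp u⟩

theorem obs_of_sm (h : ch.Std F e K₀ ℓ) {x : ch.WF ν κ Λ} (hx : x ∈ ch.solF ν κ F) {f : ch.P K}
    (hf : f ∈ ch.polF F e) (H : ∀ z ∈ gr x.2, ¬IsNode ch.o (crv x.2) z.1 →
      evZ z f ∈ (pd F e x z).Im pwT F.mov) : f ∈ obsM F e x :=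
  mem_obsM.2 ⟨hf, fun z hz => by
    have := mem_closure_iff_nhdsWithin_neBot.1 (mem_closure_sm hx.1.2.1 hz)
    have a : Tendsto id (𝓝[{y | y ∈ gr x.2 ∧ ¬IsNode ch.o (crv x.2) y.1}] z) (𝓝 z) :=
      tendsto_id.mono_left nhdsWithin_le_nhds
    obtain ⟨K₁, g₀, g, b1, b2, b3⟩ := exists_reg h
      (mem_of_superset self_mem_nhdsWithin fun _ c => ⟨hx, c.1⟩) hx hz tendsto_const_nhds a
    have t := tends_pd (F := F) (e := e) (tendsto_const_nhds (x := x)) a
    exact PD.Tends.mem_Im ⟨fun j _ => t.tv j trivial, fun k ζ j _ => t.D k ζ j trivial, t.tot⟩ b1 b2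
      (fun k j _ => b3 k j) (mem_of_superset self_mem_nhdsWithin fun y c => H y c.1 c.2)
      (((continuous_evZ hf).tendsto z).comp a)⟩

variable {T A W : Type} [TopologicalSpace T] [NormedAddCommGroup A] [NormedSpace ℂ A]
  [NormedAddCommGroup W] [NormedSpace ℂ W] [FiniteDimensional ℂ W] {π : T → A} {t : T}
  {μ : T → ch.WF ν κ Λ} {i : W →ₗ[ℂ] ch.P K} {N : T → Submodule ℂ W} {r : ℕ}

/-- **The functions vanishing on the curve form a holomorphic family.** -/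
theorem holSub_van (hc : ch.Cuts) (hπ : ContinuousAt π t) (hμ : HolAt π μ t)
    (hb : ∀ᶠ s in 𝓝 t, (μ s).2 ∈ ch.base _) (hi : ∀ w, i w ∈ ch.polF F e)
    (hN : ∀ᶠ s in 𝓝 t, ∀ w, w ∈ N s ↔ i w ∈ vanM F e (μ s))
    (hr : ∀ᶠ s in 𝓝 t, finrank ℂ (N s) = r) : HolSub π {p : T × W | p.2 ∈ N p.1} r t := by
  refine holSub_of_sep hπ hr fun w hw => by_contra fun hn => hw ((hN.self_of_nhds w).2
    (mem_vanM.2 ⟨hi w, fun _ => van_of_sm hb.self_of_nhds (hi w) fun z a b =>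
      evZ_eq_zero.2 fun τ => by_contra fun c => hn ?_⟩))
  obtain ⟨Z, z1, rfl, z3⟩ := exists_move hc hb.self_of_nhds a b
  refine ⟨fun s => (ev1 (Z (μ s).2) τ ∘ₗ i).toContinuousLinearMap,
    HolAt.of_apply fun v => hμ.snd'.comp_an (an_pol z1 (hi v) τ), c, ?_⟩
  filter_upwards [hN, hb, (hμ.snd'.cont hπ).eventually z3] with s d1 d2 d3 v hv
  exact evZ_eq_zero.1 ((mem_vanM.1 ((d1 v).1 hv)).2 _ (d3 d2)) τ

/-- **The obstruction spaces form a holomorphic family along the solutions.** -/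
theorem holSub_obs (h : ch.Std F e K₀ ℓ) (hπ : ContinuousAt π t) (hμ : HolAt π μ t)
    (hb : ∀ᶠ s in 𝓝 t, μ s ∈ ch.solF ν κ F) (hi : ∀ w, i w ∈ ch.polF F e)
    (hN : ∀ᶠ s in 𝓝 t, ∀ w, w ∈ N s ↔ i w ∈ obsM F e (μ s))
    (hr : ∀ᶠ s in 𝓝 t, finrank ℂ (N s) = r) : HolSub π {p : T × W | p.2 ∈ N p.1} r t := by
  classical
  refine holSub_of_sep hπ hr fun w hw => by_contra fun hn => hw ((hN.self_of_nhds w).2
    (obs_of_sm h hb.self_of_nhds (hi w) fun z a b => by_contra fun c => hn ?_))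
  obtain ⟨Z, z1, rfl, z3⟩ := exists_move h.cuts hb.self_of_nhds.1.2.1 a b
  have z4 : ∀ᶠ s in 𝓝 t, μ s ∈ ch.solF ν κ F ∧ Z (μ s).2 ∈ gr (μ s).2 :=
    (hb.and ((hμ.snd'.cont hπ).eventually z3)).mono fun _ d => ⟨d.1, d.2 d.1.1.2.1⟩
  obtain ⟨K₁, g₀, g, b1, b2, -⟩ := exists_reg h z4 hb.self_of_nhds a (hμ.cont hπ)
    ((hμ.snd'.comp_an z1).cont hπ)
  have q : ∀ s, LinearMap.range ((pd F e (μ s) (Z (μ s).2)).dEq pwT ∘ₗ
      (mv ch.Th (fun _ => ℂ) F.mov).subtype) = (pd F e (μ s) (Z (μ s).2)).Im pwT F.mov := fun s =>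
    (LinearMap.range_comp _ _).trans (congrArg _ (Submodule.range_subtype _))
  obtain ⟨l, l1, l2, l3⟩ := exists_sep (b := fun s => evZ (Z (μ s).2) ∘ₗ i)
    (a := fun s => (pd F e (μ s) (Z (μ s).2)).dEq pwT ∘ₗ (mv ch.Th (fun _ => ℂ) F.mov).subtype)
    hπ evF_sep (fun τ Y => hμ.comp_an (an_dEq (z1.comp analyticAt_snd) analyticAt_id Y.1 τ))
    (fun τ v => (hμ.snd'.comp_an (an_pol z1 (hi v) τ)).congr (.of_forall fun s =>
      (evF_evZ _ _ _).symm)) (b2.mono fun s d => by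
        have d1 := d.finrank_Im
        have d2 := b1.finrank_Im
        rw [q, q]
        omega) (w := w) (by rwa [q])
  refine ⟨l, l1, l2, ?_⟩
  filter_upwards [hN, z4, l3] with s d1 d2 d3 v hv
  exact d3 v (q s ▸ (mem_obsM.1 ((d1 v).1 hv)).2 _ d2.2)

/-- **The section is holomorphic.** -/
theorem holAt_sct (hμ : HolAt π μ t) (hi : Injective i) {s : T → W}
    (hs : ∀ᶠ y in 𝓝 t, i (s y) = sctF F e (μ y)) : HolAt π s t :=
  holAt_of_sep ev1_sep hi fun p => (hμ.comp_an (an_sct analyticAt_const analyticAt_id p.2)).congr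
    (hs.mono fun _ a => congrArg _ a.symm)

section rho

variable {P : Type} [NormedAddCommGroup P] [NormedSpace ℂ P] {s : P → ch.AF ν κ S} {p : P}
  (hs : AnalyticAt ℂ s p) (hu : IsUnit (s p))
include hs hu

theorem an_zz (z : ch.Pt) : AnalyticAt ℂ (fun q => zz (s q) z) p :=
  have a := analyticAt_snd.comp hs
  (AnalyticAt.pi fun i => an_apply ((analyticAt_inverse (unit_fst hu i).unit).comp_of_eq
    (analyticAt_pi_iff.1 (analyticAt_fst.comp a) i) rfl) analyticAt_const).prod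
    (AnalyticAt.pi fun l => an_comp analyticAt_const
      (analyticAt_pi_iff.1 (analyticAt_fst.comp (analyticAt_snd.comp a)) l))

theorem an_rho {f : ch.P K} (hf : f ∈ ch.polF F e) (z : ch.Pt) (t : Ts K ch) :
    AnalyticAt ℂ (fun q => ev1 z t (ρF F (s q) f)) p := by
  have a := analyticAt_snd.comp hs
  have hz := an_zz hs hu z
  have b : ∀ w : S → ℤ, AnalyticAt ℂ (fun q => ∏ i, (s q).1 i ^ w i) p := fun w =>
    Finset.analyticAt_fun_prod _ fun i _ =>
      (analyticAt_pi_iff.1 (analyticAt_fst.comp hs) i).fun_zpow (ne_S hu i)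
  rcases t with ⟨j, m⟩ | ⟨k, ζ⟩
  · have c : ∀ (l : ch.Th j →L[ℂ] ℂ) (m : ch.Th j),
        AnalyticAt ℂ (fun q => l (sub (s q).2 _ m)) p := fun l m =>
      (l.analyticAt _).comp (an_apply (an_sub a _) analyticAt_const)
    have : ∀ g ∈ Submodule.span ℂ (ch.G1 j), AnalyticAt ℂ
        (fun q => g (zz (s q) z) (sub (s q).2 _ m.1, sub (s q).2 _ m.2)) p := fun g hg => by
      induction hg using Submodule.span_induction with
      | mem f h =>
        obtain ⟨l, l', μ, y, rfl⟩ := h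
        exact (((c l _).mul (c l' _)).mul (an_c hz μ)).mul (an_u hz _ analyticAt_const)
      | zero => exact analyticAt_const
      | add _ _ _ _ a b => exact a.add b
      | smul c _ _ a => exact analyticAt_const.mul a
    exact (b _).mul (this _ ((mem_polS.1 hf).1 j))
  · have : ∀ g ∈ Submodule.span ℂ (ch.G2 e (fun k => (F.G k).support) k),
        AnalyticAt ℂ (fun q => g (zz (s q) z) fun i => ζ i ∘L (s q).2.1 i) p := fun g hg => by
      induction hg using Submodule.span_induction with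
      | mem f h =>
        obtain ⟨_, -, v, y, μ, rfl⟩ := h
        exact ((Finset.analyticAt_fun_prod _ fun r _ => ((ζ r.1).analyticAt _).comp (an_apply
          (analyticAt_pi_iff.1 (analyticAt_fst.comp a) r.1) analyticAt_const)).mul
          (Finset.analyticAt_fun_prod _ fun s _ => an_u hz _ analyticAt_const)).mul (an_c hz μ)
      | zero => exact analyticAt_const
      | add _ _ _ _ a b => exact a.add b
      | smul c _ _ a => exact analyticAt_const.mul a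
    exact (b _).mul (this _ ((mem_polS.1 hf).2 k))

end rho

variable {A' : Type} [NormedAddCommGroup A'] [NormedSpace ℂ A'] {Y Y' : Ch.Sp} {c : Y.T → A}
  {c' : Y'.T → A'} {th : Y.G → ch.AF ν κ S} {x : Y.T → ch.WF ν κ Λ} {k : KP Y}
  {j : k.P.W →ₗ[ℂ] ch.P K} (hk : IsKP F e Y th x k j)
include hk

/-- the action on the ambient representation is analytic -/
theorem exists_rho (w : k.P.W) : ∃ Φ : ch.AF ν κ S → k.P.W,
    (∀ a, IsUnit a → AnalyticAt ℂ Φ a) ∧ ∀ g : Y.G, g • w = Φ (th g) := by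
  choose Φ h using fun a : ch.AF ν κ S => hk.lift (ρF_mem (F := F) (s := a) (hk.mem w))
  exact ⟨Φ, fun a ha => holAt_id_iff.1 (holAt_of_sep ev1_sep hk.emb.injective fun p =>
    holAt_id_iff.2 ((an_rho analyticAt_id ha (hk.mem w) p.1 p.2).congr
      (.of_forall fun b => congrArg _ (h b).symm))),
    fun g => hk.emb.injective ((hk.eqv g w).trans (h _).symm)⟩

/-- **The ambient bundle is holomorphic.** -/
theorem hv_P (hu : IsUnit (th 1)) (hτ : ∀ t, ∃ τ, Coc Y c τ t ∧ HolAt c (fun s => th (τ s)) t) :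
    HV k.P c := fun t => by
  obtain ⟨τ, h1, h2⟩ := hτ t
  obtain ⟨ψ, h3, h4⟩ := A3.exists_frame_top (ι := c) k.P hk.top t
  refine ⟨_, A3.frm_of_frame h1 k.P (fun w => ?_) h3 h4⟩
  obtain ⟨Φ, h5, h6⟩ := exists_rho hk w
  exact (h2.comp_an (h5 _ (h1.one ▸ hu))).congr (.of_forall fun s => (h6 _).symm)

theorem hol_s {t : Y.T} (hx : HolAt c x t) : HolAt c k.s t :=
  holAt_sct hx hk.emb.injective (.of_forall hk.sec)

/-- **The bundle that is divided out is holomorphic.** -/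
theorem hv_van (hc : ch.Cuts) (hY : IsAS Y c) (hx : ∀ t, HolAt c x t)
    (hb : ∀ t, (x t).2 ∈ ch.base _) (hP : HV k.P c) : HV k.vanB c :=
  hP.sub hY k.van_le fun t => holSub_van hc hY.emb.continuous.continuousAt (hx t) (.of_forall hb)
    hk.mem (.of_forall hk.van) (.of_forall k.van_rank)

/-- **The obstruction bundle is holomorphic.** -/
theorem hv_obs (h : ch.Std F e K₀ ℓ) (hx : ∀ t, HolAt c x t) (hd : ∀ t, x t ∈ ch.dom ν κ F e)
    (hP : HV k.P c) {m : Mor Y' Y} (hY : IsAS Y' c') (hm : HM m c' c) (hZ : ∀ t, m.f t ∈ k.Zs) :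
    HV (k.obsB m hZ) c' :=
  (hP.pb hm).sub hY (fun t => k.obs_le _ (hZ t)) fun t => holSub_obs h
    hY.emb.continuous.continuousAt ((hx _).comp m.cf.continuousAt (hm t))
    (.of_forall fun s => (h.mem_Zs hk (hd _)).1 (hZ s)) hk.mem
    (.of_forall fun s => hk.obs _ (hZ s)) (.of_forall fun s => k.obs_rank _ (hZ s))

/-- the zero set is analytic -/
theorem an_Zs (hc : ch.Cuts) (hY : IsAS Y c) (hx : ∀ t, HolAt c x t)
    (hb : ∀ t, (x t).2 ∈ ch.base _) (t : Y.T) : An (c '' k.Zs) (c t) :=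
  an_mem hY.emb (hY.an t) (holSub_van hc hY.emb.continuous.continuousAt (hx t) (.of_forall hb)
    hk.mem (.of_forall hk.van) (.of_forall k.van_rank)) (hol_s hk (hx t)) (.of_forall fun _ => Iff.rfl)

end Vale.Agent.P287Q.H3.Obs
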