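import Vale.Agent.P287Q.H3.A3
import Vale.Agent.P287Q.G.G3.Mod

/-!
# The representation and the section of the Kuranishi presentation are holomorphic
-/

set_option linter.unusedSectionVars false

namespace Vale.Agent.P287Q.H3

open Set Function Topology Filter Module P269 P269.Ch P269.Ch.AnM P269.Holo P269.Base

variable {S Λ R J K ι ν κ : Type} [Fintype S] [Fintype Λ] [Fintype R] [Fintype J] [Fintype K]
  [Fintype ι] [DecidableEq ι] [Fintype ν] [Fintype κ] {ch : Ch ι J} {F : Fam S Λ R J K}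
  {e : K → ι → ℕ} {V Q : Type} [NormedAddCommGroup V] [NormedSpace ℂ V] [FiniteDimensional ℂ V]
  [NormedAddCommGroup Q] [NormedSpace ℂ Q]

namespace Pol

/-- Finitely many evaluations determine the elements of a finite dimensional space. -/
theorem exists_dec {i : V →ₗ[ℂ] ch.P K} (hi : Injective i) :
    ∃ (n : ℕ) (a : Fin n → ch.Pt × Ts K ch) (L : (Fin n → ℂ) →L[ℂ] V),
      ∀ w, L (fun r => ev1 (a r).1 (a r).2 (i w)) = w := by
  obtain ⟨a, ha⟩ := exists_fin (fun t : ch.Pt × Ts K ch => ev1 t.1 t.2 ∘ₗ i) (finrank ℂ V) ⊤ ⊥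
    bot_le (fun f hf t => by rw [(Submodule.mem_bot ℂ).1 hf, map_zero])
    (fun f _ h => (Submodule.mem_bot ℂ).2 (hi ((P_ext (fun j z m => h (z, .inl ⟨j, m⟩))
      fun k z ζ => h (z, .inr (k, ζ))).trans (map_zero i).symm)))
    (by rw [finrank_top, finrank_bot, zero_add])
  obtain ⟨L, hL⟩ := (LinearMap.pi fun r => ev1 (a r).1 (a r).2 ∘ₗ i).exists_leftInverse_of_injective
    (LinearMap.ker_eq_bot'.2 fun w hw => (Submodule.mem_bot ℂ).1 (ha w trivial (congrFun hw)))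
  exact ⟨_, a, LinearMap.toContinuousLinearMap L, LinearMap.congr_fun hL⟩

/-- Maps into `P K` lift to maps which are analytic where all evaluations are. -/
theorem exists_lift {i : V →ₗ[ℂ] ch.P K} (hi : Injective i) (f : Q → ch.P K) :
    ∃ Φ : Q → V, (∀ q, (∀ z t, AnalyticAt ℂ (fun y => ev1 z t (f y)) q) → AnalyticAt ℂ Φ q) ∧
      ∀ q w, i w = f q → w = Φ q := by
  obtain ⟨n, a, L, h⟩ := exists_dec hi
  exact ⟨fun q => L fun r => ev1 (a r).1 (a r).2 (f q),
    fun q hq => (L.analyticAt _).comp (AnalyticAt.pi fun r => hq _ _),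
    fun q w hw => (h w).symm.trans (by simp only [hw])⟩

section an

variable {z : Q → ch.Pt} {q : Q} (hz : AnalyticAt ℂ z q)
include hz

theorem an_G1 {j : J} {m : Q → ch.Th j × ch.Th j} (hm : AnalyticAt ℂ m q)
    {g : ch.Pt → ch.Th j × ch.Th j → ℂ} (hg : g ∈ Submodule.span ℂ (ch.G1 j)) :
    AnalyticAt ℂ (fun y => g (z y) (m y)) q := by
  induction hg using Submodule.span_induction with
  | mem f h =>
    obtain ⟨a, a', μ, y, rfl⟩ := h
    exact ((((a.analyticAt _).comp (analyticAt_fst.comp hm)).mul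
      ((a'.analyticAt _).comp (analyticAt_snd.comp hm))).mul (an_c hz μ)).mul
      (an_u hz _ analyticAt_const)
  | zero => exact analyticAt_const
  | add _ _ _ _ a b => exact a.add b
  | smul c _ _ a => exact analyticAt_const.mul a

theorem an_G2 {σ : K → Finset (J →₀ ℕ)} {k : K} {ζ : Q → ch.Zt} (hζ : AnalyticAt ℂ ζ q)
    {g : ch.Pt → ch.Zt → ℂ} (hg : g ∈ Submodule.span ℂ (ch.G2 e σ k)) :
    AnalyticAt ℂ (fun y => g (z y) (ζ y)) q := by
  induction hg using Submodule.span_induction with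
  | mem f h =>
    obtain ⟨a, -, v, y, μ, rfl⟩ := h
    exact ((Finset.analyticAt_fun_prod _ fun s _ =>
      an_apply (analyticAt_pi_iff.1 hζ s.1) analyticAt_const).mul
      (Finset.analyticAt_fun_prod _ fun s _ => an_u hz _ analyticAt_const)).mul (an_c hz μ)
  | zero => exact analyticAt_const
  | add _ _ _ _ a b => exact a.add b
  | smul c _ _ a => exact analyticAt_const.mul a

omit hz

variable {s : Q → ch.AF ν κ S} (hs : AnalyticAt ℂ s q) (hu : IsUnit (s q))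
include hs hu

theorem an_zz (z : ch.Pt) : AnalyticAt ℂ (fun y => zz (s y) z) q := by
  have a := analyticAt_snd.comp hs
  refine (AnalyticAt.pi fun i => an_apply ?_ analyticAt_const).prod (AnalyticAt.pi fun l =>
    an_comp analyticAt_const (analyticAt_pi_iff.1 (analyticAt_fst.comp (analyticAt_snd.comp a)) l))
  exact AnalyticAt.comp (g := Ring.inverse) (analyticAt_inverse (unit_fst hu i).unit)
    (analyticAt_pi_iff.1 (analyticAt_fst.comp a) i)

theorem an_rho {σ : K → Finset (J →₀ ℕ)} {f : ch.P K} (hf : f ∈ ch.polS e σ) (z : ch.Pt)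
    (t : Ts K ch) : AnalyticAt ℂ (fun y => ev1 z t (ρF F (s y) f)) q := by
  have a := analyticAt_snd.comp hs
  have b := an_prod_zpow (analyticAt_fst.comp hs) (ne_S hu)
  rcases t with ⟨j, m⟩ | ⟨k, ζ⟩
  · exact (b _).mul (an_G1 (an_zz hs hu z) ((an_apply (an_sub a _) analyticAt_const).prod
      (an_apply (an_sub a _) analyticAt_const)) ((mem_polS.1 hf).1 j))
  · exact (b _).mul (an_G2 (an_zz hs hu z) (AnalyticAt.pi fun i => an_comp analyticAt_const
      (analyticAt_pi_iff.1 (analyticAt_fst.comp a) i)) ((mem_polS.1 hf).2 k))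

end an

variable {Y : Ch.Sp} {th : Y.G → ch.AF ν κ S} {μ : Y.T → ch.WF ν κ Λ} {k : KP Y}
  {i : k.P.W →ₗ[ℂ] ch.P K} (hk : IsKP F e Y th μ k i)
include hk

/-- The representation is holomorphic. -/
theorem act (w : k.P.W) : ∃ Φ : ch.AF ν κ S → k.P.W, (∀ a, IsUnit a → AnalyticAt ℂ Φ a) ∧
    ∀ g : Y.G, g • w = Φ (th g) := by
  obtain ⟨Φ, h1, h2⟩ := exists_lift hk.emb.injective fun a : ch.AF ν κ S => ρF F a (i w)
  exact ⟨Φ, fun a ha => h1 a (an_rho analyticAt_id ha (hk.mem w)), fun g => h2 _ _ (hk.eqv g w)⟩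

/-- The section is holomorphic. -/
theorem sec : ∃ Φ : ch.WF ν κ Λ → k.P.W, (∀ x, AnalyticAt ℂ Φ x) ∧ ∀ t, k.s t = Φ (μ t) := by
  obtain ⟨Φ, h1, h2⟩ := exists_lift hk.emb.injective (sctF F e : ch.WF ν κ Λ → ch.P K)
  exact ⟨Φ, fun x => h1 x fun z t => an_sct analyticAt_const analyticAt_id t,
    fun t => h2 _ _ (hk.sec t)⟩

end Pol

variable {S₀ O : Set (ch.WF ν κ Λ)} (hd : Ch.Dom F e S₀ O) {k : KP hd.sp}
  {i : k.P.W →ₗ[ℂ] ch.P K} (hk : hd.IsKP k i)

theorem Pol.ug : haveI := hd.isAct; A3.UG hd.pres :=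
  haveI := hd.isAct
  A3.ug_presA hd.orb

include hk

theorem pol_act (w : k.P.W) : ∃ Φ : ch.AF ν κ S → k.P.W, AnalyticAt ℂ Φ 1 ∧
    ∀ g : hd.sp.G, g • w = Φ (hd.pres.u g) :=
  (Pol.act hk w).imp fun _ h => ⟨h.1 1 isUnit_one, h.2⟩

theorem hv_pol : HV k.P hd.pres.i :=
  haveI := hd.isAct
  (Pol.ug hd).hv_of_an k.P hk.top fun w =>
    (pol_act hd hk w).imp fun _ h => ⟨h.1, Eventually.of_forall h.2⟩

theorem Pol.hv_van (h : ∀ t, ∃ ψ : hd.sp.T → (Fin k.v → ℂ) →L[ℂ] k.P.W,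
    HolAt hd.pres.i ψ t ∧ ∀ᶠ s in 𝓝 t, ∀ w, w ∈ k.van s ↔ w ∈ range (ψ s)) :
    HV k.vanB hd.pres.i :=
  haveI := hd.isAct
  (Pol.ug hd).hv_of_frame k.vanB
    (fun w => (pol_act hd hk w).imp fun _ h => ⟨h.1, Eventually.of_forall h.2⟩) h

theorem hol_sec (t : hd.sp.T) : HolAt hd.pres.i k.s t :=
  (Pol.sec hk).imp fun _ h => ⟨h.1 _, Eventually.of_forall h.2⟩

end Vale.Agent.P287Q.H3
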