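import Vale.Agent.P287Q.H3.ChD
import Vale.Agent.P287Q.H3.Kd
import Vale.Agent.P287Q.H3.Pol
import Vale.Agent.P287Q.H3.Obs

/-!
# The Kuranishi presentations of the moduli spaces are holomorphic
-/

namespace Vale.Agent.P287Q.H3

open Set Function Topology Filter P291Z P269 P269.Ch P269.Holo

theorem stBun : StBun := by
  intro S Λ R J K ι ν κ _ _ _ _ _ _ _ _ _ ch F e K₀ ℓ S₀ O h hS hd k i hk hO
  have hY := Kd.isAS hd hO
  have h1 := hv_pol hd hk
  have h2 : ∀ t, hd.pres.i t ∈ ch.dom ν κ F e := fun t => hd.subset_dom hS (hd.pres.mem t)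
  have h3 := Obs.hv_van hk h.cuts hY (fun _ => HolAt.self) (fun t => (h2 t).1.1.2.1) h1
  exact ⟨h1, h3, hol_sec hd hk, Obs.hv_obs hk h (fun _ => HolAt.self) h2 h1
    (stSub _ _ _ hY k.ZS _ fun t _ => Kd.an_mem hY h3 (hol_sec hd hk t)).1 (hm_subI _ _) _⟩

end Vale.Agent.P287Q.H3
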