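import Vale.Agent.P287Q.H3.St

/-!
# Analytic orbispaces: the basic API
-/

set_option linter.unusedSectionVars false
set_option linter.style.haveILetI false

namespace Vale.Agent.P287Q.H3

open Set Function Topology Filter P291Z P269 P269.Ch P269.Holo P269.Mono P269.Orb

variable {A A' A'' B : Type} [NormedAddCommGroup A] [NormedSpace ℂ A] [NormedAddCommGroup A']
  [NormedSpace ℂ A'] [NormedAddCommGroup A''] [NormedSpace ℂ A''] [NormedAddCommGroup B]
  [NormedSpace ℂ B]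

section an

variable {S S' : Set A} {a : A}

theorem An.congr (h : An S a) (e : ∀ᶠ z in 𝓝 a, z ∈ S ↔ z ∈ S') : An S' a := by
  obtain ⟨k, f, h1, h2⟩ := h
  exact ⟨k, f, h1, (h2.and e).mono fun z hz => hz.2.symm.trans hz.1⟩

theorem An.of_fd [FiniteDimensional ℂ B] {f : A → B} (hf : AnalyticAt ℂ f a)
    (e : ∀ᶠ z in 𝓝 a, z ∈ S ↔ f z = 0) : An S a := by
  let L : B ≃L[ℂ] (Fin (Module.finrank ℂ B) → ℂ) := ContinuousLinearEquiv.ofFinrankEq (by simp)
  exact ⟨_, fun z => L (f z), (L.toContinuousLinearMap.analyticAt _).comp hf,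
    e.mono fun z hz => hz.trans L.map_eq_zero_iff.symm⟩

theorem an_zero [FiniteDimensional ℂ B] {f : A → B} (hf : AnalyticAt ℂ f a) :
    An {z | f z = 0} a := An.of_fd hf (Eventually.of_forall fun _ => Iff.rfl)

theorem an_univ : An (univ : Set A) a :=
  (an_zero (f := fun _ => (0 : ℂ)) analyticAt_const).congr (Eventually.of_forall fun _ => by simp)

theorem an_empty : An (∅ : Set A) a :=
  (an_zero (f := fun _ => (1 : ℂ)) analyticAt_const).congr (Eventually.of_forall fun _ => by simp)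

theorem an_of_mem_nhds (h : S ∈ 𝓝 a) : An S a :=
  an_univ.congr (by filter_upwards [h] with z hz using iff_of_true trivial hz)

theorem an_of_notMem (h : a ∉ closure S) : An S a :=
  an_empty.congr (by
    filter_upwards [isClosed_closure.isOpen_compl.mem_nhds h] with z hz
    exact iff_of_false id fun e => hz (subset_closure e))

theorem An.inter (h : An S a) (h' : An S' a) : An (S ∩ S') a := by
  obtain ⟨k, f, h1, h2⟩ := h
  obtain ⟨k', f', h3, h4⟩ := h'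
  exact An.of_fd (h1.prod h3) ((h2.and h4).mono fun z hz => by
    rw [mem_inter_iff, hz.1, hz.2, Prod.mk_eq_zero])

theorem An.union (h : An S a) (h' : An S' a) : An (S ∪ S') a := by
  obtain ⟨k, f, h1, h2⟩ := h
  obtain ⟨k', f', h3, h4⟩ := h'
  refine An.of_fd (f := fun z (p : Fin k × Fin k') => f z p.1 * f' z p.2)
    (analyticAt_pi_iff.2 fun p => (analyticAt_pi_iff.1 h1 _).mul (analyticAt_pi_iff.1 h3 _))
    ((h2.and h4).mono fun z hz => ?_)
  rw [mem_union, hz.1, hz.2]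
  refine ⟨fun e => funext fun p => by rcases e with e | e <;> simp [e], fun e => ?_⟩
  by_contra! h5
  obtain ⟨i, hi⟩ := ne_iff.1 h5.1
  obtain ⟨j, hj⟩ := ne_iff.1 h5.2
  exact mul_ne_zero hi hj (congrFun e (i, j))

theorem An.iInter {I : Type*} [Finite I] {T : I → Set A} (h : ∀ i, An (T i) a) :
    An (⋂ i, T i) a := by
  induction I using Finite.induction_empty_option with
  | of_equiv e ih => exact e.surjective.iInter_comp T ▸ ih fun i => h (e i)
  | h_empty => rw [iInter_of_empty]; exact an_univ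
  | h_option ih => rw [iInter_option]; exact (h _).inter (ih fun i => h _)

theorem An.iUnion {I : Type*} [Finite I] {T : I → Set A} (h : ∀ i, An (T i) a) :
    An (⋃ i, T i) a := by
  induction I using Finite.induction_empty_option with
  | of_equiv e ih => exact e.surjective.iUnion_comp T ▸ ih fun i => h (e i)
  | h_empty => rw [iUnion_of_empty]; exact an_empty
  | h_option ih => rw [iUnion_option]; exact (h _).union (ih fun i => h _)

theorem An.eventually (h : An S a) : ∀ᶠ z in 𝓝 a, An S z := by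
  obtain ⟨k, f, h1, h2⟩ := h
  filter_upwards [h1.eventually_analyticAt, h2.eventually_nhds] with z a b using ⟨k, f, a, b⟩

theorem An.preimage {f : A' → A} {a' : A'} (hf : AnalyticAt ℂ f a') (h : An S (f a')) :
    An (f ⁻¹' S) a' := by
  obtain ⟨k, g, h1, h2⟩ := h
  exact ⟨k, fun z => g (f z), h1.comp hf, hf.continuousAt.eventually h2⟩

theorem An.prod {T : Set A'} {a' : A'} (h : An S a) (h' : An T a') : An (S ×ˢ T) (a, a') :=
  (An.preimage (a' := (a, a')) analyticAt_fst h).inter (An.preimage (a' := (a, a')) analyticAt_snd h')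

theorem An.mem_of_closure (h : An S a) (ha : a ∈ closure S) : a ∈ S := by
  obtain ⟨k, f, h1, h2⟩ := h
  refine h2.self_of_nhds.2 (by_contra fun e => ?_)
  obtain ⟨z, h3, h4⟩ := ((mem_closure_iff_frequently.1 ha).and_eventually
    (h2.and (h1.continuousAt.eventually_ne e))).exists
  exact h4.2 (h4.1.1 h3)

theorem An.closed_near (h : An S a) : ∀ᶠ z in 𝓝 a, z ∈ closure S → z ∈ S :=
  h.eventually.mono fun _ hz => hz.mem_of_closure

theorem An.closure (h : An S a) : An (closure S) a :=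
  h.congr (h.closed_near.mono fun _ hz => ⟨fun e => subset_closure e, hz⟩)

theorem isLocallyClosed_of_an (h : ∀ a ∈ S, An S a) : IsLocallyClosed S :=
  ⟨interior {z | z ∈ closure S → z ∈ S}, closure S, isOpen_interior, isClosed_closure,
    Subset.antisymm (fun x hx => ⟨mem_interior_iff_mem_nhds.2 (h x hx).closed_near,
      subset_closure hx⟩) fun _ hx => interior_subset hx.1 hx.2⟩

end an

section emb

variable {T : Type} [TopologicalSpace T] {ι : T → A} {t : T} {Z Z' : Set T}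

theorem ev_emb (h : IsEmbedding ι) {p : T → Prop} :
    (∀ᶠ s in 𝓝 t, p s) ↔ ∀ᶠ z in 𝓝 (ι t), ∀ s, ι s = z → p s := by
  rw [h.isInducing.nhds_eq_comap, eventually_comap]

theorem An.image_congr (he : IsEmbedding ι) (h : An (ι '' Z) (ι t))
    (e : ∀ᶠ s in 𝓝 t, s ∈ Z ↔ s ∈ Z') : An (ι '' Z') (ι t) :=
  h.congr (((ev_emb he).1 e).mono fun _ hz =>
    exists_congr fun s => and_congr_left fun hs => hz s hs)

theorem an_image (he : IsEmbedding ι) (hr : An (range ι) (ι t)) {f : T → B} (hf : HolAt ι f t)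
    {W : Set B} (hW : An W (f t)) (e : ∀ᶠ s in 𝓝 t, s ∈ Z ↔ f s ∈ W) : An (ι '' Z) (ι t) := by
  obtain ⟨Φ, h1, h2⟩ := hf
  refine (hr.inter (An.preimage h1 (h2.self_of_nhds ▸ hW))).congr
    (((ev_emb he).1 (h2.and e)).mono fun z hz => ⟨?_, ?_⟩)
  · rintro ⟨⟨s, rfl⟩, hs⟩
    exact ⟨s, (hz s rfl).2.2 ((hz s rfl).1 ▸ hs), rfl⟩
  · rintro ⟨s, hs, rfl⟩
    exact ⟨⟨s, rfl⟩, show Φ (ι s) ∈ W from (hz s rfl).1 ▸ (hz s rfl).2.1 hs⟩

theorem An.image_inter (he : Injective ι) {a : A} (h : An (ι '' Z) a) (h' : An (ι '' Z') a) :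
    An (ι '' (Z ∩ Z')) a := (Set.image_inter he).symm ▸ h.inter h'

theorem An.image_union {a : A} (h : An (ι '' Z) a) (h' : An (ι '' Z') a) :
    An (ι '' (Z ∪ Z')) a := (Set.image_union ι Z Z').symm ▸ h.union h'

theorem image_closure_eq (he : IsEmbedding ι) (Z : Set T) :
    ι '' closure Z = range ι ∩ closure (ι '' Z) := by
  rw [he.isInducing.closure_eq_preimage_closure_image, image_preimage_eq_range_inter]

theorem An.mem_of_closure' (he : IsEmbedding ι) (h : An (ι '' Z) (ι t))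
    (ht : t ∈ _root_.closure Z) :
    t ∈ Z := he.injective.mem_set_image.1 (h.mem_of_closure
      (image_closure_subset_closure_image he.continuous (mem_image_of_mem ι ht)))

theorem isLocallyClosed_of_an_image (he : IsEmbedding ι) (h : ∀ t ∈ Z, An (ι '' Z) (ι t)) :
    IsLocallyClosed Z := by
  have := (isLocallyClosed_of_an (S := ι '' Z) (forall_mem_image.2 h)).preimage he.continuous
  rwa [preimage_image_eq _ he.injective] at this

theorem small_image_iff (he : IsEmbedding ι) {k : ℕ} :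
    (∃ U ∈ 𝓝 t, Small k (ι '' (U ∩ Z))) ↔ ∃ U ∈ 𝓝 (ι t), Small k (U ∩ ι '' Z) := by
  refine ⟨fun ⟨U, hU, h⟩ => ⟨_, (ev_emb he).1 hU, h.mono ?_⟩, fun ⟨U, hU, h⟩ =>
    ⟨_, he.continuous.continuousAt hU, h.mono ?_⟩⟩
  · rintro _ ⟨h1, s, hs, rfl⟩
    exact ⟨s, ⟨h1 s rfl, hs⟩, rfl⟩
  · rintro _ ⟨s, hs, rfl⟩
    exact ⟨hs.1, s, hs.2, rfl⟩

/-- Holomorphic maps do not raise the dimension. -/
theorem small_map [FiniteDimensional ℂ A] [CompleteSpace B] (hc : ContinuousAt ι t) {f : T → B}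
    (hf : HolAt ι f t) {k : ℕ} (h : ∃ U ∈ 𝓝 t, Small k (ι '' (U ∩ Z))) :
    ∃ U ∈ 𝓝 t, Small k (f '' (U ∩ Z)) := by
  obtain ⟨U, hU, h⟩ := h
  obtain ⟨Φ, h1, h2⟩ := hf
  refine ⟨_, inter_mem hU (inter_mem h2 (hc.eventually h1.eventually_analyticAt)),
    ((h.mono (inter_subset_left (t := {z | AnalyticAt ℂ Φ z}))).image fun z hz =>
      (hz.2.contDiffAt.restrict_scalars ℝ)).mono ?_⟩
  rintro _ ⟨s, hs, rfl⟩
  exact ⟨ι s, ⟨⟨s, ⟨hs.1.1, hs.2⟩, rfl⟩, hs.1.2.2⟩, hs.1.2.1.symm⟩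

end emb

variable {Y Y' Y'' : Ch.Sp} {ι : Y.T → A} {ι' : Y'.T → A'} {ι'' : Y''.T → A''}
  {τ τ' : Y.T → Y.G} {t : Y.T}

namespace Coc

theorem contAt (h : Coc Y ι τ t) : ContinuousAt τ t := h.cont.self_of_nhds

theorem ret_self (h : Coc Y ι τ t) : (τ t)⁻¹ • t = t := by rw [h.one, inv_one, one_smul]

theorem ret_cont (h : Coc Y ι τ t) : ∀ᶠ s in 𝓝 t, ContinuousAt (fun x => (τ x)⁻¹ • x) s :=
  h.cont.mono fun _ hs => hs.inv.smul continuousAt_id

theorem tendsto (h : Coc Y ι τ t) : Tendsto τ (𝓝 t) (𝓝 1) := h.one ▸ h.contAt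

theorem tendsto_inv (h : Coc Y ι τ t) : Tendsto (fun x => (τ x)⁻¹) (𝓝 t) (𝓝 1) :=
  inv_one (G := Y.G) ▸ h.tendsto.inv

theorem tendsto_ret (h : Coc Y ι τ t) : Tendsto (fun x => (τ x)⁻¹ • x) (𝓝 t) (𝓝 t) := by
  have := h.ret_cont.self_of_nhds
  rwa [ContinuousAt, h.ret_self] at this

/-- the cocycle condition along any family of group elements -/
theorem eqv' (h : Coc Y ι τ t) {Z : Type*} {l : Filter Z} {g : Z → Y.G} {s : Z → Y.T}
    (hg : Tendsto g l (𝓝 1)) (hs : Tendsto s l (𝓝 t)) :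
    ∀ᶠ z in l, τ (g z • s z) = g z * τ (s z) := (hg.prodMk_nhds hs).eventually h.eqv

theorem τ_ret (h : Coc Y ι τ t) : ∀ᶠ s in 𝓝 t, τ ((τ s)⁻¹ • s) = 1 :=
  (h.eqv' h.tendsto_inv tendsto_id).mono fun _ hs => hs.trans (inv_mul_cancel _)

theorem ret_smul (h : Coc Y ι τ t) :
    ∀ᶠ p : Y.G × Y.T in 𝓝 (1, t), (τ (p.1 • p.2))⁻¹ • p.1 • p.2 = (τ p.2)⁻¹ • p.2 :=
  h.eqv.mono fun p hp => by rw [hp, mul_inv_rev, mul_smul, inv_smul_smul]

theorem ret_ret (h : Coc Y ι τ t) (h' : Coc Y ι τ' t) :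
    ∀ᶠ s in 𝓝 t, (τ' ((τ s)⁻¹ • s))⁻¹ • (τ s)⁻¹ • s = (τ' s)⁻¹ • s :=
  (h.tendsto_inv.prodMk_nhds tendsto_id).eventually h'.ret_smul

theorem slice_iff (h : Coc Y ι τ t) : ∀ᶠ s in 𝓝 t, τ s = 1 ↔ (τ s)⁻¹ • s = s :=
  h.τ_ret.mono fun s hs => ⟨fun e => by rw [e, inv_one, one_smul], fun e => by rwa [e] at hs⟩

theorem box (h : Coc Y ι τ t) : ∃ (V : Set Y.G) (U : Set Y.T), IsOpen V ∧ 1 ∈ V ∧ IsOpen U ∧
    t ∈ U ∧ (∀ x ∈ U, ContinuousAt τ x) ∧ ∀ g ∈ V, ∀ x ∈ U, τ (g • x) = g * τ x := by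
  have := h.eqv
  rw [nhds_prod_eq] at this
  obtain ⟨V, hV, U, hU, h1⟩ := mem_prod_iff.1 this
  obtain ⟨V', h2, h3, h4⟩ := mem_nhds_iff.1 hV
  obtain ⟨U', h5, h6, h7⟩ := mem_nhds_iff.1 (inter_mem hU h.cont)
  exact ⟨V', U', h3, h4, h6, h7, fun x hx => (h5 hx).2,
    fun g hg x hx => h1 (mk_mem_prod (h2 hg) (h5 hx).1)⟩

theorem sub (h : Coc Y ι τ t) {S : SubMulAction Y.G Y.T} (hS : IsLocallyClosed (S : Set Y.T))
    (ht : t ∈ S) : Coc (Y.sub S hS) (fun s : S => ι s) (fun s : S => τ s) (⟨t, ht⟩ : S) := by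
  have c : ContinuousAt (Subtype.val : S → Y.T) ⟨t, ht⟩ := continuous_subtype_val.continuousAt
  exact ⟨h.one, (c.eventually h.cont).mono fun s hs => hs.comp continuous_subtype_val.continuousAt,
    h.eqv' (continuous_fst.tendsto (1, (⟨t, ht⟩ : S)))
      (c.tendsto.comp (continuous_snd.tendsto (1, (⟨t, ht⟩ : S)))),
    HolAt.comp (u := Subtype.val) (t' := (⟨t, ht⟩ : S)) h.hol c HolAt.self⟩

end Coc

namespace IsAS

theorem cont (hY : IsAS Y ι) : Continuous ι := hY.emb.continuous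

theorem inj (hY : IsAS Y ι) : Injective ι := hY.emb.injective

theorem complete (hY : IsAS Y ι) : CompleteSpace A :=
  haveI := hY.fd
  FiniteDimensional.complete ℂ A

theorem an_of (hY : IsAS Y ι) {f : Y.T → B} (hf : HolAt ι f t) {W : Set B} (hW : An W (f t))
    {Z : Set Y.T} (e : ∀ᶠ s in 𝓝 t, s ∈ Z ↔ f s ∈ W) : An (ι '' Z) (ι t) :=
  an_image hY.emb (hY.an t) hf hW e

theorem an_zero' [FiniteDimensional ℂ B] (hY : IsAS Y ι) {f : Y.T → B} (hf : HolAt ι f t)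
    {Z : Set Y.T} (e : ∀ᶠ s in 𝓝 t, s ∈ Z ↔ f s = 0) : An (ι '' Z) (ι t) :=
  hY.an_of hf (H3.an_zero (f := fun z => z) analyticAt_id) e

theorem an_zero [FiniteDimensional ℂ B] (hY : IsAS Y ι) {f : Y.T → B} (hf : HolAt ι f t) :
    An (ι '' {s | f s = 0}) (ι t) := hY.an_zero' hf (Eventually.of_forall fun _ => Iff.rfl)

theorem an_nhds (hY : IsAS Y ι) {Z : Set Y.T} (h : Z ∈ 𝓝 t) : An (ι '' Z) (ι t) :=
  An.image_congr hY.emb (image_univ ▸ hY.an t)
    (by filter_upwards [h] with s hs using iff_of_true trivial hs)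

theorem an_notMem (hY : IsAS Y ι) {Z : Set Y.T} (h : t ∉ closure Z) : An (ι '' Z) (ι t) :=
  an_of_notMem fun e => h (hY.emb.isInducing.closure_eq_preimage_closure_image Z ▸ e)

theorem an_closure (hY : IsAS Y ι) {Z : Set Y.T} (h : An (closure (ι '' Z)) (ι t)) :
    An (ι '' closure Z) (ι t) := (image_closure_eq hY.emb Z).symm ▸ (hY.an t).inter h

theorem an_clo (hY : IsAS Y ι) (hC : StClo) {Z Z' : Set Y.T} (h : An (ι '' Z) (ι t))
    (h' : An (ι '' Z') (ι t)) : An (ι '' closure (Z \ Z')) (ι t) :=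
  haveI := hY.fd
  hY.an_closure ((image_sdiff hY.inj Z Z').symm ▸ hC _ _ _ _ h h')

theorem hol_smul (hY : IsAS Y ι) {f : Y.T → B} {g : Y.G} (hf : HolAt ι f (g • t)) :
    HolAt ι (fun s => f (g • s)) t :=
  hf.comp (continuous_const_smul g).continuousAt (hY.act g t)

theorem an_smul (hY : IsAS Y ι) {Z : Set Y.T} (g : Y.G) (h : An (ι '' Z) (ι (g • t))) :
    An (ι '' {s | g • s ∈ Z}) (ι t) :=
  hY.an_of (hY.act g t) h (Eventually.of_forall fun s => (hY.inj.mem_set_image (a := g • s)).symm)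

theorem an_inv (hY : IsAS Y ι) {S : SubMulAction Y.G Y.T} (g : Y.G) (h : An (ι '' S) (ι t)) :
    An (ι '' S) (ι (g • t)) :=
  (hY.an_smul g⁻¹ (by rwa [inv_smul_smul])).image_congr hY.emb (Eventually.of_forall fun s =>
    ⟨fun e => by simpa using S.smul_mem g e, fun e => S.smul_mem _ e⟩)

end IsAS

namespace Coc

theorem an_slice (h : Coc Y ι τ t) (hY : IsAS Y ι) : An (ι '' {s | τ s = 1}) (ι t) :=
  haveI := hY.fd
  hY.an_zero' (h.hol.sub HolAt.self) (h.slice_iff.mono fun _ hs =>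
    hs.trans (hY.inj.eq_iff.symm.trans sub_eq_zero.symm))

theorem hol_ret (h : Coc Y ι τ t) {f : Y.T → B} (hf : HolAt ι f t) :
    HolAt ι (fun s => f ((τ s)⁻¹ • s)) t :=
  HolAt.comp (by rwa [h.ret_self]) h.ret_cont.self_of_nhds h.hol

/-- moving the base point -/
theorem eventually (h : Coc Y ι τ t) (hY : IsAS Y ι) :
    ∀ᶠ s in 𝓝 t, Coc Y ι (fun x => τ x * (τ s)⁻¹) s := by
  haveI := hY.complete
  obtain ⟨V, U, h1, h2, h3, h4, h5, h6⟩ := h.box
  filter_upwards [h3.mem_nhds h4, h.hol.eventually hY.cont.continuousAt] with s hs h7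
  refine ⟨mul_inv_cancel _, ?_, ?_, ?_⟩
  · filter_upwards [h3.mem_nhds hs] with x hx using (h5 x hx).mul continuousAt_const
  · filter_upwards [prod_mem_nhds (h1.mem_nhds h2) (h3.mem_nhds hs)] with p hp
    rw [h6 _ hp.1 _ hp.2, mul_assoc]
  · exact (HolAt.comp (u := fun x => (τ x)⁻¹ • x) (hY.act (τ s) _)
      ((h5 s hs).inv.smul continuousAt_id) h7).congr
      (Eventually.of_forall fun x => by simp only [mul_inv_rev, inv_inv, mul_smul])

/-- translating the base point -/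
theorem smul (h : Coc Y ι τ t) (hY : IsAS Y ι) (g : Y.G) :
    Coc Y ι (fun x => g * τ (g⁻¹ • x) * g⁻¹) (g • t) := by
  have c : Tendsto (fun x => g⁻¹ • x) (𝓝 (g • t)) (𝓝 t) :=
    (continuous_const_smul g⁻¹).tendsto' _ _ (inv_smul_smul g t)
  refine ⟨by rw [inv_smul_smul, h.one, mul_one, mul_inv_cancel], ?_, ?_, ?_⟩
  · exact (c.eventually h.cont).mono fun s hs => (continuousAt_const.mul
      (hs.comp (continuous_const_smul g⁻¹).continuousAt)).mul continuousAt_const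
  · refine (h.eqv' (g := fun p : Y.G × Y.T => g⁻¹ * p.1 * g) (Continuous.tendsto' (by fun_prop) _ _
      (by simp)) (c.comp (continuous_snd.tendsto (1, g • t)))).mono fun p hp => ?_
    simp only [comp_apply, mul_smul, smul_inv_smul] at hp
    rw [hp]
    group
  · refine (hY.hol_smul (g := g⁻¹) (f := fun x => ι (g • (τ x)⁻¹ • x)) ?_).congr
      (Eventually.of_forall fun x => by simp only [mul_inv_rev, inv_inv, mul_smul])
    rw [inv_smul_smul]
    exact h.hol_ret (hY.act g t)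

/-- two slices are exchanged by the retractions -/
theorem small (h : Coc Y ι τ t) (h' : Coc Y ι τ' t) (hY : IsAS Y ι) {Z : Set Y.T}
    (hZ : ∀ (g : Y.G) s, s ∈ Z → g • s ∈ Z) {k : ℕ}
    (e : ∃ U ∈ 𝓝 t, Small k (ι '' (U ∩ (Z ∩ {s | τ s = 1})))) :
    ∃ U ∈ 𝓝 t, Small k (ι '' (U ∩ (Z ∩ {s | τ' s = 1}))) := by
  haveI := hY.fd
  haveI := hY.complete
  obtain ⟨U, hU, h1⟩ := small_map hY.cont.continuousAt h'.hol e
  refine ⟨_, inter_mem (h.tendsto_ret hU) (h.τ_ret.and (h.ret_ret h')), h1.mono ?_⟩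
  rintro _ ⟨s, hs, rfl⟩
  refine ⟨_, ⟨hs.1.1, hZ _ _ hs.2.1, hs.1.2.1⟩, congrArg ι (hs.1.2.2.trans ?_)⟩
  rw [hs.2.2, inv_one, one_smul]

end Coc

theorem Dim.of_exists {m : ℕ} (hY : IsAS Y ι)
    (h : ∀ t, ∃ τ, Coc Y ι τ t ∧ ∃ U ∈ 𝓝 t, Small (2 * m) (ι '' (U ∩ {s | τ s = 1}))) :
    Dim Y ι m := fun t τ' h' => by
  obtain ⟨τ, h1, h2⟩ := h t
  simpa only [univ_inter] using h1.small h' hY (Z := univ) (fun _ _ _ => trivial)
    (by simpa only [univ_inter] using h2)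

theorem Dim.le {m m' : ℕ} (h : Dim Y ι m) (e : m ≤ m') : Dim Y ι m' := fun t τ h1 =>
  (h t τ h1).imp fun _ hU => ⟨hU.1, hU.2.le (by omega)⟩

theorem IsAS.dim (hY : IsAS Y ι) : Dim Y ι (Module.finrank ℂ A) := fun _ _ _ =>
  haveI := hY.fd
  ⟨univ, univ_mem, finrank_real A ▸ small_finrank _⟩

theorem HolQ.of_one (hY : IsAS Y ι) {f : Y.X → ℂ} (h : HolAt ι (fun s => f (Y.π s)) t) :
    HolQ ι Y.π f (Y.π t) := fun t' e => by
  obtain ⟨g, rfl⟩ := (Y.fib _ _).1 e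
  exact (hY.hol_smul h).congr (Eventually.of_forall fun s => by simp only [Y.π_smul])

theorem HolQ.eventually (hY : IsAS Y ι) {f : Y.X → ℂ} {x : Y.X} (h : HolQ ι Y.π f x) :
    ∀ᶠ y in 𝓝 x, HolQ ι Y.π f y := by
  obtain ⟨t, rfl⟩ := Y.surj x
  rw [← Y.quo.isOpenMap.map_nhds_eq Y.cont.continuousAt]
  exact ((h t rfl).eventually hY.cont.continuousAt).mono fun _ hs => HolQ.of_one hY hs

theorem HolQ.cont (hY : IsAS Y ι) {f : Y.X → ℂ} {x : Y.X} (h : HolQ ι Y.π f x) :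
    ContinuousAt f x := by
  obtain ⟨t, rfl⟩ := Y.surj x
  rw [ContinuousAt, ← Y.quo.isOpenMap.map_nhds_eq Y.cont.continuousAt]
  exact (h t rfl).cont hY.cont.continuousAt

theorem HolQ.congr {f f' : Y.X → ℂ} {x : Y.X} (h : HolQ ι Y.π f x) (e : f =ᶠ[𝓝 x] f') :
    HolQ ι Y.π f' x := fun t ht =>
  (h t ht).congr ((Y.cont.tendsto' t x ht).eventually e)

theorem HM.id : HM (Mor.id Y) ι ι := fun _ => HolAt.self

theorem HM.hol {h : Mor Y' Y} (hm : HM h ι' ι) {f : Y.T → B} {t : Y'.T} (hf : HolAt ι f (h.f t)) :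
    HolAt ι' (fun s => f (h.f s)) t := hf.comp h.cf.continuousAt (hm t)

theorem HM.comp {h : Mor Y' Y} {h' : Mor Y'' Y'} (hm : HM h ι' ι) (hm' : HM h' ι'' ι') :
    HM (h.comp h') ι'' ι := fun _ => hm'.hol (hm _)

theorem hm_subI (S : SubMulAction Y.G Y.T) (hS : IsLocallyClosed (S : Set Y.T)) :
    HM (Y.subI S hS) (fun s : S => ι s) ι := fun _ => HolAt.self

theorem HM.cod {h : Mor Y' Y} (hm : HM h ι' ι) (S : SubMulAction Y.G Y.T)
    (hS : IsLocallyClosed (S : Set Y.T)) (e : ∀ t, h.f t ∈ S) :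
    HM (h.cod S hS e) ι' (fun s : S => ι s) := hm

theorem HM.an {h : Mor Y' Y} (hm : HM h ι' ι) (hY : IsAS Y ι) (hY' : IsAS Y' ι') {Z : Set Y.T}
    {t : Y'.T} (e : An (ι '' Z) (ι (h.f t))) : An (ι' '' (h.f ⁻¹' Z)) (ι' t) :=
  hY'.an_of (hm t) e (Eventually.of_forall fun _ => hY.inj.mem_set_image.symm)

theorem HolQ.pull {h : Mor Y' Y} (hm : HM h ι' ι) {f : Y.X → ℂ} {x : Y'.X}
    (hf : HolQ ι Y.π f (h.map x)) : HolQ ι' Y'.π (fun z => f (h.map z)) x := fun t e => by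
  simp only [Mor.map_π]
  exact hm.hol (hf _ (by rw [← e, Mor.map_π]))

theorem HolM.comp {h : Mor Y' Y} (hm : HM h ι' ι) {M : CM} {φ : M.M → Y'.X}
    (hφ : HolM ι' Y'.π M φ) : HolM ι Y.π M fun z => h.map (φ z) :=
  fun y _ hf => hφ y _ (hf.pull hm)

theorem Ty.pull {h : Mor Y' Y} (hm : HM h ι' ι) {p q : ℕ} {c : H Y.X} (hc : Ty ι Y.π p q c) :
    Ty ι' Y'.π p q (H.map h.map c) :=
  ⟨hc.1.map _, fun M φ hφ => by rw [H.map_map]; exact hc.2 M _ (hφ.comp hm)⟩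

theorem Wk.pull {h : Mor Y' Y} (hm : HM h ι' ι) {p q : ℕ} {c : H Y.X} (hc : Wk Y ι p q c) :
    Wk Y' ι' p q (H.map h.map c) :=
  ⟨hc.1.map _, fun Z _ B _ _ j k m p' q' β h1 h2 h3 h4 h5 => by
    rw [H.map_map, ← Mor.map_comp]
    exact hc.2 Z B j _ m p' q' β h1 h2 (hm.comp h3) h4 h5⟩

theorem IsAS.sub (hY : IsAS Y ι) {S : SubMulAction Y.G Y.T} (hS : IsLocallyClosed (S : Set Y.T))
    (h : ∀ t ∈ S, An (ι '' S) (ι t)) : IsAS (Y.sub S hS) (fun s : S => ι s) :=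
  ⟨hY.fd, hY.emb.comp IsEmbedding.subtypeVal,
    fun t => (image_eq_range ι (S : Set Y.T)) ▸ h _ t.2,
    fun g t => (hm_subI S hS).hol (hY.act g t.1),
    fun t => (hY.coc t.1).elim fun _ e => ⟨_, e.sub hS t.2⟩⟩

/-- The dimension of an invariant analytic subset. -/
theorem dim_sub (hY : IsAS Y ι) {S : SubMulAction Y.G Y.T} (hS : IsLocallyClosed (S : Set Y.T))
    (h : ∀ t ∈ S, An (ι '' S) (ι t)) {m : ℕ} (e : ∀ t ∈ S, ∃ τ, Coc Y ι τ t ∧
      ∃ U ∈ 𝓝 t, Small (2 * m) (ι '' (U ∩ (S ∩ {s | τ s = 1})))) :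
    Dim (Y.sub S hS) (fun s : S => ι s) m :=
  Dim.of_exists (hY.sub hS h) fun t => by
    obtain ⟨τ, h1, U, hU, h2⟩ := e _ t.2
    refine ⟨_, h1.sub hS t.2, _, continuous_subtype_val.continuousAt hU, h2.mono ?_⟩
    rintro _ ⟨s, hs, rfl⟩
    exact ⟨s.1, ⟨hs.1, s.2, hs.2⟩, rfl⟩

theorem stSub : StSub := fun _ _ _ _ _ hY _ hS h =>
  ⟨hY.sub hS h, fun _ hm => dim_sub hY hS h fun t _ => by
    obtain ⟨τ, h1⟩ := hY.coc t
    obtain ⟨U, hU, h2⟩ := hm t τ h1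
    exact ⟨τ, h1, U, hU, h2.mono (image_mono fun s hs => ⟨hs.1, hs.2.2⟩)⟩⟩

theorem stDropA (hD : StDrop) : StDropA := fun Y A _ _ ι hY S hS m h hc e =>
  dim_sub hY hS h fun t ht => by
    haveI := hY.fd
    obtain ⟨τ, h1, U, hU, h2⟩ := e t ht
    refine ⟨τ, h1, (small_image_iff hY.emb).2 (hD A _ _ _ _ (h1.an_slice hY)
      ((h t ht).image_inter hY.inj (h1.an_slice hY)) ?_ ?_)⟩
    · refine ((ev_emb hY.emb).1 (h1.ret_cont.and h1.τ_ret.eventually_nhds)).mono ?_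
      rintro _ hz ⟨s, hs, rfl⟩
      obtain ⟨h3, h4⟩ := hz s rfl
      rw [← image_sdiff hY.inj]
      refine image_closure_subset_closure_image hY.cont (mem_image_of_mem ι ?_)
      have h5 : (τ s)⁻¹ • s = s := by rw [hs.2, inv_one, one_smul]
      rw [← h5]
      refine mem_closure_of_frequently_of_tendsto ?_ h3
      exact ((mem_closure_iff_frequently.1 (hc hs.1)).and_eventually h4).mono fun x hx =>
        ⟨hx.2, fun h6 => hx.1 (by simpa using S.smul_mem (τ x) h6.1)⟩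
    · rw [← image_sdiff hY.inj]
      exact (small_image_iff hY.emb).1 ⟨U, hU, h2.mono (image_mono fun s hs =>
        ⟨⟨hs.1, fun h3 => hs.2.2 ⟨h3, hs.2.1⟩⟩, hs.2.1⟩)⟩

end Vale.Agent.P287Q.H3
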