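import Vale.Agent.P269.Orb.Vir3
import Vale.Agent.P269.Orb.Dim
import Vale.Agent.P269.Loc.Lam

/-!
# The closure of the graph of a Kuranishi section (definitions)
-/

namespace Vale.Agent.P287Q.H3.Cn

open Set Function Topology Filter P291Z P269 P269.Ch P269.Orb

variable {Y : Ch.Sp} (k : KP Y)

/-- the stabilising bundle `van ⊕ ℂ` -/
@[reducible] noncomputable def V : VB Y := k.vanB.sum (trivB Y ℂ)

/-- the ambient bundle `P ⊕ ℂ` over the total space of `van ⊕ ℂ` -/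
@[reducible] noncomputable def E : VB (V k).tot := (k.P.pb (V k).proj).sum (trivB _ ℂ)

/-- the section `(t, v, c) ↦ (s t - v, c)` -/
noncomputable def sig (y : (V k).V) : k.P.W × ℂ := (k.s y.1.1 - y.1.2.1, y.1.2.2)

theorem isSec_sig : (E k).IsSec (sig k) :=
  ⟨fun y => ⟨sub_mem (k.sec.mem _) (k.van_le _ y.2.1), trivial⟩,
    ((k.sec.cont.comp (continuous_fst.comp continuous_subtype_val)).sub
      (continuous_fst.comp (continuous_snd.comp continuous_subtype_val))).prodMk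
      (continuous_snd.comp (continuous_snd.comp continuous_subtype_val)),
    fun (g : Y.G) (y : (V k).V) => Prod.ext
      ((congrArg (fun w : k.P.W => w - g • (y.1.2.1 : k.P.W)) (k.sec.eqv g y.1.1)).trans
        (smul_sub g (k.s y.1.1) (y.1.2.1 : k.P.W)).symm) rfl⟩

theorem sig_cont : Continuous (sig k) := (isSec_sig k).cont

variable {k} in
theorem sig_eq_zero {y : (V k).V} : sig k y = 0 ↔ y.1.2 = (k.s y.1.1, 0) :=
  ⟨fun h => Prod.ext (sub_eq_zero.1 (Prod.ext_iff.1 h).1).symm (Prod.ext_iff.1 h).2,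
    fun h => Prod.ext (sub_eq_zero.2 (Prod.ext_iff.1 h).1.symm) (Prod.ext_iff.1 h).2⟩

variable {k} in
theorem mem_Zs {y : (V k).V} (h : sig k y = 0) : y.1.1 ∈ k.Zs :=
  show k.s y.1.1 ∈ k.van y.1.1 from (congrArg Prod.fst (sig_eq_zero.1 h)).subst y.2.1

variable {k} in
theorem sig_smul_eq_zero (g : Y.G) {y : (V k).V} : sig k (g • y) = 0 ↔ sig k y = 0 :=
  (iff_of_eq (congrArg (· = 0) ((isSec_sig k).eqv g y))).trans
    (smul_eq_zero_iff_eq (β := (E k).W) (α := (V k).tot.G) g)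

/-- the graph of the section -/
def Gr : Set (E k).PT := {x | sig k x.t ≠ 0 ∧ ∃ c : ℂ, x.w = c • sig k x.t}

theorem smul_mem_Gr (g : (V k).tot.G × ℂˣ) {x : (E k).PT} (h : x ∈ Gr k) : g • x ∈ Gr k := by
  obtain ⟨h0, c, hc⟩ := h
  refine ⟨fun e => h0 ((sig_smul_eq_zero (k := k) g.1 (y := x.t)).1 e), g.2 * c, ?_⟩
  have h1 : ∀ w u : (E k).W, w = c • u → (g.2 : ℂ) • g.1 • w = ((g.2 : ℂ) * c) • g.1 • u :=
    fun w u e => by rw [e, mul_smul, smul_comm g.1 c]
  exact (h1 _ _ hc).trans (congrArg (fun w : (E k).W => ((g.2 : ℂ) * c) • w)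
    ((isSec_sig k).eqv g.1 x.t).symm)

/-- the closure of the graph -/
def BlS : SubMulAction (E k).PS.G (E k).PS.T where
  carrier := closure (X := (E k).PS.T) (Gr k)
  smul_mem' g _ h := map_mem_closure (f := fun x : (E k).PS.T => g • x) (continuous_const_smul g) h
    fun _ => smul_mem_Gr k g

theorem isClosed_BlS : IsClosed (BlS k : Set (E k).PS.T) := isClosed_closure

variable (S : SubMulAction Y.G Y.T)

/-- the part of the exceptional locus over `S` -/
def DS : SubMulAction (E k).PS.G (E k).PS.T where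
  carrier := {x | x ∈ BlS k ∧ sig k (VB.PT.t x) = 0 ∧ (VB.PT.t x).1.1 ∈ S}
  smul_mem' g x h := ⟨(BlS k).smul_mem g h.1,
    (sig_smul_eq_zero (k := k) g.1 (y := VB.PT.t x)).2 h.2.1, S.smul_mem (g.1 : Y.G) h.2.2⟩

variable {S} (hS : IsLocallyClosed (S : Set Y.T))

include hS in
theorem lc_DS : IsLocallyClosed (DS k S : Set (E k).PS.T) :=
  (isClosed_BlS k).isLocallyClosed.inter
    ((isClosed_eq ((sig_cont k).comp (E k).pp.cf) continuous_const).isLocallyClosed.inter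
      (hS.preimage ((V k).proj.comp (E k).pp).cf))

/-- the part of the exceptional locus over `S` as a space -/
noncomputable def D : Ch.Sp := (E k).PS.sub (DS k S) (lc_DS k hS)

/-- the inclusion -/
noncomputable def dI : Mor (D k hS) (E k).PS := (E k).PS.subI _ _

/-- the projection to `S` -/
noncomputable def g : Mor (D k hS) (Y.sub S hS) :=
  ((V k).proj.comp ((E k).pp.comp (dI k hS))).cod S hS fun x => x.2.2.2

/-- the character of `O(1)` -/
noncomputable def o1 : (D k hS).G →ₜ* ℂˣ := (E k).o1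

/-- the bundle `obs ⊕ ℂ` -/
noncomputable def ob (hZ : ∀ t, (Y.subI S hS).f t ∈ k.Zs) : VB (D k hS) :=
  ((k.obsB (Y.subI S hS) hZ).sum (trivB _ ℂ)).pb (g k hS)

/-- **The excess formula on the closure of the graph.** -/
def St : Prop := ∀ (Y : Ch.Sp) (d : ℕ) (k : KP Y) (S : SubMulAction Y.G Y.T)
  (hS : IsLocallyClosed (S : Set Y.T)) (hZ : ∀ t, (Y.subI S hS).f t ∈ k.Zs)
  [CompactSpace (Y.sub S hS).X] (β : BM Y.X), k.IsZ (Y.subI S hS).map →
  CD (2 * d) (univ : Set Y.X) → CD (2 * (d + k.v : ℕ)) (univ : Set (D k hS).X) →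
  BM.IsDeg (2 * d) β →
  ∃ (γ : BM (D k hS).X) (N : VB (D k hS)) (A : (D k hS).T → N.W →ₗ[ℂ] (ob k hS hZ).W)
    (B : (D k hS).T → (ob k hS hZ).W →ₗ[ℂ] ℂ),
    BM.IsDeg (2 * (d + k.v : ℕ)) γ ∧ N.r = k.v + k.r ∧
    Exact N (ob k hS hZ) (char (o1 k hS)⁻¹) A B ∧
    ∀ η, Loc.intg (k.vir (Y.subI S hS).map β) η =
      Loc.intg γ (N.eu.1 * H.map (g k hS).map η)

end Vale.Agent.P287Q.H3.Cn
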