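import Vale.Agent.P287Q.H3.ConeA0
import Vale.Agent.P287Q.H3.ConeD
import Vale.Agent.P287Q.H3.A1

/-!
# Virtual classes of holomorphic Kuranishi presentations have Hodge type
-/

namespace Vale.Agent.P287Q.H3

open Set Function Topology Filter P291Z P269 P269.Ch P269.Holo P269.Mono P269.Orb

namespace CnA

variable {A A' : Type} [NormedAddCommGroup A] [NormedSpace ℂ A] [NormedAddCommGroup A']
  [NormedSpace ℂ A'] {Y Y' : Ch.Sp} {ι : Y.T → A} {ι' : Y'.T → A'}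

theorem mor_tendsto (m : Mor Y' Y) (t : Y'.T) : Tendsto (fun p : Y'.G × Y'.T => (m.ρ p.1, m.f p.2))
    (𝓝 (1, t)) (𝓝 (1, m.f t)) :=
  (m.cρ.prodMap m.cf).tendsto' _ _ (Prod.ext (map_one m.ρ) rfl)

theorem hv_pb {m : Mor Y' Y} (hm : HM m ι' ι) {E : VB Y} (h : HV E ι) : HV (E.pb m) ι' := fun t => by
  obtain ⟨ψ, h1, h2, h3⟩ := h (m.f t)
  exact ⟨fun s => ψ (m.f s), hm.hol h1, m.cf.continuousAt.eventually h2,
    ((mor_tendsto m t).eventually h3).mono fun p hp a =>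
      (congrArg (fun s => ψ s a) (m.eqv p.1 p.2)).trans (hp a)⟩

theorem hv_chr {m : Mor Y' Y} (hm : HM m ι' ι) {χ : Y.G →ₜ* ℂˣ} (h : HV (char χ) ι) :
    HV (char (m.chr χ)) ι' := fun t => by
  obtain ⟨ψ, h1, h2, h3⟩ := h (m.f t)
  exact ⟨fun s => ψ (m.f s), hm.hol h1, m.cf.continuousAt.eventually h2,
    ((mor_tendsto m t).eventually h3).mono fun p hp a =>
      (congrArg (fun s => ψ s a) (m.eqv p.1 p.2)).trans (hp a)⟩

theorem hv_triv : HV (trivB Y ℂ) ι := fun _ => by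
  let e : (Fin (Module.finrank ℂ ℂ) → ℂ) ≃L[ℂ] ℂ := ContinuousLinearEquiv.ofFinrankEq (by simp)
  exact ⟨fun _ => e.toContinuousLinearMap, HolAt.const _, Eventually.of_forall fun _ w =>
    iff_of_true trivial (e.surjective w), Eventually.of_forall fun _ _ => rfl⟩

theorem hv_sum {E E' : VB Y} (h : HV E ι) (h' : HV E' ι) : HV (E.sum E') ι := fun t => by
  obtain ⟨ψ, h1, h2, h3⟩ := h t
  obtain ⟨ψ', k1, k2, k3⟩ := h' t
  let p : (Fin (E.r + E'.r) → ℂ) →L[ℂ] (Fin E.r → ℂ) :=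
    ContinuousLinearMap.pi fun i => ContinuousLinearMap.proj (Fin.castAdd _ i)
  let p' : (Fin (E.r + E'.r) → ℂ) →L[ℂ] (Fin E'.r → ℂ) :=
    ContinuousLinearMap.pi fun i => ContinuousLinearMap.proj (Fin.natAdd _ i)
  refine ⟨fun s => ((ψ s).comp p).prod ((ψ' s).comp p'), ?_, ?_, ?_⟩
  · exact (((HolAt.const (ContinuousLinearMap.inl ℂ E.W E'.W)).clm_comp
      (h1.clm_comp (HolAt.const p))).add ((HolAt.const (ContinuousLinearMap.inr ℂ E.W E'.W)).clm_comp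
        (k1.clm_comp (HolAt.const p')))).congr (Eventually.of_forall fun s =>
          ContinuousLinearMap.ext fun a => Prod.ext (add_zero _) (zero_add _))
  · filter_upwards [h2, k2] with s a b w
    refine ⟨fun c => ?_, fun ⟨x, hx⟩ => ⟨(a _).2 ⟨p x, congrArg Prod.fst hx⟩,
      (b _).2 ⟨p' x, congrArg Prod.snd hx⟩⟩⟩
    obtain ⟨x, hx⟩ := (a _).1 c.1
    obtain ⟨y, hy⟩ := (b _).1 c.2
    exact ⟨Fin.append x y, Prod.ext ((congrArg (ψ s) (funext (Fin.append_left x y))).trans hx)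
      ((congrArg (ψ' s) (funext (Fin.append_right x y))).trans hy)⟩
  · filter_upwards [h3, k3] with q a b x using Prod.ext (a _) (b _)

theorem cd_dim (hQ : StQuot) (hY : IsAS Y ι) {m : ℕ} (hd : Dim Y ι m) :
    CD (2 * m) (univ : Set Y.X) := by
  refine CD.of_locally fun x _ => ?_
  obtain ⟨N, k, V, Ω, h, φ, h1, h2, h3⟩ := hQ Y A ι hY m hd x
  have : Nice V := Nice.of_isLocallyClosed h2.isOpen.isLocallyClosed
  refine ⟨V, h2.isOpen.mem_nhds h1, CD.mono (CD.image_emb IsEmbedding.subtypeVal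
    (h3.cd.preimage h2.emb)) fun y hy => ⟨⟨y, hy.2⟩, ⟨y, hy.2, rfl⟩, rfl⟩⟩

theorem wk_zero (hZ : StZero) (hY : IsAS Y ι) [CompactSpace Y.X] {m p q : ℕ} (hd : Dim Y ι m)
    {ζ : H Y.X} (h : Wk Y ι p q ζ) (hb : Big m p q) : ζ = 0 := by
  have h1 := h.2 Y A ι (Mor.id Y) m 0 0 1 hY hd HM.id ⟨H.isDeg_one, fun M φ _ =>
    (hZ M).1 _ (H.isDeg_one.map φ)⟩ hb
  rwa [mul_one, H.map_id (Mor.map_id Y)] at h1

theorem good_neg {k : ℕ} {η : Hev Y.X} (h : Good Y ι k η) : Good Y ι k (-η) :=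
  ⟨neg_mem h.1, fun p q ζ hζ => by
    have e : (-η).1 * ζ = -(η.1 * ζ) := neg_mul _ _
    refine ⟨(show 2 * (k : ℤ) + (p + q : ℕ) = (p + k + (q + k) : ℕ) by push_cast; ring) ▸
      (Hev.mem_deg.1 (neg_mem h.1)).mul hζ.1, fun Z _ B _ _ j f m p' q' β a b c d g => ?_⟩
    rw [e, map_neg, neg_mul, (h.2 p q ζ hζ).2 Z B j f m p' q' β a b c d g, neg_zero]⟩

theorem goodP_inv {χ : Y.G →ₜ* ℂˣ} (h : GoodP Y ι 1 (char χ).chern) :
    GoodP Y ι 1 (char χ⁻¹).chern := by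
  rw [chern_char] at h ⊢
  refine ⟨mon_X_add_C _, fun j k e => ?_⟩
  have h1 := h.2 j k e
  rcases j with _ | _ | j
  · simp only [Polynomial.coeff_add, Polynomial.coeff_X_zero, Polynomial.coeff_C_zero, zero_add]
      at h1 ⊢
    rw [c1_inv]
    exact good_neg h1
  · simpa only [Polynomial.coeff_add, Polynomial.coeff_C_succ] using h1
  · omega

variable {k : KP Y} {S : SubMulAction Y.G Y.T} {hS : IsLocallyClosed (S : Set Y.T)}

theorem mem_S {t : Y.T} : Y.π t ∈ range (Y.subI S hS).map ↔ t ∈ S := by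
  rw [Sp.range_subI]
  exact Y.isQuo.mem_image fun g t => S.smul_mem g

theorem compact_D (hi : k.IsZ (Y.subI S hS).map) (hZ : ∀ t, (Y.subI S hS).f t ∈ k.Zs)
    [CompactSpace (Y.sub S hS).X] : CompactSpace (Cn.D k hS).X := by
  have hc : IsClosed (S : Set Y.T) :=
    (Set.ext fun _ => mem_S : Y.π ⁻¹' range (Y.subI S hS).map = S) ▸
      hi.emb.isClosed_range.preimage Y.cont
  have hD : IsClosed (Cn.DS k S : Set (Cn.E k).PS.T) := (Cn.isClosed_BlS k).inter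
    ((isClosed_eq ((Cn.sig_cont k).comp (Cn.E k).pp.cf) continuous_const).inter
      (hc.preimage ((Cn.V k).proj.comp (Cn.E k).pp).cf))
  let z : Mor (Y.sub S hS) (Cn.V k).tot := ⟨MonoidHom.id _,
    fun t : S => (⟨(t.1, (k.s t.1, 0)), hZ t, trivial⟩ : (Cn.V k).V), continuous_id,
    (continuous_subtype_val.prodMk ((k.sec.cont.comp continuous_subtype_val).prodMk
      continuous_const)).subtype_mk _,
    fun g t => Subtype.ext (Prod.ext rfl (Prod.ext (k.sec.eqv g t.1) rfl))⟩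
  refine ⟨((Sp.isClosedEmbedding_subI hD).isCompact_preimage ((Cn.E k).isPr_pp.pre _
    (isCompact_range z.map.continuous))).of_isClosed_subset isClosed_univ fun x _ => ?_⟩
  obtain ⟨x, rfl⟩ := Sp.surj _ x
  rw [mem_preimage, mem_preimage, Mor.map_π, Mor.map_π]
  exact ⟨_, (z.map_π (⟨_, x.2.2.2⟩ : S)).trans (congrArg _ (Subtype.ext
    (Prod.ext rfl (Cn.sig_eq_zero.1 x.2.2.1).symm)))⟩

theorem ev_D (hi : k.IsZ (Y.subI S hS).map) (x : (Cn.E k).PT) (hx : x ∈ Cn.DS k S) :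
    ∀ᶠ y : (Cn.E k).PT in 𝓝 x, y ∈ Cn.DS k S ↔ y ∈ closure (Cn.Gr k) ∧ Cn.sig k y.t = 0 :=
  ((Y.cont.comp ((Cn.V k).proj.comp (Cn.E k).pp).cf).continuousAt.eventually
    (hi.isol _ (mem_S.2 hx.2.2))).mono fun _ hy => ⟨fun h => ⟨h.1, h.2.1⟩,
      fun h => ⟨h.1, h.2, mem_S.1 (hy (KP.mem_Z.2 (Cn.mem_Zs h.2)))⟩⟩

variable (k ι) in
/-- coordinates on the total space -/
noncomputable def i2 : (Cn.V k).tot.T → A × (Cn.V k).W := fun x : (Cn.V k).V => (ι x.1.1, x.1.2)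

variable (k ι) in
/-- coordinates on the projective bundle -/
noncomputable def i3 : (Cn.E k).PS.T → (A × (Cn.V k).W) × (Cn.E k).W :=
  fun x : (Cn.E k).PT => (i2 ι k x.t, x.w)

variable (k ι hS) in
/-- coordinates on the exceptional set -/
noncomputable def iD : (Cn.D k hS).T → (A × (Cn.V k).W) × (Cn.E k).W :=
  fun x : Cn.DS k S => i3 ι k x.1

theorem hol_sig (h : HM (Cn.V k).proj (i2 ι k) ι) (hs : ∀ t, HolAt ι k.s t) (y : (Cn.V k).tot.T) :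
    HolAt (B := (Cn.E k).W) (i2 ι k) (Cn.sig k) y := by
  have h0 : HolAt (i2 ι k) (fun x : (Cn.V k).V => x.1.2) y := HolAt.of_an analyticAt_snd
  have h1 := h0.clm (ContinuousLinearMap.fst ℂ k.P.W (trivB Y ℂ).W)
  have h2 := h0.clm (ContinuousLinearMap.snd ℂ k.P.W (trivB Y ℂ).W)
  have h3 := ((h.hol (hs _)).sub h1).prod h2
  exact h3

theorem as_V (hTot : StTot) (hY : IsAS Y ι) {d : ℕ} (hd : Dim Y ι d) (hV : HV k.vanB ι) :
    IsAS (Cn.V k).tot (i2 ι k) ∧ HM (Cn.V k).proj (i2 ι k) ι ∧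
      Dim (Cn.V k).tot (i2 ι k) (d + k.v + 1) := by
  obtain ⟨a1, a2, a3⟩ := hTot Y A ι hY (Cn.V k) (hv_sum hV hv_triv)
  exact ⟨a1, a2, (a3 d hd).le (le_of_eq (show d + (k.v + Module.finrank ℂ ℂ) = _ by
    rw [Module.finrank_self, add_assoc]))⟩

theorem as_P (hPS : StPS) (a1 : IsAS (Cn.V k).tot (i2 ι k)) (a2 : HM (Cn.V k).proj (i2 ι k) ι)
    (hP : HV k.P ι) : IsAS (Cn.E k).PS (i3 ι k) ∧ HM (Cn.E k).pp (i3 ι k) (i2 ι k) ∧
      HV (char (Cn.E k).o1) (i3 ι k) := by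
  obtain ⟨b1, b2, b3, -⟩ := hPS _ _ _ a1 (Cn.E k) (hv_sum (hv_pb a2 hP) hv_triv)
  exact ⟨b1, b2, b3⟩

theorem as_D (hC : StClo) (hD : StDrop) (a1 : IsAS (Cn.V k).tot (i2 ι k))
    (a2 : HM (Cn.V k).proj (i2 ι k) ι) (b1 : IsAS (Cn.E k).PS (i3 ι k)) {m : ℕ}
    (a4 : Dim (Cn.V k).tot (i2 ι k) (m + 1)) (hs : ∀ t, HolAt ι k.s t)
    (hi : k.IsZ (Y.subI S hS).map) :
    IsAS (Cn.D k hS) (iD ι k hS) ∧ Dim (Cn.D k hS) (iD ι k hS) m := by
  obtain ⟨c1, c2⟩ := exc (E := Cn.E k) (G := Cn.Gr k) hC hD a1 b1 (Cn.isSec_sig k) (hol_sig a2 hs)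
    (fun _ => Iff.rfl) a4 (Cn.DS k S) (Cn.lc_DS k hS) (ev_D hi)
  exact ⟨b1.sub (Cn.lc_DS k hS) c1, c2⟩

theorem hm_dI : HM (Cn.dI k hS) (iD ι k hS) (i3 ι k) := fun _ => HolAt.self

theorem hm_g (a2 : HM (Cn.V k).proj (i2 ι k) ι) (b2 : HM (Cn.E k).pp (i3 ι k) (i2 ι k)) :
    HM (Cn.g k hS) (iD ι k hS) fun s : S => ι s := (a2.comp (b2.comp hm_dI)).cod S hS _

theorem hv_o1 (b3 : HV (char (Cn.E k).o1) (i3 ι k)) : HV (char (Cn.o1 k hS)) (iD ι k hS) := by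
  have e : (Cn.dI k hS).chr (Cn.E k).o1 = Cn.o1 k hS := ContinuousMonoidHom.ext fun _ => rfl
  rw [← e]
  exact hv_chr hm_dI b3

theorem good_eu (hCh : StChern) (hDv : StDiv) (hY : IsAS Y ι) {N E : VB Y} {χ : Y.G →ₜ* ℂˣ}
    {a : Y.T → N.W →ₗ[ℂ] E.W} {b : Y.T → E.W →ₗ[ℂ] ℂ} (h : Exact N E (char χ⁻¹) a b)
    (hE : HV E ι) (hχ : HV (char χ) ι) (hr : E.r = 1 + N.r) : Good Y ι N.r N.eu := by
  have g1 := hCh Y A ι hY E hE
  rw [h.chern, mul_comm, hr] at g1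
  have g3 := (hDv Y A ι hY 1 N.r _ _ g1 (goodP_inv (hCh Y A ι hY _ hχ)) N.chern_mon fun j l e => by
    have h := N.chern_deg j
    rwa [← e, Nat.cast_add, add_sub_cancel_left] at h).2 0 N.r (zero_add _)
  rwa [VB.chern_coeff_zero] at g3

end CnA

open CnA

/-- **Virtual classes of holomorphic Kuranishi presentations have Hodge type.** -/
theorem stCone (hT : Cn.St) (hC : StClo) (hD : StDrop) (hQ : StQuot) (hZ : StZero) (hPS : StPS)
    (hTot : StTot) (hCh : StChern) (hDv : StDiv) : StCone := by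
  intro Y A _ _ ι hY d k S hS hz _ β p q η hd hP hV hs hi hO hβ hη hpq
  by_cases hdeg : ((p + q : ℕ) : ℤ) = 2 * d - 2 * k.r
  swap
  · have := hi.nice
    exact Loc.intg_deg (KP.vir_deg hβ k _) hη.1 hdeg
  obtain ⟨a1, a2, a3⟩ := as_V hTot hY hd hV
  obtain ⟨b1, b2, b3⟩ := as_P hPS a1 a2 hP
  obtain ⟨c1, c2⟩ := as_D hC hD a1 a2 b1 a3 hs hi
  have c3 := hm_g (hS := hS) a2 b2
  have := compact_D hi hz
  obtain ⟨γ, N, A', B', -, e1, e2, e3⟩ := hT Y d k S hS hz β hi (cd_dim hQ hY hd)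
    (cd_dim hQ c1 c2) hβ
  have g := good_eu hCh hDv c1 e2 (hv_pb c3 (hv_sum hO hv_triv)) (hv_o1 b3) (by
    rw [e1, add_comm, ← Module.finrank_self ℂ]; rfl)
  rw [e3, wk_zero hZ c1 c2 (g.2 p q _ (hη.pull c3)) (by rw [e1]; constructor <;> omega), map_zero]

end Vale.Agent.P287Q.H3
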