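import Vale.Agent.P287Q.H3.ConeD

/-!
# The excess formula on the closure of the graph of a Kuranishi section
-/

set_option linter.unusedSectionVars false

namespace Vale.Agent.P287Q.H3.Cn

open Set Function Topology Filter P291Z P269 P269.Ch P269.Orb

section top

variable {X X' B B' Z C U : Type} [TopologicalSpace X] [TopologicalSpace X'] [TopologicalSpace B]
  [TopologicalSpace B'] [TopologicalSpace Z] [TopologicalSpace C] [TopologicalSpace U]

/-- classes of top degree lift to modifications -/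
theorem exists_push [Nice X] [Nice B] [Nice U] {f : B → X} (hf : IsPr f) {i : Z → X}
    (hi : IsClosedEmbedding i) {i' : C → B} (hi' : IsClosedEmbedding i') {j : U → X}
    (hj : IsOpenEmbedding j) {j' : U → B} (hj' : IsOpenEmbedding j') (hc : range j = (range i)ᶜ)
    (hc' : range j' = (range i')ᶜ) (hsq : ∀ u, f (j' u) = j u) (hr : f ⁻¹' range j ⊆ range j')
    {n : ℤ} (hC : Top C (n - 2)) (hZ : Top Z (n - 1)) {β : BM X} (hβ : BM.IsDeg n β) :
    ∃ β' : BM B, BM.IsDeg n β' ∧ push f β' = β := by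
  obtain ⟨β', h1, h2⟩ := exists_res_of_top hi' hj' hc' hC (hβ.res j)
  exact ⟨β', h1, eq_of_res_of_top hi hj hc hZ (h1.push f) hβ (by
    rw [res_push hj hj' hf IsPr.id hsq hr, push_id', h2])⟩

theorem isPr_res [T2Space X] {a : B' → B} (ha : IsEmbedding a) {φ : X' → X} (hφ : IsEmbedding φ)
    {p : B → X} (hp : IsPr p) {A : Set B} (hA : IsClosed A) {f : B' → X'}
    (hsq : ∀ x, φ (f x) = p (a x)) (h1 : range a ⊆ A) (h2 : A ∩ p ⁻¹' range φ ⊆ range a) :
    IsPr f := by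
  refine ⟨hφ.continuous_iff.2 ((funext hsq : φ ∘ f = p ∘ a) ▸ hp.cont.comp ha.continuous),
    fun K hK => ?_⟩
  have h3 := ha.isInducing.isCompact_preimage' ((hp.pre _ (hK.image hφ.continuous)).inter_left hA)
    fun x hx => h2 ⟨hx.1, image_subset_range _ _ hx.2⟩
  refine (Set.ext fun x => ⟨fun hx => ?_, fun hx => ⟨h1 ⟨x, rfl⟩, _, hx, hsq x⟩⟩ :
    a ⁻¹' (A ∩ p ⁻¹' (φ '' K)) = f ⁻¹' K) ▸ h3
  obtain ⟨y, hy, e⟩ := hx.2
  exact show f x ∈ K from (hφ.injective (e.trans (hsq x).symm) : y = f x) ▸ hy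

end top

variable {Y : Ch.Sp}

/-- the Thom isomorphism is onto -/
theorem exists_thom (W : VB Y) {n : ℤ} {β : BM Y.X} (hβ : BM.IsDeg n β) :
    ∃ β' : BM W.tot.X, BM.IsDeg (n + 2 * W.r) β' ∧ gys W.zero.map W.th β' = β := by
  have h1 : IsClosedEmbedding W.zero.map := W.isSec_zero.isClosedEmbedding
  have h2 : supp W.th ⊆ range W.zero.map := W.th_supp.trans W.range_zero.ge
  obtain ⟨γ, hγ⟩ := LinearMap.dualMap_surjective_of_injective
    (W.isOVB.gys_bijective W.isThom h1 W.isSec_zero.proj_map h2).1 β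
  refine ⟨(Hc.comp _).dualMap γ, BM.isDeg_comp _ γ, LinearMap.ext fun c => ?_⟩
  rw [gys_apply, cgys_eq h1 W.th_cocycle h2, LinearMap.dualMap_apply, Hc.comp_map
    (fun k c h => Hc.gys_deg h1 W.th_cocycle h2 W.th_deg h), ← hβ.comp, ← hγ]
  rfl

variable (k : KP Y)

/-- the stabilised presentation -/
noncomputable def k2 : KP (V k).tot where
  P := E k
  van _ := ⊥
  obs y := ((k.obs ((V k).proj.f y)).prod ⊤ : Submodule ℂ (k.P.W × ℂ))
  s := sig k
  v := 0
  r := (V k).r + k.r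
  sec := isSec_sig k
  van_closed := isClosed_eq continuous_snd continuous_const
  van_rank _ := finrank_bot ℂ _
  van_inv g t w hw := by rw [(Submodule.mem_bot ℂ).1 hw, smul_zero]; exact zero_mem _
  van_le _ := bot_le
  obs_closed := by
    have h := (isClosed_eq ((sig_cont k).comp continuous_fst) (continuous_const (y := 0))).inter
      (k.obs_closed.preimage (f := fun x : (V k).tot.T × (E k).W => ((V k).proj.f x.1, x.2.1))
        (((V k).proj.cf.comp continuous_fst).prodMk (continuous_fst.comp continuous_snd)))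
    refine (congrArg IsClosed (Set.ext fun x => ?_)).mp h
    exact ⟨fun h => ⟨h.1, h.2.2, trivial⟩, fun h => ⟨h.1, mem_Zs h.1, h.2.1⟩⟩
  obs_rank t h := (VB.finrank_prod (k.obs ((V k).proj.f t)) (⊤ : Submodule ℂ ℂ)).trans (by
    rw [k.obs_rank ((V k).proj.f t) (mem_Zs h), finrank_top]
    change k.v + k.r + Module.finrank ℂ ℂ = 0 + (k.v + Module.finrank ℂ ℂ + k.r)
    omega)
  obs_inv g t w h h' := ⟨k.obs_inv g _ _ (mem_Zs h) h'.1, trivial⟩
  le_obs _ _ := bot_le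
  obs_le t h _ h' := ⟨k.obs_le _ (mem_Zs h) h'.1, trivial⟩
  cone t w h h' := ⟨k.cone _ w.1 (mem_Zs h) (map_mem_closure
    (f := fun x : (V k).tot.T × (E k).W => ((V k).proj.f x.1, x.2.1))
    (((V k).proj.cf.comp continuous_fst).prodMk (continuous_fst.comp continuous_snd)) h' (by
      rintro ⟨y, u⟩ ⟨c, hc⟩
      have h1 : ∀ a b e : k.P.W, a - c • (b - e) = 0 → a - c • b = (-c) • e := fun a b e h => by
        rw [sub_eq_zero.1 h, smul_sub, sub_sub_cancel_left, neg_smul]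
      exact ⟨c, (h1 _ _ _ (Prod.ext_iff.1 hc).1).symm.subst
        ((k.van _).smul_mem _ (show (V k).V from y).2.1)⟩)), trivial⟩

theorem mem_obs {x : (E k).PT} (h : x ∈ closure (Gr k)) (h0 : sig k x.t = 0) :
    x.w.1 ∈ k.obs ((V k).proj.f x.t) :=
  ((k2 k).cone x.t x.w h0 (map_mem_closure (f := fun x : (E k).PT => (x.t, x.w))
    (VB.PT.continuous_t.prodMk VB.PT.continuous_w) h
      fun _ hx => hx.2.imp fun _ hc => sub_eq_zero.2 hc)).1

/-- the equation of the exceptional locus -/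
theorem exists_lam : ∃ lam : (E k).PS.T → ℂ, (char (E k).o1⁻¹).IsSec lam ∧
    ∀ x ∈ BlS k, lam x • VB.PT.w x = sig k (VB.PT.t x) := by
  obtain ⟨R, h1, h2, h3, h4⟩ := (E k).hom_taut.exists_retr fun x z _ => (E k).taut_inj x z
  have hR : Hom (Mor.id _) ((E k).pb (E k).pp) (char (E k).o1⁻¹) fun x => (R x).toLinearMap :=
    Hom.of_continuous (fun t w _ => h3 t w) ((h1.comp continuous_fst).clm_apply continuous_snd)
      fun g t w _ => h2 g t w
  let lam : (E k).PS.T → ℂ := fun x => R x (sig k (VB.PT.t x))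
  have h5 : (char (E k).o1⁻¹).IsSec lam := hR.isSec ((isSec_sig k).pb (E k).pp)
  have h8 : Continuous lam := h5.cont
  refine ⟨lam, h5, fun x hx => closure_minimal (t := {x : (E k).PS.T |
    lam x • VB.PT.w x = sig k (VB.PT.t x)}) ?_
    (isClosed_eq (h8.smul VB.PT.continuous_w) ((sig_cont k).comp (E k).pp.cf)) hx⟩
  rintro x ⟨-, c, hc⟩
  have h6 : c ≠ 0 := fun e => x.ne (hc.trans (by rw [e, zero_smul]; rfl))
  have h7 : sig k x.t = c⁻¹ • x.w :=
    (inv_smul_smul₀ h6 _).symm.trans (congrArg (fun w : (E k).W => c⁻¹ • w) hc.symm)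
  exact (congrArg (fun z : ℂ => z • x.w) ((congrArg (R x) h7).trans (h4 x (show ℂ from c⁻¹) trivial))).trans
    h7.symm

theorem mem_Gr {x : (E k).PT} (h : x ∈ closure (Gr k)) (h0 : sig k x.t ≠ 0) : x ∈ Gr k := by
  obtain ⟨lam, -, h1⟩ := exists_lam k
  have h2 : lam x • x.w = sig k x.t := h1 x h
  have h3 : lam x ≠ 0 := fun e => h0 (h2.symm.trans (by rw [e, zero_smul]; rfl))
  exact ⟨h0, (lam x)⁻¹, (inv_smul_smul₀ h3 _).symm.trans
    (congrArg (fun w : (E k).W => (lam x)⁻¹ • w) h2)⟩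

section loc

variable {S : SubMulAction Y.G Y.T} (hS : IsLocallyClosed (S : Set Y.T))
  {U : SubMulAction Y.G Y.T} (hU : IsOpen (U : Set Y.T))

include hU in
theorem open_U2 : IsOpen ((V k).proj.pre U : Set (V k).tot.T) := hU.preimage (V k).proj.cf

/-- the part of the total space over `U` -/
noncomputable def Y2 : Ch.Sp := (V k).tot.sub ((V k).proj.pre U) (open_U2 k hU).isLocallyClosed

/-- its inclusion -/
noncomputable def φ : Mor (Y2 k hU) (V k).tot := (V k).tot.subI _ _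

include hU in
theorem lc_B : IsLocallyClosed ((BlS k ⊓ ((V k).proj.comp (E k).pp).pre U :
    SubMulAction (E k).PS.G (E k).PS.T) : Set (E k).PS.T) :=
  (isClosed_BlS k).isLocallyClosed.inter (hU.preimage ((V k).proj.comp (E k).pp).cf).isLocallyClosed

/-- the part of the closure of the graph over `U` -/
noncomputable def B : Ch.Sp := (E k).PS.sub _ (lc_B k hU)

/-- its inclusion -/
noncomputable def a : Mor (B k hU) (E k).PS := (E k).PS.subI _ _

/-- its projection -/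
noncomputable def f : Mor (B k hU) (Y2 k hU) := ((E k).pp.comp (a k hU)).cod _ _ fun x => x.2.2

theorem φ_f (x : (B k hU).X) : (φ k hU).map ((f k hU).map x) = (E k).pp.map ((a k hU).map x) := by
  obtain ⟨x, rfl⟩ := Sp.surj _ x
  simp only [Mor.map_π]
  rfl

theorem isPr_f : IsPr (f k hU).map := by
  refine isPr_res (Sp.isEmbedding_subI _) (Sp.isEmbedding_subI _) (E k).isPr_pp
    ((E k).PS.isQuo.isClosed_image (fun g _ => (BlS k).smul_mem g) (isClosed_BlS k)) (φ_f k hU)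
    ((Sp.range_subI _).le.trans (image_mono inter_subset_left)) ?_
  rintro _ ⟨⟨x, hx, rfl⟩, h⟩
  rw [mem_preimage, Mor.map_π, Sp.range_subI, (V k).tot.isQuo.mem_image
    fun g _ => ((V k).proj.pre U).smul_mem g] at h
  exact (Sp.range_subI _).ge ⟨x, ⟨hx, h⟩, rfl⟩

/-- the points over `U` at which the section does not vanish -/
def W0 (U : SubMulAction Y.G Y.T) : SubMulAction (V k).tot.G (V k).tot.T where
  carrier := {y | (V k).proj.f y ∈ U ∧ sig k y ≠ 0}
  smul_mem' g y h := ⟨U.smul_mem (g : Y.G) h.1,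
    fun e => h.2 ((sig_smul_eq_zero (k := k) g (y := y)).1 e)⟩

include hU in
theorem open_W0 : IsOpen (W0 k U : Set (V k).tot.T) :=
  (open_U2 k hU).inter (isOpen_ne.preimage (sig_cont k))

/-- these points as a space -/
noncomputable def W : Ch.Sp := (V k).tot.sub (W0 k U) (open_W0 k hU).isLocallyClosed

/-- the inclusion -/
noncomputable def j : Mor (W k hU) (Y2 k hU) := ((V k).tot.subI _ _).cod _ _ fun x => x.2.1

/-- the graph -/
noncomputable def j' : Mor (W k hU) (B k hU) :=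
  Mor.cod (Y' := W k hU) (Y := (E k).PS) ⟨MonoidHom.inl (V k).tot.G ℂˣ,
    fun y : W0 k U => VB.PT.mk y.1 (sig k y.1) ((isSec_sig k).mem _) y.2.2,
    continuous_id.prodMk continuous_const,
    VB.PT.continuous_mk continuous_subtype_val ((sig_cont k).comp continuous_subtype_val) _ _,
    fun g y => VB.PT.ext rfl (((isSec_sig k).eqv g y.1).trans (one_smul ℂ _).symm)⟩ _ _
    fun y => ⟨subset_closure ⟨y.2.2, 1, (one_smul ℂ _).symm⟩, y.2.1⟩

theorem f_j' (x : (W k hU).X) : (f k hU).map ((j' k hU).map x) = (j k hU).map x := by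
  obtain ⟨x, rfl⟩ := Sp.surj _ x
  simp only [Mor.map_π]
  rfl

theorem emb_j : IsEmbedding (j k hU).map := by
  refine IsEmbedding.of_comp (j k hU).map.continuous (φ k hU).map.continuous
    ((funext fun x => ?_ : _ = (φ k hU).map ∘ (j k hU).map) ▸
      Sp.isEmbedding_subI (open_W0 k hU).isLocallyClosed)
  obtain ⟨x, rfl⟩ := Sp.surj _ x
  simp only [comp_apply, Mor.map_π]
  exact Mor.map_π _ x

theorem emb_j' : IsEmbedding (j' k hU).map :=
  IsEmbedding.of_comp (j' k hU).map.continuous (f k hU).map.continuous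
    ((funext (f_j' k hU) : (f k hU).map ∘ (j' k hU).map = _) ▸ emb_j k hU)

theorem mem_range_j {y : (Y2 k hU).T} :
    (Y2 k hU).π y ∈ range (j k hU).map ↔ sig k ((φ k hU).f y) ≠ 0 := by
  refine ⟨fun ⟨x, hx⟩ => ?_, fun h => ⟨(W k hU).π ⟨y.1, y.2, h⟩, (j k hU).map_π _⟩⟩
  obtain ⟨x, rfl⟩ := Sp.surj _ x
  obtain ⟨g, rfl⟩ := (Sp.fib _ _ _).1 (((j k hU).map_π x).symm.trans hx)
  exact ((W0 k U).smul_mem g x.2).2

theorem mem_range_j' {x : (B k hU).T} :
    (B k hU).π x ∈ range (j' k hU).map ↔ sig k (VB.PT.t ((a k hU).f x)) ≠ 0 := by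
  refine ⟨fun ⟨y, hy⟩ => (mem_range_j k hU (y := (f k hU).f x)).1
    ⟨y, (f_j' k hU y).symm.trans (by rw [hy, Mor.map_π])⟩, fun h => ?_⟩
  obtain ⟨-, c, hc⟩ := mem_Gr k x.2.1 h
  have h1 : c ≠ 0 := fun e => VB.PT.ne x.1 (hc.trans (by rw [e, zero_smul]; rfl))
  exact ⟨(W k hU).π ⟨VB.PT.t x.1, x.2.2, h⟩, ((j' k hU).map_π _).trans ((Sp.fib _ _ _).2
    ⟨((1 : (V k).tot.G), Units.mk0 c h1), Subtype.ext (VB.PT.ext (one_smul _ _)
      ((congrArg (fun w : (E k).W => c • w) (one_smul (V k).tot.G _)).trans hc.symm))⟩)⟩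

variable (hZ : ∀ t, (Y.subI S hS).f t ∈ k.Zs) (h1 : ∀ t ∈ S, t ∈ U)

/-- the zero set -/
noncomputable def i2 : Mor (Y.sub S hS) (Y2 k hU) :=
  Mor.cod (Y' := Y.sub S hS) (Y := (V k).tot) ⟨MonoidHom.id Y.G,
    fun t : S => (⟨(t.1, (k.s t.1, (0 : ℂ))), hZ t, trivial⟩ : (V k).V), continuous_id,
    (continuous_subtype_val.prodMk ((k.sec.cont.comp continuous_subtype_val).prodMk
      continuous_const)).subtype_mk _,
    fun g t => Subtype.ext (Prod.ext rfl (Prod.ext (k.sec.eqv g t.1) rfl))⟩ _ _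
    fun t => h1 t.1 t.2

/-- the exceptional locus -/
noncomputable def i' : Mor (D k hS) (B k hU) :=
  (dI k hS).cod _ _ fun x => ⟨x.2.1, h1 _ x.2.2.2⟩

theorem proj_i2 (z : (Y.sub S hS).X) :
    (V k).proj.map ((φ k hU).map ((i2 k hS hU hZ h1).map z)) = (Y.subI S hS).map z := by
  obtain ⟨x, rfl⟩ := Sp.surj _ z
  simp only [Mor.map_π]
  rfl

theorem f_i' (z : (D k hS).X) : (f k hU).map ((i' k hS hU h1).map z) =
    (i2 k hS hU hZ h1).map ((g k hS).map z) := by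
  obtain ⟨x, rfl⟩ := Sp.surj _ z
  simp only [Mor.map_π]
  exact congrArg _ (Subtype.ext (Subtype.ext (Prod.ext rfl (sig_eq_zero.1 x.2.2.1))))

theorem emb_i2 : IsEmbedding (i2 k hS hU hZ h1).map :=
  IsEmbedding.of_comp (i2 k hS hU hZ h1).map.continuous
    ((V k).proj.map.continuous.comp (φ k hU).map.continuous)
    ((funext (proj_i2 k hS hU hZ h1) : ((V k).proj.map ∘ (φ k hU).map) ∘ _ = _) ▸
      Sp.isEmbedding_subI hS)

theorem emb_i' : IsEmbedding (i' k hS hU h1).map := by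
  refine IsEmbedding.of_comp (i' k hS hU h1).map.continuous (a k hU).map.continuous
    ((funext fun x => ?_ : _ = (a k hU).map ∘ (i' k hS hU h1).map) ▸
      Sp.isEmbedding_subI (lc_DS k hS))
  obtain ⟨x, rfl⟩ := Sp.surj _ x
  simp only [comp_apply, Mor.map_π]
  exact Mor.map_π _ x

variable (h2 : ∀ t ∈ U, t ∈ k.Zs → t ∈ S)
include h2

theorem mem_range_i2 {y : (Y2 k hU).T} :
    (Y2 k hU).π y ∈ range (i2 k hS hU hZ h1).map ↔ sig k ((φ k hU).f y) = 0 := by
  refine ⟨fun ⟨x, hx⟩ => ?_, fun h => ⟨(Y.sub S hS).π ⟨_, h2 _ y.2 (mem_Zs h)⟩,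
    (Mor.map_π _ _).trans (congrArg _ (Subtype.ext (Subtype.ext
      (Prod.ext rfl (sig_eq_zero.1 h).symm))))⟩⟩
  obtain ⟨x, rfl⟩ := Sp.surj _ x
  obtain ⟨g, rfl⟩ := (Sp.fib _ _ _).1 ((Mor.map_π _ x).symm.trans hx)
  exact (sig_smul_eq_zero (k := k) g).2 (sig_eq_zero.2 rfl)

theorem mem_range_i' {x : (B k hU).T} :
    (B k hU).π x ∈ range (i' k hS hU h1).map ↔ sig k (VB.PT.t ((a k hU).f x)) = 0 := by
  refine ⟨fun ⟨y, hy⟩ => ?_, fun h => ⟨(D k hS).π ⟨x.1, x.2.1, h, h2 _ x.2.2 (mem_Zs h)⟩,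
    Mor.map_π _ _⟩⟩
  obtain ⟨y, rfl⟩ := Sp.surj _ y
  obtain ⟨g, rfl⟩ := (Sp.fib _ _ _).1 ((Mor.map_π _ y).symm.trans hy)
  exact ((DS k S).smul_mem g y.2).2.1

theorem isZ_i2 : ((k2 k).pb (φ k hU)).IsZ (i2 k hS hU hZ h1).map :=
  .of_range (emb_i2 k hS hU hZ h1) (Set.ext fun x => by
    obtain ⟨x, rfl⟩ := Sp.surj _ x
    exact (mem_range_i2 k hS hU hZ h1 h2).trans (KP.mem_Z (k := (k2 k).pb (φ k hU))).symm)

theorem isZ_i' : (((k2 k).pb (φ k hU)).pb (f k hU)).IsZ (i' k hS hU h1).map :=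
  .of_range (emb_i' k hS hU h1) (Set.ext fun x => by
    obtain ⟨x, rfl⟩ := Sp.surj _ x
    exact (mem_range_i' k hS hU h1 h2).trans
      (KP.mem_Z (k := ((k2 k).pb (φ k hU)).pb (f k hU))).symm)

theorem range_j : range (j k hU).map = (range (i2 k hS hU hZ h1).map)ᶜ := Set.ext fun x => by
  obtain ⟨x, rfl⟩ := Sp.surj _ x
  exact (mem_range_j k hU).trans (mem_range_i2 k hS hU hZ h1 h2).not.symm

theorem range_j' : range (j' k hU).map = (range (i' k hS hU h1).map)ᶜ := Set.ext fun x => by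
  obtain ⟨x, rfl⟩ := Sp.surj _ x
  exact (mem_range_j' k hU).trans (mem_range_i' k hS hU h1 h2).not.symm

include hU hZ h1 in
theorem isPr_g : IsPr (g k hS).map :=
  isPr_of_comp (emb_i2 k hS hU hZ h1) (f_i' k hS hU hZ h1)
    ((isPr_f k hU).comp (IsPr.of_isClosedEmbedding (isZ_i' k hS hU h1 h2).emb))

theorem vir_k2 (hi : k.IsZ (Y.subI S hS).map) (β : BM (V k).tot.X) :
    ((k2 k).pb (φ k hU)).vir (i2 k hS hU hZ h1).map (res (φ k hU).map β) =
      k.vir (Y.subI S hS).map (gys (V k).zero.map (V k).th β) := by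
  let L : k.P.W × ℂ →L[ℂ] k.P.W × ℂ := (-ContinuousLinearMap.id ℂ _).prodMap (.id ℂ ℂ)
  have hL : ∀ v, L v = (-v.1, v.2) := fun _ => rfl
  refine KP.Hom.vir_tot (k' := (k2 k).pb (φ k hU)) (k := k) (V := V k) (φ := φ k hU) (A := fun _ => LinearMap.fst ℂ k.P.W ℂ) (ζ := fun t => (k.s t, (0 : ℂ)))
    (D := fun _ => L.toLinearMap) ⟨Hom.of_continuous (fun _ _ h => h.1)
      (continuous_fst.comp continuous_snd) fun _ _ _ _ => rfl, fun t w hw => ?_, fun t => ?_,
      fun _ _ _ h => h.1⟩ (Sp.isOpenEmbedding_subI (open_U2 k hU))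
    (k.sec.cont.prodMk continuous_const).continuousOn
    (fun g t _ => Prod.ext (k.sec.eqv g t) rfl) (fun t ht => ⟨ht, trivial⟩) (fun t _ v w h => ?_)
    (Hom.of_continuous (fun t w h => ⟨neg_mem (k.van_le _ h.1), trivial⟩)
      (L.continuous.comp continuous_snd) fun (g : Y.G) _ (w : k.P.W × ℂ) _ =>
        Prod.ext (smul_neg g w.1).symm rfl)
    (fun t ht => sig_eq_zero.1 ht) (fun t _ v _ h => ?_) (fun t _ w _ h => ?_) rfl hi
    (isZ_i2 k hS hU hZ h1 h2) (proj_i2 k hS hU hZ h1) β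
  · exact (congrArg Prod.fst (show (w : k.P.W × ℂ) = 0 from hw)).symm.subst (zero_mem _)
  · exact (sub_sub_cancel_left (k.s _) _).symm.subst (neg_mem t.1.2.1)
  · refine closure_minimal (t := {x : (Y2 k hU).T × (k.P.W × ℂ) × k.P.W × ℂ |
      x.2.2 - L x.2.1 = 0}) ?_ (isClosed_eq (by fun_prop) continuous_const) h
    rintro ⟨y, v, w⟩ ⟨-, c, e1, e2⟩
    have e3 : ∀ (v w : k.P.W × ℂ) (s u : k.P.W) (z : ℂ), v = c • ((u, z) - (s, 0)) →
        w - c • (s - u, z) = 0 → w - L v = 0 := fun v w s u z e1 e2 => by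
      rw [sub_eq_zero.1 e2, e1, map_smul, hL, sub_eq_zero]
      simp
    exact e3 v w _ _ _ e1 e2
  · have e : ((-v.1, v.2) : k.P.W × ℂ) = 0 := h
    exact Prod.ext (neg_eq_zero.1 (Prod.ext_iff.1 e).1) (Prod.ext_iff.1 e).2
  · exact ⟨(-w.1, w.2), ⟨neg_mem h, trivial⟩, sub_eq_zero.2 (Prod.ext (neg_neg _).symm rfl)⟩

end loc

variable {k} {S : SubMulAction Y.G Y.T} {hS : IsLocallyClosed (S : Set Y.T)}

theorem exists_U (hi : k.IsZ (Y.subI S hS).map) : ∃ U : SubMulAction Y.G Y.T,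
    IsOpen (U : Set Y.T) ∧ (∀ t ∈ S, t ∈ U) ∧ ∀ t ∈ U, t ∈ k.Zs → t ∈ S := by
  obtain ⟨O, h1, h2, h3⟩ := hi.isol.exists_isOpen
  rw [Sp.range_subI] at h2 h3
  exact ⟨⟨Y.π ⁻¹' O, fun g t ht => show Y.π (g • t) ∈ O from (Y.π_smul g t).symm ▸ ht⟩,
    h1.preimage Y.cont, fun t ht => h2 ⟨t, ht, rfl⟩, fun t ht h =>
      (Y.isQuo.mem_image fun g _ => S.smul_mem g).1 (h3 ⟨ht, KP.mem_Z.2 h⟩)⟩

theorem isPr_g' (hi : k.IsZ (Y.subI S hS).map) : IsPr (g k hS).map :=
  let ⟨_, hU, h1, h2⟩ := exists_U hi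
  isPr_g k hS hU (fun t => KP.mem_Z.1 ((Y.subI S hS).map_π t ▸ hi.mem _)) h1 h2

theorem compact_D [CompactSpace (Y.sub S hS).X] (hi : k.IsZ (Y.subI S hS).map) :
    CompactSpace (D k hS).X := ⟨(isPr_g' hi).pre univ isCompact_univ⟩

theorem hom_taut (hZ : ∀ t, (Y.subI S hS).f t ∈ k.Zs) : Hom (Mor.id (D k hS)) (char (o1 k hS)⁻¹)
    (ob k hS hZ) fun x => LinearMap.toSpanSingleton ℂ (E k).W (VB.PT.w ((dI k hS).f x)) :=
  have h := (E k).hom_taut.pb' (dI k hS)
  ⟨fun x (z : ℂ) _ => ⟨(k.obs _).smul_mem z (mem_obs k x.2.1 x.2.2.1), trivial⟩, h.cont, h.eqv⟩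

/-- **The excess formula on the closure of the graph.** -/
theorem st : St := by
  intro Y d k S hS hZ _ β hi c1 c2 hβ
  obtain ⟨U, hU, h1, h2⟩ := exists_U hi
  have := compact_D hi
  obtain ⟨β₂, d2, e2⟩ := exists_thom (V k) hβ
  have hv : ((V k).r : ℤ) = k.v + 1 := by
    change ((k.v + Module.finrank ℂ ℂ : ℕ) : ℤ) = _
    rw [Module.finrank_self, Nat.cast_add, Nat.cast_one]
  have z1 := isZ_i2 k hS hU hZ h1 h2
  have z2 := isZ_i' k hS hU h1 h2
  have r1 := range_j k hS hU hZ h1 h2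
  have r2 := range_j' k hS hU h1 h2
  obtain ⟨β₃, d3, e3⟩ := exists_push (isPr_f k hU) z1.emb z2.emb
    ⟨emb_j k hU, r1 ▸ z1.emb.isClosed_range.isOpen_compl⟩
    ⟨emb_j' k hU, r2 ▸ z2.emb.isClosed_range.isOpen_compl⟩ r1 r2 (f_j' k hU) (fun x hx => by
      obtain ⟨x, rfl⟩ := Sp.surj _ x
      rw [mem_preimage, Mor.map_π] at hx
      exact (mem_range_j' k hU).2 ((mem_range_j k hU).1 hx))
    ((c2.top' IsEmbedding.id (subset_univ _)).mono (by rw [hv]; omega))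
    ((c1.top' (Sp.isEmbedding_subI hS) (subset_univ _)).mono (by omega)) (d2.res (φ k hU).map)
  obtain ⟨lam, l1, l2⟩ := exists_lam k
  have l3 := l1.pb (a k hU)
  have l4 : ∀ x : (B k hU).T, lam ((a k hU).f x) = 0 ↔ sig k (VB.PT.t ((a k hU).f x)) = 0 :=
    fun x => (smul_eq_zero_iff_left (VB.PT.ne ((a k hU).f x))).symm.trans
      (iff_of_eq (congrArg (· = 0) (l2 _ x.2.1)))
  have z3 : (KP.ofSec l3).IsZ (i' k hS hU h1).map :=
    .of_range (emb_i' k hS hU h1) (Set.ext fun x => by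
      obtain ⟨x, rfl⟩ := Sp.surj _ x
      exact ((mem_range_i' k hS hU h1 h2).trans (l4 x).symm).trans (KP.mem_Z (k := .ofSec l3)).symm)
  have t1 := (E k).hom_taut.pb' (a k hU)
  have hh : (KP.ofSec l3).Hom ((k2 k).pb (φ k hU)) (f k hU) fun x =>
      LinearMap.toSpanSingleton ℂ (E k).W (VB.PT.w ((a k hU).f x)) :=
    ⟨⟨t1.mem, t1.cont, t1.eqv⟩, fun x (z : ℂ) (hz : z = 0) => hz ▸ zero_smul ℂ _,
      fun x => sub_eq_zero.2 (l2 _ x.2.1), fun x hx (z : ℂ) _ =>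
        ⟨(k.obs _).smul_mem z (mem_obs k x.2.1 ((l4 x).1 hx)), trivial⟩⟩
  obtain ⟨R, hR, hr, R1, hex⟩ := (hom_taut hZ).exists_compl
    (fun x z _ => (E k).taut_inj ((dI k hS).f x) z) (k := k.v + k.r) (by
      change k.v + k.r + Module.finrank ℂ ℂ = 1 + (k.v + k.r)
      rw [Module.finrank_self, add_comm])
  have key := hh.vir_inj z3 (fun x _ z _ => (E k).taut_inj ((a k hU).f x) z)
    (j := i' k hS hU h1) (N := hR.ker _ hr) (S := fun _ => LinearMap.id)
    (fun x => (l4 _).2 x.2.2.1) ⟨fun x w hw => ⟨k.obs_le _ (mem_Zs x.2.2.1) hw.1.1, trivial⟩,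
      continuous_snd.comp continuous_subtype_val, fun _ _ _ _ => rfl⟩ (fun x w hw => hw.1)
    (fun x w hw (z : ℂ) _ e => by
      have e1 : w = _ := sub_eq_zero.1 e
      have e2 : z = 0 := (R1 x z trivial).symm.trans ((congrArg (R x) e1.symm).trans hw.2)
      exact e1.trans (e2 ▸ zero_smul ℂ _))
    (by
      change k.v + Module.finrank ℂ ℂ + k.r = 1 + (k.v + k.r)
      rw [Module.finrank_self]
      omega) (ContinuousMap.id _) (fun _ => rfl) β₃
  refine ⟨(KP.ofSec l3).vir (i' k hS hU h1).map β₃, hR.ker _ hr, _, R, ?_, rfl, hex, fun η => ?_⟩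
  · refine (congrArg (BM.IsDeg · _) ?_).mp (KP.vir_deg d3 (KP.ofSec l3) _)
    change 2 * (d : ℤ) + 2 * (V k).r - 2 * (1 : ℕ) = _
    rw [hv]
    omega
  · rw [← e2, ← vir_k2 k hS hU hZ h1 h2 hi, ← e3, (KP.cmp_pb _ (f k hU)).vir_push (isPr_f k hU) z1 z2
      (f_i' k hS hU hZ h1) (fun x hx => by
        obtain ⟨x, rfl⟩ := Sp.surj _ x
        rw [mem_preimage, Mor.map_π] at hx
        exact (mem_range_i' k hS hU h1 h2).2 ((mem_range_i2 k hS hU hZ h1 h2).1 hx)),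
      KP.vir_pb _ _ z2, key, Loc.intg_push, Loc.intg_cap, H.map_id fun _ => rfl,
      Hev.commute (hR.ker _ hr).eu.2]

end Vale.Agent.P287Q.H3.Cn
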