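import Vale.Agent.P287Q.H3.Hdg

/-!
# The base cycles are analytic sets of the expected dimension
-/

namespace Vale.Agent.P287Q.H3

open Set Function Topology Filter P291Z P269 P269.Ch P269.Holo P269.Mono

theorem stSm : StSm := fun A W _ _ _ _ _ _ _ _ M d h _ _ =>
  have := FiniteDimensional.proper ℂ W
  ⟨univ, univ_mem, add_comm (Module.finrank ℂ A) d ▸ (dimLt_succ.1 ((DimLt.of_mfd h.mfd).union
    (h.small.le (Nat.le_succ _)))).mono fun y hy =>
      (em (y ∈ M)).imp (fun a => ⟨⟨y, a⟩, rfl⟩) fun a => ⟨hy.2, a⟩⟩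

variable {W : Type} [NormedAddCommGroup W] [NormedSpace ℂ W] [FiniteDimensional ℂ W]
  {T M : Set W} {n : ℕ} {a : W}

/-- Manifolds are analytic sets. -/
theorem an_of_mfd (h : MfdAt T n a) : An T a := by
  obtain ⟨ha, ψ, h1, h2⟩ := h
  obtain ⟨w, h3, h4, -, h5, -⟩ := h1.exists_inv
  rw [h2] at h3 h4 h5
  refine An.of_fd (f := fun z => z - (ψ (w z) : W))
    (analyticAt_id.sub (h1.an.comp_of_eq h3 h4)) ?_
  refine ((ev_emb IsEmbedding.subtypeVal).1 h5).mono fun z hz => ?_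
  rw [sub_eq_zero]
  exact ⟨fun b => (congrArg Subtype.val (hz ⟨z, b⟩ rfl)).symm, fun b => b ▸ (ψ (w z)).2⟩

/-- Closures of locally analytically constructible sets are analytic. -/
theorem an_clo_of_locAn (hC : StClo) (h : LocAn T M) (hM : M ⊆ T) (ha : a ∈ T) (hT : An T a) :
    An (closure M) a := by
  obtain ⟨r, s, g, f, h1, h2⟩ := h ⟨a, ha⟩
  choose G g1 g2 using fun i => (h1 i).1
  choose L f1 f2 using fun i => (h1 i).2
  have h3 : ∀ᶠ z in 𝓝 a, z ∈ ⋃ i, (T ∩ {z | G i z = 0}) \ {z | L i z = 0} ↔ z ∈ M := by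
    refine ((ev_emb IsEmbedding.subtypeVal).1 (h2.and ((eventually_all.2 g2).and
      (eventually_all.2 f2)))).mono fun z hz => ?_
    rw [mem_iUnion]
    refine ⟨fun ⟨i, b⟩ => ?_, fun b => ?_⟩
    · obtain ⟨c1, c2, c3⟩ := hz ⟨z, b.1.1⟩ rfl
      exact c1.2 ⟨i, (c2 i).trans b.1.2, (c3 i).trans_ne b.2⟩
    · obtain ⟨c1, c2, c3⟩ := hz ⟨z, hM b⟩ rfl
      exact (c1.1 b).imp fun i c => ⟨⟨hM b, (c2 i).symm.trans c.1⟩, (c3 i).symm.trans_ne c.2⟩
  have h4 := An.iUnion fun i => hC W _ _ a (hT.inter (an_zero (g1 i))) (an_zero (f1 i))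
  rw [← closure_iUnion_of_finite] at h4
  refine h4.congr (h3.eventually_nhds.mono fun z hz => ?_)
  simp only [mem_closure_iff_frequently]
  exact frequently_congr hz

theorem stCyc (hC : StClo) : StCyc := by
  intro S Λ R J K ι ν κ _ _ _ _ _ _ _ _ _ ch F e K₀ ℓ b U u h hE x hx
  obtain ⟨n, hn⟩ := h.mfd_baseF x hx.2
  exact (an_clo_of_locAn hC (locAn_main h.cuts h.wt hE u) (fun _ c => c.1.1) hx.2
    (an_of_mfd hn)).inter (an_of_mfd hn)

end Vale.Agent.P287Q.H3
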