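import Vale.Agent.P287Q.H3.ChD
import Vale.Agent.P287Q.H3.Brg
import Vale.Agent.P287Q.G.Bas.Ev
import Vale.Agent.P287Q.G.Map.Psi

set_option linter.all false

/-!
# The factors of the invariants have Hodge type
-/

namespace Vale.Agent.P287Q.H3

open Set Function Topology Filter P291Z P269 P269.Ch P269.Holo P269.Mono P269.Orb P269.Base

variable {S Λ R J K ι ν κ : Type} [Fintype S] [Fintype Λ] [Fintype R] [Fintype J] [Fintype K]
  [Fintype ι] [DecidableEq ι] [Fintype ν] [Fintype κ] {ch : Ch ι J} {F : Fam S Λ R J K}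
  {ℓ : R → ι → ℤ} {Z : Set (ch.WF ν κ Λ)}

namespace Fc

theorem an_p (x : ch.WF ν κ Λ) (n : Mk ν κ) :
    AnalyticAt ℂ (fun y : ch.WF ν κ Λ => y.2.p n) x := W.an_p analyticAt_snd n

theorem an_single {P : Type} [NormedAddCommGroup P] [NormedSpace ℂ P] {f : P → V ch.M} {x : P}
    (h : AnalyticAt ℂ f x) (i : ι) : AnalyticAt ℂ (fun t => (Pi.single i (f t i) : V ch.M)) x :=
  ((ContinuousLinearMap.single ℂ (fun i => Fin (ch.M i) → ℂ) i).analyticAt _).comp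
    (analyticAt_pi_iff.1 h i)

/-- the values at a marked point are holomorphic on the solutions -/
theorem an_vl {x : ch.WF ν κ Λ} (hx : x ∈ ch.solF ν κ F) (n : Mk ν κ) :
    ∃ Φ, AnalyticAt ℂ Φ x ∧ ∀ᶠ y in 𝓝 x, y ∈ ch.solF ν κ F → vl y n = Φ y := by
  have hb := hx.1.2.1
  choose Φ h1 h2 using exists_fldU (x := x.2) (c := x.2.p n) hb.1 (crv_ne (p_mem_crv hb n))
  have h3 : AnalyticAt ℂ (fun y : ch.WF ν κ Λ => (y.2, y.2.p n)) x := analyticAt_snd.prod (an_p x n)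
  refine ⟨fun y => (y.1, fun j => Φ j (y.2, y.2.p n)), analyticAt_fst.prod
    (AnalyticAt.pi fun j => (h1 j).comp_of_eq h3 rfl), ?_⟩
  filter_upwards [h3.continuousAt.eventually (eventually_all.2 h2)] with y hy hs
  exact Prod.ext rfl (funext fun j => hy j (p_mem_crv hs.1.2.1 n)
    (((mem_solF.1 hs).2 _ (p_mem_crv hs.1.2.1 n)).1 j))

theorem spn_N (n : Mk ν κ) : Spn Z (ch.sdψ S Λ n).N (Fintype.card ι) := fun x _ =>
  ⟨ι, inferInstance, fun y i => Pi.single i (y.2.p n i), rfl,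
    AnalyticAt.pi (an_single (an_p x n)), .of_forall fun _ _ => rfl⟩

theorem spn_B (hc : ch.Cuts) (hZ : ∀ x ∈ Z, x.2 ∈ ch.base _) (n : Mk ν κ) :
    Spn Z (ch.sdψ S Λ n).B (Fintype.card ι + 1) := fun x hx => by
  have hm := fun z hz => (hZ z hz).2.2.2.1 n
  have h1 := hc.locFam ⟨x.2, hZ _ hx⟩
  obtain ⟨v, v1, v2⟩ := (h1.smAt (hm _ hx).1 (hm _ hx).2).exists_tangent h1
  have h3 : AnalyticAt ℂ (fun y : ch.WF ν κ Λ => (y.2, y.2.p n)) x := analyticAt_snd.prod (an_p x n)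
  refine ⟨Option ι, inferInstance, fun y => Psi.fr (y.2.p n) (v (y.2, y.2.p n)),
    Fintype.card_option, AnalyticAt.pi fun j => ?_, ?_⟩
  · cases j
    exacts [v1.comp_of_eq h3 rfl, an_single (an_p x n) _]
  · filter_upwards [h3.continuousAt.eventually (ev_sub v2)] with y hy hs
    obtain ⟨γ, a, b, c⟩ := hy (hZ _ hs) (hm _ hs).1
    have := Psi.Tg_eq (hZ _ hs).2.2.1.nod a (b ▸ (hm _ hs).2)
    rwa [b, c] at this

theorem an_ρ (n : Mk ν κ) (w : V ch.M) :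
    AnalyticAt ℂ (fun a : ch.AF ν κ S => (ch.sdψ S Λ n).ρ a w) 1 := AnalyticAt.pi fun i => by
  have h0 : AnalyticAt ℂ (fun a : ch.AF ν κ S => a.2.2.2) 1 :=
    analyticAt_snd.comp (analyticAt_snd.comp analyticAt_snd)
  have h1 : AnalyticAt ℂ (fun a : ch.AF ν κ S => a.2.2.2 (n.map id Prod.fst) i) 1 :=
    analyticAt_pi_iff.1 (analyticAt_pi_iff.1 h0 (n.map id Prod.fst)) i
  have h2 : AnalyticAt ℂ (fun a : ch.AF ν κ S => a.2.1 i (w i)) 1 :=
    an_apply (analyticAt_pi_iff.1 (analyticAt_fst.comp analyticAt_snd) i) analyticAt_const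
  exact h1.smul h2

variable (h : GZ F ℓ Z)

/-- the cotangent line classes are good -/
theorem good_psi (hC : StChern) (hZ : ∀ x ∈ Z, An Z x) (n : Mk ν κ) :
    ∃ η : Hev (zsp h.toOZ).X, Good (zsp h.toOZ) (zvl h.toOZ) 1 η ∧ F.cl Z (.psi n) = η.1 := by
  haveI := h.act
  obtain ⟨η, h1, h2⟩ := good_sd h.orb hC hZ (h.psi n) (fun w _ => an_ρ n w)
    (spn_B h.cuts h.base n) (spn_N n)
  rw [Nat.add_sub_cancel_left] at h1
  exact ⟨-η, h1.neg, (h.cl_psi n).trans (congrArg Neg.neg h2)⟩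

theorem ty_ev (n : Mk ν κ) {A : Set _} (hA : ∀ x ∈ Z, vl x n ∈ A) {c : H (F.X A)} {p q : ℕ}
    (hc : Ty (Subtype.val : A → _) (Quo.mk F.actT) p q c) :
    Ty (zvl h.toOZ) (zsp h.toOZ).π p q (F.cl Z (.ev n A c)) := by
  haveI := h.act
  rw [h.cl_ev n hA]
  refine hc.lift _ (u := fun t => ⟨vl (zvl h.toOZ t) n, hA _ t.2⟩)
    ((((continuousOn_vl n).mono h.sol).comp_continuous Holo.Sp.continuous_val
      fun t => t.2).subtype_mk _) (fun t => ?_) fun _ => rfl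
  obtain ⟨Φ, h1, h2⟩ := an_vl (h.sol t.2) n
  exact ⟨Φ, h1, (Holo.Sp.continuous_val.continuousAt.eventually h2).mono fun s hs =>
    hs (h.sol s.2)⟩

theorem ty_par {A : Set _} (hA : ∀ x ∈ Z, x.1 ∈ A) {c : H (F.Bs A)} {p q : ℕ}
    (hc : Ty (Subtype.val : A → _) (Quo.mk F.actL) p q c) :
    Ty (zvl h.toOZ) (zsp h.toOZ).π p q (F.cl Z (.par A c : Fac F.toWt ν κ)) := by
  haveI := h.act
  rw [h.cl_par hA]
  exact hc.lift _ (u := fun t => ⟨(zvl h.toOZ t).1, hA _ t.2⟩)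
    ((continuous_fst.comp Holo.Sp.continuous_val).subtype_mk _)
    (fun t => HolAt.of_an analyticAt_fst) fun _ => rfl

end Fc

theorem stFac (hM : StMul) (hZ : StZero) (hW : StWk) (hC : StChern) : StFac := by
  intro S Λ R J K ι ν κ _ _ _ _ _ _ _ _ _ ch F ℓ Z h hA T hT
  haveI := h.act
  have hY : IsAS (zsp h.toOZ) (zvl h.toOZ) := isAS_spA h.orb hA
  induction T with
  | nil => exact hW _ _ _ hY 0 0 1 (ty_one hZ)
  | cons x T ih =>
    have a := ih fun y hy => hT y (List.mem_cons_of_mem _ hy)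
    obtain ⟨h1, h2⟩ := hT x List.mem_cons_self
    simp only [List.map_cons, List.sum_cons, List.prod_cons]
    obtain ⟨f, p, q⟩ := x
    cases f with
    | psi n =>
      obtain ⟨rfl, rfl⟩ := h1
      obtain ⟨η, h3, h4⟩ := Fc.good_psi h hC hA n
      rw [h4, add_comm 1, add_comm 1]
      exact h3.2 _ _ _ a
    | ev n A c => exact (Fc.ty_ev h n h2 h1).mul_wk hM a
    | par A c => exact (Fc.ty_par h h2 h1).mul_wk hM a
    | dg q => exact h1.elim
    | tw Θ =>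
      obtain ⟨rfl, rfl, rfl⟩ := h1
      rw [Fam.cl_tw_one, one_mul, zero_add, zero_add]
      exact a

end Vale.Agent.P287Q.H3
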