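import Vale.Agent.P287Q.H3.St

/-!
# The algebra of types, weak types and good classes
-/

namespace Vale.Agent.P287Q.H3

open Set Function Topology Filter P291Z P269 P269.Ch P269.Holo P269.Mono P269.Orb Polynomial
open scoped Manifold ContDiff

variable {A A' A'' : Type} [NormedAddCommGroup A] [NormedSpace ℂ A] [NormedAddCommGroup A']
  [NormedSpace ℂ A'] [NormedAddCommGroup A''] [NormedSpace ℂ A'']

section ty

variable {T X : Type} [TopologicalSpace T] [TopologicalSpace X] {ι : T → A} {π : T → X}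
  {p q p' q' : ℕ} {a b : H X}

theorem Ty.mul (hM : StMul) (ha : Ty ι π p q a) (hb : Ty ι π p' q' b) :
    Ty ι π (p + p') (q + q') (a * b) := by
  refine ⟨?_, fun M φ hφ => ?_⟩
  · have := ha.1.mul hb.1
    rwa [← Nat.cast_add, add_add_add_comm] at this
  · rw [map_mul]
    exact hM M _ _ _ _ _ _ (ha.2 M φ hφ) (hb.2 M φ hφ)

theorem Ty.zero (hZ : StZero) : Ty ι π p q 0 :=
  ⟨(H.deg X _).zero_mem, fun M φ _ => by rw [map_zero]; exact (hZ M).2 p q⟩

theorem Ty.add (hL : StLin) (ha : Ty ι π p q a) (hb : Ty ι π p q b) : Ty ι π p q (a + b) :=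
  ⟨(H.deg X _).add_mem ha.1 hb.1, fun M φ hφ => by
    have := hL M p q 1 _ _ (ha.2 M φ hφ) (hb.2 M φ hφ)
    rwa [one_smul, ← map_add] at this⟩

theorem Ty.smul (hL : StLin) (hZ : StZero) (z : ℂ) (ha : Ty ι π p q a) : Ty ι π p q (z • a) :=
  ⟨(H.deg X _).smul_mem z ha.1, fun M φ hφ => by
    have := hL M p q z _ _ (ha.2 M φ hφ) ((hZ M).2 p q)
    rw [add_zero] at this
    exact (map_smul (H.mapA φ) z a).symm ▸ this⟩

theorem Ty.sum (hL : StLin) (hZ : StZero) {I : Type*} (s : Finset I) {c : I → H X}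
    (h : ∀ i ∈ s, Ty ι π p q (c i)) : Ty ι π p q (∑ i ∈ s, c i) :=
  Finset.sum_induction c (Ty ι π p q) (fun _ _ => Ty.add hL) (Ty.zero hZ) h

theorem ty_deg0 (hZ : StZero) (h : H.IsDeg 0 a) : Ty ι π 0 0 a :=
  ⟨h, fun M φ _ => (hZ M).1 _ (h.map φ)⟩

theorem ty_one (hZ : StZero) : Ty ι π 0 0 1 := ty_deg0 hZ H.isDeg_one

theorem Ty.pow (hM : StMul) (hZ : StZero) (ha : Ty ι π p q a) (n : ℕ) :
    Ty ι π (n * p) (n * q) (a ^ n) := by
  induction n with
  | zero => rw [zero_mul, zero_mul, pow_zero]; exact ty_one hZ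
  | succ n ih => rw [pow_succ, Nat.succ_mul, Nat.succ_mul]; exact ih.mul hM ha

end ty

section pull

variable {Y'' Y' Y : Ch.Sp} {ι'' : Y''.T → A''} {ι' : Y'.T → A'} {ι : Y.T → A}

theorem Alg_hm_id : HM (Mor.id Y) ι ι := fun _ => HolAt.self

theorem Alg_hm_comp {h : Mor Y' Y} {h' : Mor Y'' Y'} (hh : HM h ι' ι) (hh' : HM h' ι'' ι') :
    HM (h.comp h') ι'' ι := fun t => (hh (h'.f t)).comp h'.cf.continuousAt (hh' t)

theorem Alg_ty_pull {h : Mor Y' Y} (hh : HM h ι' ι) {p q : ℕ} {c : H Y.X} (hc : Ty ι Y.π p q c) :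
    Ty ι' Y'.π p q (H.map h.map c) := by
  refine ⟨hc.1.map _, fun M φ hφ => ?_⟩
  rw [H.map_map]
  refine hc.2 M _ fun y f hf => hφ y (fun x => f (h.map x)) fun t ht => ?_
  have h1 := (hf (h.f t) (by rw [← h.map_π, ht]; rfl)).comp h.cf.continuousAt (hh t)
  simpa only [Mor.map_π] using h1

theorem Alg_wk_pull {h : Mor Y' Y} (hh : HM h ι' ι) {p q : ℕ} {c : H Y.X} (hc : Wk Y ι p q c) :
    Wk Y' ι' p q (H.map h.map c) := by
  refine ⟨hc.1.map _, fun Z _ B _ _ j k m p' q' β h1 h2 h3 h4 h5 => ?_⟩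
  rw [H.map_map, ← Mor.map_comp]
  exact hc.2 Z B j _ m p' q' β h1 h2 (Alg_hm_comp hh h3) h4 h5

theorem Alg_hv_pb {h : Mor Y' Y} (hh : HM h ι' ι) {E : VB Y} (hE : HV E ι) : HV (E.pb h) ι' := by
  intro t
  obtain ⟨ψ, h1, h2, h3⟩ := hE (h.f t)
  refine ⟨fun s => ψ (h.f s), h1.comp h.cf.continuousAt (hh t),
    h.cf.continuousAt.eventually h2, ?_⟩
  have h4 : Tendsto (fun x : Y'.G × Y'.T => (h.ρ x.1, h.f x.2)) (𝓝 (1, t)) (𝓝 (1, h.f t)) := by
    have := ((h.cρ.comp continuous_fst).prodMk (h.cf.comp continuous_snd)).tendsto (1, t)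
    simpa only [comp_apply, map_one] using this
  filter_upwards [h4.eventually h3] with x hx a
  have := hx a
  rw [← h.eqv] at this
  exact this

end pull

section wk

variable {Y : Ch.Sp} {ι : Y.T → A} {p q p' q' k l : ℕ} {a b : H Y.X} {η θ : Hev Y.X}

theorem Wk.zero : Wk Y ι p q 0 :=
  ⟨(H.deg _ _).zero_mem, fun _ _ _ _ _ _ _ _ _ _ _ _ _ _ _ _ => by rw [map_zero, zero_mul]⟩

theorem Wk.add (ha : Wk Y ι p q a) (hb : Wk Y ι p q b) : Wk Y ι p q (a + b) :=
  ⟨(H.deg _ _).add_mem ha.1 hb.1, fun Z _ B _ _ j h m p' q' β h1 h2 h3 h4 h5 => by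
    rw [map_add, add_mul, ha.2 Z B j h m p' q' β h1 h2 h3 h4 h5,
      hb.2 Z B j h m p' q' β h1 h2 h3 h4 h5, add_zero]⟩

theorem Wk.smul (z : ℂ) (ha : Wk Y ι p q a) : Wk Y ι p q (z • a) :=
  ⟨(H.deg _ _).smul_mem z ha.1, fun Z _ B _ _ j h m p' q' β h1 h2 h3 h4 h5 => by
    have e : H.map h.map (z • a) = z • H.map h.map a := map_smul (H.mapA h.map) z a
    rw [e, smul_mul_assoc, ha.2 Z B j h m p' q' β h1 h2 h3 h4 h5, smul_zero]⟩

theorem Wk.neg (ha : Wk Y ι p q a) : Wk Y ι p q (-a) := by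
  have := ha.smul (-1)
  rwa [neg_one_smul] at this

theorem Wk.sub (ha : Wk Y ι p q a) (hb : Wk Y ι p q b) : Wk Y ι p q (a - b) := by
  rw [sub_eq_add_neg]
  exact ha.add hb.neg

theorem Wk.sum {I : Type*} (s : Finset I) {c : I → H Y.X} (h : ∀ i ∈ s, Wk Y ι p q (c i)) :
    Wk Y ι p q (∑ i ∈ s, c i) :=
  Finset.sum_induction c (Wk Y ι p q) (fun _ _ => Wk.add) Wk.zero h

theorem Wk.mul_ty (hM : StMul) (ha : Wk Y ι p q a) (hb : Ty ι Y.π p' q' b) :
    Wk Y ι (p + p') (q + q') (a * b) := by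
  refine ⟨?_, fun Z _ B _ _ j h m p'' q'' β h1 h2 h3 h4 h5 => ?_⟩
  · have := ha.1.mul hb.1
    rwa [← Nat.cast_add, add_add_add_comm] at this
  · rw [map_mul, mul_assoc]
    exact ha.2 Z B j h m _ _ _ h1 h2 h3 ((Alg_ty_pull h3 hb).mul hM h4)
      (by rwa [← add_assoc, ← add_assoc])

theorem Ty.mul_wk (hM : StMul) (hb : Ty ι Y.π p' q' b) (ha : Wk Y ι p q a) :
    Wk Y ι (p' + p) (q' + q) (b * a) := by
  rw [hb.1.comm ha.1, add_comm p', add_comm q']
  exact (ha.mul_ty hM hb).smul _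

theorem Ty.good (hM : StMul) (h : Ty ι Y.π k k η.1) : Good Y ι k η := by
  refine ⟨?_, fun p q ζ hζ => ?_⟩
  · rw [Hev.mem_deg, two_mul, ← Nat.cast_add]
    exact h.1
  · rw [add_comm p, add_comm q]
    exact h.mul_wk hM hζ

theorem Good.zero : Good Y ι k 0 :=
  ⟨Submodule.zero_mem _, fun _ _ _ _ => by rw [ZeroMemClass.coe_zero, zero_mul]; exact Wk.zero⟩

theorem Good.one : Good Y ι 0 1 :=
  ⟨Hev.one_deg, fun _ _ _ h => by rw [OneMemClass.coe_one, one_mul]; exact h⟩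

theorem Good.add (h : Good Y ι k η) (h' : Good Y ι k θ) : Good Y ι k (η + θ) :=
  ⟨Submodule.add_mem _ h.1 h'.1, fun p q ζ hζ => by
    rw [AddMemClass.coe_add, add_mul]
    exact (h.2 p q ζ hζ).add (h'.2 p q ζ hζ)⟩

theorem Good.smul (z : ℂ) (h : Good Y ι k η) : Good Y ι k (z • η) :=
  ⟨Submodule.smul_mem _ z h.1, fun p q ζ hζ => by
    rw [Subalgebra.coe_smul, smul_mul_assoc]
    exact (h.2 p q ζ hζ).smul z⟩

theorem Good.neg (h : Good Y ι k η) : Good Y ι k (-η) := by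
  have := h.smul (-1)
  rwa [neg_one_smul] at this

theorem Good.sub (h : Good Y ι k η) (h' : Good Y ι k θ) : Good Y ι k (η - θ) := by
  rw [sub_eq_add_neg]
  exact h.add h'.neg

theorem Good.mul (h : Good Y ι k η) (h' : Good Y ι l θ) : Good Y ι (k + l) (η * θ) :=
  ⟨by rw [Nat.cast_add]; exact Hev.mul_deg h.1 h'.1, fun p q ζ hζ => by
    have := h.2 _ _ _ (h'.2 p q ζ hζ)
    rw [add_assoc, add_assoc, add_comm l, ← mul_assoc] at this
    exact this⟩

theorem Good.pow (h : Good Y ι k η) (n : ℕ) : Good Y ι (n * k) (η ^ n) := by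
  induction n with
  | zero => rw [zero_mul, pow_zero]; exact Good.one
  | succ n ih => rw [pow_succ, Nat.succ_mul]; exact ih.mul h

theorem Good.sum {I : Type*} (s : Finset I) {c : I → Hev Y.X} (h : ∀ i ∈ s, Good Y ι k (c i)) :
    Good Y ι k (∑ i ∈ s, c i) :=
  Finset.sum_induction c (Good Y ι k) (fun _ _ => Good.add) Good.zero h

theorem Good.of_sum {I : Type*} {s : Finset I} {c : I → Hev Y.X} {i : I} (hi : i ∈ s)
    (h : Good Y ι k (∑ j ∈ s, c j)) (h' : ∀ j ∈ s, j ≠ i → Good Y ι k (c j)) :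
    Good Y ι k (c i) := by
  classical
  rw [← Finset.add_sum_erase s c hi] at h
  have := h.sub (Good.sum (s.erase i) fun j hj =>
    h' j (Finset.mem_of_mem_erase hj) (Finset.ne_of_mem_erase hj))
  rwa [add_sub_cancel_right] at this

theorem Wk.eq_zero (hZ : StZero) [CompactSpace Y.X] (hY : IsAS Y ι) {m : ℕ} (hd : Dim Y ι m)
    (hb : Big m p q) (ha : Wk Y ι p q a) : a = 0 := by
  have := ha.2 Y A ι (Mor.id Y) m 0 0 1 hY hd Alg_hm_id (ty_one hZ) hb
  rwa [mul_one, H.map_id (Mor.map_id Y)] at this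

theorem Alg_cd_of_mdl {X : Type} [TopologicalSpace X] [Nice X] {Hol : (X → ℂ) → X → Prop} {n : ℕ}
    (h : Mdl Hol fun _ S => Small n S) : CD n (univ : Set X) := by
  refine CD.of_locally fun x _ => ?_
  obtain ⟨N, k, V, Ω, f, φ, hx, hm, hs⟩ := h x
  refine ⟨V, hm.isOpen.mem_nhds hx, ?_⟩
  have : Nice V := Nice.of_isLocallyClosed hm.isOpen.isLocallyClosed
  have : Nice (Fin N → ℂ) := ⟨inferInstance, inferInstance, inferInstance⟩
  have h1 : CD n (univ : Set V) := (hs.cd.preimage hm.emb).mono fun y _ => ⟨y, y.2, rfl⟩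
  have h2 := h1.range_emb IsEmbedding.subtypeVal
  rwa [Subtype.range_val, ← univ_inter V] at h2

theorem cd_of_dim (hQ : StQuot) (hY : IsAS Y ι) {m : ℕ} (hd : Dim Y ι m) :
    CD (2 * m) (univ : Set Y.X) := by
  have := Alg_cd_of_mdl (hQ Y A ι hY m hd)
  rwa [Nat.cast_mul, Nat.cast_ofNat] at this

theorem Alg_eq_zero_of_cd {X : Type} [TopologicalSpace X] [Nice X] [CompactSpace X] {n j : ℤ}
    (h : CD n (univ : Set X)) {c : H X} (hc : H.IsDeg j c) (hj : n < j) : c = 0 := by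
  obtain ⟨a, h0, h1, rfl⟩ := H.isDeg_iff.1 hc
  rw [← Fl.toH_cls (Zc_of_compact h0),
    h.top' IsEmbedding.id (subset_univ _) j hj _ (cls_mem_deg h1), map_zero]

theorem Ty.eq_zero (hV : StVan) (hQ : StQuot) (hR : StResC) [CompactSpace Y.X] (hY : IsAS Y ι)
    {m : ℕ} (hd : Dim Y ι m) (hb : Big m p q) (ha : Ty ι Y.π p q a) : a = 0 := by
  obtain ⟨h1, h2⟩ := hb
  rcases h1.eq_or_lt with e | e
  · obtain ⟨m, rfl⟩ : ∃ m', m = m' + 1 := ⟨m - 1, by omega⟩
    obtain ⟨M, φ, hn, hφ, hi⟩ := hR Y.X (HolQ ι Y.π) m (hQ Y A ι hY _ hd)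
    refine hi a ?_ (hV M p q _ (ha.2 M φ hφ) (hn ▸ h2))
    have := ha.1
    rwa [← e, Nat.cast_mul, Nat.cast_ofNat] at this
  · exact Alg_eq_zero_of_cd (cd_of_dim hQ hY hd) ha.1 (by exact_mod_cast e)

end wk

theorem stWk (hM : StMul) (hV : StVan) (hQ : StQuot) (hR : StResC) : StWk := by
  intro Y A _ _ ι _ p q c hc
  exact ⟨hc.1, fun Z _ B _ _ j h m p' q' β h1 h2 h3 h4 h5 =>
    ((Alg_ty_pull h3 hc).mul hM h4).eq_zero hV hQ hR h1 h2 h5⟩

theorem stDiv : StDiv := by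
  intro Y A _ _ ι _ r s P Q hPQ hP hQ _
  refine ⟨hQ, fun j k => ?_⟩
  induction k using Nat.strong_induction_on generalizing j with
  | _ k ih =>
  intro e
  have h1 := hPQ.2 (r + j) k (by omega)
  rw [coeff_mul] at h1
  have h3 : ∀ x ∈ Finset.HasAntidiagonal.antidiagonal (r + j), x ≠ (r, j) →
      Good Y ι k (P.coeff x.1 * Q.coeff x.2) := by
    intro x hx hne
    have hx' : x.1 + x.2 = r + j := Finset.HasAntidiagonal.mem_antidiagonal.1 hx
    by_cases a1 : r < x.1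
    · rw [coeff_eq_zero_of_natDegree_lt (hP.1.le.trans_lt a1), zero_mul]
      exact Good.zero
    by_cases a2 : s < x.2
    · rw [coeff_eq_zero_of_natDegree_lt (hQ.le.trans_lt a2), mul_zero]
      exact Good.zero
    have a3 : x.1 ≠ r := fun e' => hne (Prod.ext e' (by dsimp only; omega))
    have := (hP.2 x.1 (r - x.1) (by omega)).mul (ih (s - x.2) (by omega) x.2 (by omega))
    rwa [show r - x.1 + (s - x.2) = k by omega] at this
  have h4 : (r, j) ∈ Finset.HasAntidiagonal.antidiagonal (r + j) :=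
    Finset.HasAntidiagonal.mem_antidiagonal.2 rfl
  have h2 := Good.of_sum h4 h1 h3
  dsimp only at h2
  rwa [hP.1.coeff, one_mul] at h2

theorem Alg_lh {X Z : Type} [TopologicalSpace X] [TopologicalSpace Z] {p : C(X, Z)} {ξ : Hev X}
    {r : ℕ} (h : Injective (H.lh p fun j : Fin r => ξ.1 ^ (j : ℕ))) {P : (Hev Z)[X]}
    (hP : P.degree < r) {c : H Z} (h0 : H.map p c * (evP p ξ P).1 = 0) {j : ℕ} (hj : j < r) :
    c * (P.coeff j).1 = 0 := by
  have e : ∑ j : Fin r, monomial (j : ℕ) (P.coeff j) = P :=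
    (P.sum_fin (fun j a => monomial j a) (by simp) hP).trans P.sum_monomial_eq
  have h1 : H.lh p (fun j : Fin r => ξ.1 ^ (j : ℕ))
      (Finsupp.equivFunOnFinite.symm fun j : Fin r => c * (P.coeff j).1) = 0 := by
    rw [← h0, ← Finsupp.univ_sum_single (Finsupp.equivFunOnFinite.symm _), map_sum]
    conv_rhs => rw [← e, map_sum, AddSubmonoidClass.coe_finsetSum, Finset.mul_sum]
    refine Finset.sum_congr rfl fun j _ => ?_
    rw [H.lh_single, evP_monomial, Finsupp.equivFunOnFinite_symm_apply_apply, map_mul, mul_assoc]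
    rfl
  exact DFunLike.congr_fun ((injective_iff_map_eq_zero _).1 h _ h1) ⟨j, hj⟩

theorem stChern (hM : StMul) (hZ : StZero) (hP : StPS) (hC : StC1) : StChern := by
  intro Y A _ _ ι _ E hE
  refine ⟨E.chern_mon, ?_⟩
  choose Rm hd hc he using fun n : ℕ => exists_of_lh E.lh_bijective.2 E.xi_deg (k := n)
    (c := E.xi ^ n) (by simpa using Hev.pow_deg E.xi_deg n)
  rcases Nat.eq_zero_or_eq_succ_pred E.r with hr | hr
  · intro j k e
    obtain ⟨rfl, rfl⟩ : j = E.r ∧ k = 0 := by omega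
    rw [E.chern_mon.coeff]
    exact Good.one
  set r := E.r.pred with hr'
  have hr1 : E.r = r + 1 := hr
  have seg : ∀ k, Good Y ι k ((Rm (r + k)).coeff r) := by
    intro k
    have hdeg : (Rm (r + k)).coeff r ∈ Hev.deg Y.X k := by
      have := hc (r + k) r
      rwa [Nat.cast_add, add_sub_cancel_left] at this
    refine ⟨hdeg, fun p q ζ hζ => ⟨?_, fun Z _ B _ _ j h m p' q' β h1 h2 h3 h4 h5 => ?_⟩⟩
    · have := H.IsDeg.mul (Hev.mem_deg.1 hdeg) hζ.1
      rwa [show (2 * (k : ℤ) + (p + q : ℕ)) = (p + k + (q + k) : ℕ) by push_cast; ring] at this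
    obtain ⟨a1, a2, a3, a4⟩ := hP Z B j h1 (E.pb h) (Alg_hv_pb h3 hE)
    have a5 := ((Alg_ty_pull a2 h4).mul hM ((hC _ _ _ a1 _ a3).pow hM hZ (r + k)))
    have a6 := hζ.2 (E.pb h).PS _ _ (h.comp (E.pb h).pp) (m + r) _ _ _ a1 (a4 m r h2 hr1)
      (Alg_hm_comp h3 a2) a5 (by obtain ⟨b1, b2⟩ := h5; constructor <;> omega)
    have a7 : evP (E.pb h).pp.map (E.pb h).xi
        ((Rm (r + k)).map (Hev.map h.map : Hev Y.X →+* Hev Z.X)) = (E.pb h).xi ^ (r + k) := by
      rw [evP_map, ← (iso_pb E h).pmor_pp (iso_pb E h).inj, ← (iso_pb E h).pmor_xi (iso_pb E h).inj,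
        ← map_evP, he, map_pow]
    have a8 := Alg_lh (E.pb h).lh_bijective.1
      (P := (Rm (r + k)).map (Hev.map h.map : Hev Y.X →+* Hev Z.X))
      (degree_map_le.trans_lt (hd (r + k))) (c := H.map h.map ζ * β) (j := r) (by
        rw [a7, map_mul, mul_assoc, H.map_map, ← Mor.map_comp]
        exact a6) (show r < E.r by omega)
    rw [coeff_map] at a8
    rw [map_mul, mul_assoc]
    exact (Hev.commute (Hev.map h.map ((Rm (r + k)).coeff r)).2 _).trans a8
  have low : ∀ n, n < E.r → Rm n = X ^ n := fun n hn => sub_eq_zero.1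
    (eq_zero_of_lh E.lh_bijective.1 ((degree_sub_le _ _).trans_lt (max_lt (hd n)
      ((degree_X_pow_le n).trans_lt (by exact_mod_cast hn))))
      (by rw [map_sub, he, map_pow, evP_X, sub_self]))
  have rc : ∀ n, ∑ a ∈ Finset.range (E.r + 1), E.chern.coeff a * (Rm (a + n)).coeff r = 0 := by
    intro n
    have h1 : ∑ a ∈ Finset.range (E.r + 1), C (E.chern.coeff a) * Rm (a + n) = 0 := by
      refine eq_zero_of_lh E.lh_bijective.1 (mem_degreeLT.1 (Submodule.sum_mem _ fun a _ => ?_)) ?_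
      · rw [← smul_eq_C_mul]
        exact Submodule.smul_mem _ _ (mem_degreeLT.2 (hd _))
      · have h2 := E.evP_chern
        rw [E.chern.as_sum_range' (E.r + 1) (Nat.lt_succ_of_le E.chern_mon.le), map_sum] at h2
        rw [map_sum, ← zero_mul (E.xi ^ n), ← h2, Finset.sum_mul]
        refine Finset.sum_congr rfl fun a _ => ?_
        rw [map_mul, evP_C, he, evP_monomial, pow_add, mul_assoc]
    have h3 := congrArg (fun P => Polynomial.coeff P r) h1
    simpa only [finsetSum_coeff, coeff_C_mul, coeff_zero] using h3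
  intro j k
  induction k using Nat.strong_induction_on generalizing j with
  | _ k ih =>
  intro e
  cases k with
  | zero =>
    rw [show j = E.r from e, E.chern_mon.coeff]
    exact Good.one
  | succ k =>
    have h1 := Good.of_sum (Y := Y) (ι := ι) (k := k + 1) (i := j)
      (c := fun a => E.chern.coeff a * (Rm (a + k)).coeff r)
      (Finset.mem_range.2 (show j < E.r + 1 by omega)) (by rw [rc k]; exact Good.zero)
      fun a ha hne => by
        have ha' := Finset.mem_range.1 ha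
        rcases hne.lt_or_gt with lt | lt
        · rw [low _ (by omega), coeff_X_pow, if_neg (by omega), mul_zero]
          exact Good.zero
        · have := (ih (E.r - a) (by omega) a (by omega)).mul (seg (a - j))
          rwa [show E.r - a + (a - j) = k + 1 by omega, show r + (a - j) = a + k by omega] at this
    rwa [low _ (by omega), coeff_X_pow, if_pos (by omega), mul_one] at h1

end Vale.Agent.P287Q.H3
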