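import Vale.Agent.P287Q.H3.ChD
import Vale.Agent.P287Q.H3.Kd
import Vale.Agent.P287Q.H3.Alg

set_option linter.all false

/-!
# Invariants of unbalanced Hodge type vanish
-/

namespace Vale.Agent.P287Q.H3

open Set Function Topology Filter P291Z P269 P269.Ch P269.Holo P269.Mono P269.Orb Module

/-- Cycles have the expected dimension. -/
def StSm : Prop :=
  ∀ (A W : Type) [NormedRing A] [NormedAlgebra ℂ A] [NormedAddCommGroup W] [NormedSpace ℂ W]
    [FiniteDimensional ℂ A] [FiniteDimensional ℂ W] (act : A → W → W) (O M : Set W) (d : ℕ),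
    P269.Cyc act O M d → ∀ x ∈ O, ∃ U ∈ 𝓝 x, Small (2 * (d + finrank ℂ A)) (U ∩ O)

variable {S Λ R J K ι ν κ : Type} [Fintype S] [Fintype Λ] [Fintype R] [Fintype J] [Fintype K]
  [Fintype ι] [DecidableEq ι] [Fintype ν] [Fintype κ]

section chart

variable {ch : Ch ι J} {F : Fam S Λ R J K} {e : K → ι → ℕ} {K₀ : RD R} {ℓ : R → ι → ℤ}
  {S₀ O M Z : Set (ch.WF ν κ Λ)} {d : ℕ}

/-- the virtual class of an analytic base cycle -/
theorem hdg_vd (hC : StCone) (hB : StBun) (hm : StSm) (hs : ch.Std F e K₀ ℓ)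
    (h : Vd F e S₀ O M d) (hS : ∀ x ∈ S₀, An S₀ x) :
    (∀ x ∈ ch.solF ν κ F ∩ S₀, An (ch.solF ν κ F ∩ S₀) x) ∧
      ∀ [CompactSpace (ModS F S₀)] p q η, Wk (zsp (h.gz hs).toOZ) (zvl (h.gz hs).toOZ) p q η →
        p ≠ q → Loc.intg (virF F e S₀) η = 0 := by
  obtain ⟨k, i, hk, -⟩ := h.exists_isKP hs
  have hO : ∀ x ∈ O, An O x := fun x hx => by
    obtain ⟨U, a, b⟩ := h.dom.opn
    rw [b] at hx ⊢
    exact (hS x hx.1).inter (an_of_mem_nhds (a.mem_nhds hx.2))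
  obtain ⟨h1, h2, h3, h4⟩ := hB F e K₀ ℓ S₀ O hs h.adm h.dom k i hk hO
  refine ⟨Kd.an_Z h.dom hk hO h2 h3, fun p q η a b => ?_⟩
  rw [h.virF_eq hk]
  haveI := (h.gz hs).act
  exact Kd.zero h.dom hk hO (h.gz hs).orb hC (hm _ _ _ _ _ _ h.cyc) h1 h2 h3 h4
    (h.dom.fnd_deg h.cyc) a b

theorem FTy.cocycle (h : GZ F ℓ Z) {f : Fac F.toWt ν κ} {p q : ℕ} (ht : FTy f p q) (hf : f.At Z) :
    supp (δ (F.coch Z f)) = ∅ := by
  cases f with
  | psi n => exact h.cocycle_psi n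
  | ev n A c =>
    exact (congrArg (fun a => supp (δ a)) (h.evF_eq n hf _)).trans
      (cocycle_pull (h.eqh_vl n hf).toEqv.qm.continuous (Mono.DgI.rep_cocycle c))
  | par A c =>
    exact (congrArg (fun a => supp (δ a)) (h.parF_eq hf _)).trans
      (cocycle_pull (h.eqh_par hf).toEqv.qm.continuous (Mono.DgI.rep_cocycle c))
  | dg q => exact ht.elim
  | tw Θ => exact GZ.cocycle_tw Θ

theorem hdg_ind {Y : Type} (B : Set Y) : IsDeg 0 (ind B) := fun l hl => if_neg (by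
  rintro ⟨y, -, e⟩
  exact hl (by simp [e]))

end chart

variable [DecidableEq R] {F : Fam S Λ R J K} {δ₀ : J → ℕ} {k D : ℕ} {g : ℤ} {d : R → ℤ} {u : ν → ℕ}

/-- all inputs -/
structure Inp : Prop where
  cone : StCone
  bun : StBun
  sm : StSm
  cyc : StCyc
  fac : StFac
  mul : StMul
  zero : StZero

variable (hI : Inp) (h : F.Nice δ₀) (hk : F.Big k) (hD : F.BigD k D)
include hI h hk hD

/-- the moduli space is analytic -/
theorem Inp.an : ∀ x ∈ F.Zs κ k D g d fun n => u n • δ₀, An (F.Zs κ k D g d fun n => u n • δ₀) x :=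
  let ⟨_, _, _, _, a⟩ := h.vd' κ hk
  let ⟨_, _, b, c⟩ := a D hD g d u
  (hdg_vd hI.cone hI.bun hI.sm b.toStd c (hI.cyc F _ _ _ _ _ _ b h.pol)).1

/-- classes of unbalanced weak type -/
theorem Inp.wk [CompactSpace (F.Mod κ k D g d fun n => u n • δ₀)] {p q : ℕ}
    {η : H (F.Mod κ k D g d fun n => u n • δ₀)}
    (hη : Wk (zsp (h.gz κ hk hD g d u).toOZ) (zvl (h.gz κ hk hD g d u).toOZ) p q η) (e : p ≠ q) :
    Loc.intg (F.vir κ k D g d fun n => u n • δ₀) η = 0 :=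
  let ⟨_, _, _, _, a⟩ := h.vd' κ hk
  let ⟨_, _, b, c⟩ := a D hD g d u
  (hdg_vd hI.cone hI.bun hI.sm b.toStd c (hI.cyc F _ _ _ _ _ _ b h.pol)).2 p q η hη e

omit hI in
theorem hdg_compact [IsEmpty κ] (hc : F.Cp) : CompactSpace (F.Mod κ k D g d fun n => u n • δ₀) :=
  ⟨(h.toGood.isCompact_dia hc hk hD _).of_isClosed_subset isClosed_univ fun _ _ q => isEmptyElim q⟩

/-- **the vanishing at a fixed level** -/
theorem Inp.lvl [IsEmpty κ] (hc : F.Cp) {a : H (F.Mod κ k D g d fun n => u n • δ₀)}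
    (ha : H.IsDeg 0 a) (T : List (Fac F.toWt ν κ × ℕ × ℕ))
    (hT : ∀ x ∈ T, FTy x.1 x.2.1 x.2.2 ∧ x.1.At (F.Zs κ k D g d fun n => u n • δ₀))
    (e : (T.map (·.2.1)).sum ≠ (T.map (·.2.2)).sum) :
    Loc.intg (F.vir κ k D g d fun n => u n • δ₀) (a * (T.map fun x => F.cl _ x.1).prod) = 0 := by
  haveI := hdg_compact (g := g) (d := d) (u := u) (κ := κ) h hk hD hc
  exact hI.wk h hk hD (Ty.mul_wk hI.mul (ty_deg0 hI.zero ha)
    (hI.fac F _ _ (h.gz κ hk hD g d u) (hI.an h hk hD) T hT)) (by simpa using e)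

omit h hk hD in
/-- **invariants of unbalanced type vanish** -/
theorem Inp.hdg : StHdg := by
  intro S Λ R J K ν κ _ _ _ _ _ _ _ _ F δ₀ k g d u P T h hT e
  haveI : IsEmpty κ := ⟨fun q => by
    obtain ⟨x, a, b⟩ := List.mem_map.1 (h.dg q)
    have := hT x a
    rwa [b] at this⟩
  have h1 : ∀ᶠ D in atTop, 0 = F.intg (F.vir κ k D g d fun n => u n • δ₀) P (T.map Prod.fst) := by
    filter_upwards [h.lvl] with D a
    haveI := hdg_compact (g := g) (d := d) (u := u) (κ := κ) h.nice h.big a.big h.cp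
    have b := fun x hx => a.fac _ (List.mem_map_of_mem (f := Prod.fst) (a := x) hx)
    have c : ∀ y ∈ (T.map Prod.fst).map (F.coch (F.Zs κ k D g d fun n => u n • δ₀)),
        supp (δ y) = ∅ := by
      simp only [List.forall_mem_map]
      exact fun x hx => (hT x hx).cocycle a.gz (b x hx)
    have f := hI.lvl h.nice h.big a.big h.cp
      (hcls_isDeg (hdg_ind (F.sel P))) T (fun x hx => ⟨hT x hx, b x hx⟩) e
    rw [Fam.intg, ← Loc.intg_hcls _ (cocycle_mul (cocycle_ind' a.clo) (NF.cocycle_prod c)),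
      hcls_mul (cocycle_ind' a.clo) (NF.cocycle_prod c), NF.hcls_prod c, List.map_map, List.map_map]
    exact f.symm
  obtain ⟨D, a, b⟩ := ((Classical.epsilon_spec (p := fun z => ∀ᶠ D in atTop, z =
    F.intg (F.vir κ k D g d fun n => u n • δ₀) P (T.map Prod.fst)) ⟨0, h1⟩).and h1).exists
  exact a.trans b.symm

end Vale.Agent.P287Q.H3
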