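import Vale.Agent.P287Q.H3.All0
import Vale.Agent.P287Q.H3.ConeA
import Vale.Agent.P287Q.H3.ConeT
import Vale.Agent.P287Q.H3.Bun
import Vale.Agent.P287Q.H3.Cyc
import Vale.Agent.P287Q.H3.Fac
import Vale.Agent.P287Q.H3.Hdg

/-!
# Invariants of unbalanced Hodge type vanish, without hypotheses
-/

namespace Vale.Agent.P287Q.H3

theorem stCone' : StCone :=
  stCone Cn.st stClo stDrop' stQuot' stZero stPS stTot stChern' stDiv

theorem stFac' : StFac := stFac stMul stZero stWk' stChern'

theorem inp : Inp := ⟨stCone', stBun, stSm, stCyc stClo, stFac', stMul, stZero⟩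

theorem stHdg : StHdg := inp.hdg

end Vale.Agent.P287Q.H3
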