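import Vale.Agent.P287Q.H3.St

/-!
# First Chern classes of holomorphic characters have type `(1, 1)`
-/

namespace Vale.Agent.P287Q.H3

open Set Function Topology Filter P291Z P269 P269.Ch P269.Holo P269.Orb

namespace C1

variable {T A : Type} [TopologicalSpace T] [NormedAddCommGroup A] [NormedSpace ℂ A] {ι : T → A}
  {t : T}

theorem hmul {f g : T → ℂ} (h : HolAt ι f t) (h' : HolAt ι g t) :
    HolAt ι (fun s => f s * g s) t :=
  (h.prod h').comp_an (Ψ := fun p => p.1 * p.2) (analyticAt_fst.mul analyticAt_snd)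

theorem hprod {α : Type} (S : Finset α) {f : α → T → ℂ} (h : ∀ a, HolAt ι (f a) t) :
    HolAt ι (fun s => ∏ a ∈ S, f a s) t := by
  classical
  induction S using Finset.induction_on with
  | empty => simpa using HolAt.const (1 : ℂ)
  | insert a S ha ih => simpa only [Finset.prod_insert ha] using hmul (h a) ih

theorem hdiv {f g : T → ℂ} (h : HolAt ι f t) (h' : HolAt ι g t) (h0 : g t ≠ 0) :
    HolAt ι (fun s => f s / g s) t :=
  (h.prod h').comp_an (Ψ := fun p => p.1 / p.2) (analyticAt_fst.div analyticAt_snd h0)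

theorem hpow {f : T → ℂ} (h : HolAt ι f t) (n : ℕ) : HolAt ι (fun s => f s ^ n) t :=
  h.comp_an (Ψ := fun z => z ^ n) (analyticAt_id.pow n)

/-- A germ which is equivariant near the stabiliser extends to an invariant open set. -/
theorem ext {Y : Ch.Sp} {ι : Y.T → A} (h : IsAS Y ι) {χ : Y.G →* ℂˣ} {w : Y.T → ℂ} {t : Y.T}
    (hw : HolAt ι w t) (h0 : w t ≠ 0) (he : ∀ γ ∈ MulAction.stabilizer Y.G t,
      ∀ᶠ p : Y.G × Y.T in 𝓝 (γ, t), w (p.1 • p.2) = χ p.1 * w p.2) :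
    ∃ (O : Set Y.X) (u : Y.T → ℂ), IsOpen O ∧ Y.π t ∈ O ∧ ∀ s, Y.π s ∈ O →
      HolAt ι u s ∧ u s ≠ 0 ∧ ∀ g, u (g • s) = χ g * u s := by
  classical
  obtain ⟨B, U, b1, b2, b3, b4, b5⟩ := generalized_tube_lemma (isCompact_stabilizer (G := Y.G) t)
    (isCompact_singleton (x := t)) (isOpen_interior
      (s := {p : Y.G × Y.T | w (p.1 • p.2) = χ p.1 * w p.2})) (by
        rintro ⟨γ, _⟩ ⟨hγ, rfl⟩
        exact mem_interior_iff_mem_nhds.2 (he γ hγ))
  obtain ⟨M, m1, m2⟩ := exists_nhds_of_proper b1 b3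
  have c := h.emb.continuous.continuousAt (x := t)
  obtain ⟨V, v1, v2, v3⟩ := eventually_nhds_iff.1 ((hw.eventually c).and
    (((hw.cont c).eventually_ne h0).and (inter_mem m1 (b2.mem_nhds (b4 rfl)))))
  obtain ⟨u, hu⟩ : ∃ u : Y.T → ℂ, ∀ (g : Y.G) s, g • s ∈ V → u s = ((χ g)⁻¹ : ℂˣ) * w (g • s) := by
    refine ⟨fun s => if e : ∃ g : Y.G, g • s ∈ V then ((χ e.choose)⁻¹ : ℂˣ) * w (e.choose • s)
      else 0, fun g s hg => ?_⟩
    have e : ∃ g : Y.G, g • s ∈ V := ⟨g, hg⟩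
    refine (dif_pos e).trans ?_
    have e1 := e.choose_spec
    generalize e.choose = k at e1
    have e2 : k • s = (k * g⁻¹) • g • s := by rw [mul_smul, inv_smul_smul]
    have e3 := interior_subset (b5 (mk_mem_prod (m2 _ (v1 _ hg).2.2.1 (k * g⁻¹)
      (e2 ▸ (v1 _ e1).2.2.1)) (v1 _ hg).2.2.2))
    rw [e2, show w ((k * g⁻¹) • g • s) = _ from e3, ← mul_assoc, ← Units.val_mul, map_mul,
      inv_mul_cancel_left, map_inv]
  refine ⟨Y.π '' V, u, Y.quo.isOpenMap _ v2, ⟨t, v3, rfl⟩, fun s ⟨x, hx, e⟩ => ?_⟩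
  obtain ⟨g, rfl⟩ := (Y.fib _ _).1 e.symm
  have cg : ContinuousAt (fun s : Y.T => g • s) s := by fun_prop
  refine ⟨(hmul (HolAt.const _) ((v1 _ hx).1.comp (u := fun s => g • s) cg (h.act g s))).congr
    ((cg.eventually (v2.mem_nhds hx)).mono fun x hx => (hu g x hx).symm), ?_, fun k => ?_⟩
  · rw [hu g s hx]
    exact mul_ne_zero (Units.ne_zero _) (v1 _ hx).2.1
  · have e2 : (g * k⁻¹) • k • s = g • s := by rw [mul_smul, inv_smul_smul]
    rw [hu (g * k⁻¹) _ (e2 ▸ hx), hu g s hx, e2, ← mul_assoc, ← Units.val_mul, map_mul, map_inv,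
      mul_inv_rev, inv_inv]

/-- A power of a holomorphic character has local holomorphic trivialisations downstairs. -/
theorem loc {Y : Ch.Sp} {ι : Y.T → A} (h : IsAS Y ι) {χ : Y.G →ₜ* ℂˣ} (hχ : HV (char χ) ι)
    (t : Y.T) : ∃ (n : ℕ) (O : Set Y.X) (u : Y.T → ℂ), n ≠ 0 ∧ IsOpen O ∧ Y.π t ∈ O ∧
      ∀ s, Y.π s ∈ O → HolAt ι u s ∧ u s ≠ 0 ∧ ∀ g, u (g • s) = (χ g : ℂ) ^ n * u s := by
  obtain ⟨ψ, hψ⟩ := hχ t
  obtain ⟨v, v1, v2, v3⟩ : ∃ v : Y.T → ℂ, HolAt ι v t ∧ v t ≠ 0 ∧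
      ∀ᶠ p : Y.G × Y.T in 𝓝 (1, t), v (p.1 • p.2) = χ p.1 * v p.2 := by
    refine ⟨fun s => ψ s fun _ => 1, hψ.hol.apply (HolAt.const _), fun e => ?_,
      hψ.eqv.mono fun p hp => hp _⟩
    obtain ⟨a, ha⟩ := (hψ.rng.self_of_nhds (1 : ℂ)).1 trivial
    have e1 : a = a (0 : Fin 1) • fun _ => (1 : ℂ) := funext fun i : Fin 1 => by
      rw [Subsingleton.elim i 0]; exact (mul_one _).symm
    rw [e1, map_smul, show ψ t (fun _ => 1) = 0 from e, smul_zero] at ha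
    exact zero_ne_one (α := ℂ) ha
  have := Fintype.ofFinite (MulAction.stabilizer Y.G t)
  obtain ⟨O, u, h1, h2, h3⟩ := ext h (χ := χ.toMonoidHom ^ Fintype.card (MulAction.stabilizer Y.G t))
    (w := fun s => ∏ γ : MulAction.stabilizer Y.G t, ((χ γ)⁻¹ : ℂˣ) * v (γ.1 • s)) (t := t)
    (hprod _ fun γ => hmul (HolAt.const _) (HolAt.comp (u := fun s => γ.1 • s)
      (by rw [γ.2]; exact v1) (by fun_prop) (h.act _ _)))
    (Finset.prod_ne_zero_iff.2 fun γ _ => mul_ne_zero (Units.ne_zero _) (by rw [γ.2]; exact v2))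
    fun γ₀ h₀ => by
      have key : ∀ γ : MulAction.stabilizer Y.G t, ∀ᶠ p : Y.G × Y.T in 𝓝 (γ₀, t),
          ((χ γ)⁻¹ : ℂˣ) * v (γ.1 • p.1 • p.2) =
            χ p.1 * (((χ (γ * γ₀))⁻¹ : ℂˣ) * v ((γ.1 * γ₀) • p.2)) := fun γ => by
        have c : Continuous fun p : Y.G × Y.T => (γ.1 * p.1 * (γ.1 * γ₀)⁻¹, (γ.1 * γ₀) • p.2) := by
          fun_prop
        filter_upwards [(c.tendsto' (γ₀, t) (1, t) (Prod.ext (mul_inv_cancel _)
          (mul_mem γ.2 h₀))).eventually v3] with p hp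
        rw [smul_smul, inv_mul_cancel_right, mul_smul] at hp
        rw [hp, map_mul, map_mul, map_inv]
        simp only [Units.val_mul, Units.val_inv_eq_inv_val]
        field_simp
      filter_upwards [eventually_all.2 key] with p hp
      rw [Finset.prod_congr rfl fun γ _ => hp γ, Finset.prod_mul_distrib, Finset.prod_const]
      exact congrArg₂ _ (by simp) (Equiv.prod_comp (Equiv.mulRight (⟨γ₀, h₀⟩ : MulAction.stabilizer Y.G t))
        fun γ : MulAction.stabilizer Y.G t => (((χ γ)⁻¹ : ℂˣ) : ℂ) * v (γ.1 • p.2))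
  exact ⟨Fintype.card (MulAction.stabilizer Y.G t), O, u, Fintype.card_ne_zero, h1, h2, fun s hs => ⟨(h3 s hs).1, (h3 s hs).2.1,
    fun g => ((h3 s hs).2.2 g).trans (by simp)⟩⟩

end C1

theorem stC1 (hB : StLB) (hL : StLin) (hZ : StZero) : StC1 := fun Y _ _ _ ι h χ hχ => by
  classical
  refine ⟨by simpa using Hev.mem_deg.1 (c1_deg χ), fun M φ hφ => ?_⟩
  choose n O u h1 h2 h3 h4 using C1.loc h hχ
  obtain ⟨S, hS⟩ := isCompact_univ.elim_finite_subcover (fun t => φ ⁻¹' O t)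
    (fun t => (h2 t).preimage φ.continuous) fun y _ =>
      mem_iUnion.2 ⟨Y.out (φ y), by simpa using h3 (Y.out (φ y))⟩
  have e : ∀ (i : S) t, Y.π t ∈ O i → ∀ g, u i (g • t) ^ ∏ j ∈ S.erase i, n j =
      (χ g : ℂ) ^ (∏ j ∈ S, n j) * u i t ^ ∏ j ∈ S.erase i, n j := fun i t ht g => by
    rw [(h4 i t ht).2.2, mul_pow, ← pow_mul, Finset.mul_prod_erase S n i.2]
  have k := hB M Y φ (χ ^ ∏ j ∈ S, n j) S (fun i => O i)
    (fun i t => u i t ^ ∏ j ∈ S.erase i, n j) (fun i => h2 i)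
    (fun y => by simpa using hS (mem_univ y))
    (fun i t ht => ⟨((h4 i t ht).1.cont h.emb.continuous.continuousAt).pow _,
      pow_ne_zero _ (h4 i t ht).2.1, fun g => (e i t ht g).trans (by simp)⟩)
    fun i j y hi hj => hφ y (fun x => u i (Y.out x) ^ (∏ l ∈ S.erase i, n l) /
      u j (Y.out x) ^ ∏ l ∈ S.erase j, n l) fun t ht => by
      rw [← ht] at hi hj
      refine (C1.hdiv (C1.hpow (h4 i t hi).1 (∏ l ∈ S.erase i, n l)) (C1.hpow (h4 j t hj).1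
        (∏ l ∈ S.erase j, n l)) (pow_ne_zero _ (h4 j t hj).2.1)).congr ?_
      filter_upwards [Y.cont.continuousAt.eventually ((h2 i).mem_nhds hi),
        Y.cont.continuousAt.eventually ((h2 j).mem_nhds hj)] with s a b
      obtain ⟨g, hg⟩ := Y.exists_out s
      rw [← hg, e i s a, e j s b, mul_div_mul_left _ _ (pow_ne_zero _ (Units.ne_zero _))]
  have h0 : ((∏ j ∈ S, n j : ℕ) : ℂ) ≠ 0 :=
    Nat.cast_ne_zero.2 (Finset.prod_ne_zero_iff.2 fun j _ => h1 j)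
  have := hL M 1 1 ((∏ j ∈ S, n j : ℕ) : ℂ)⁻¹ _ 0 k ((hZ M).2 1 1)
  rwa [add_zero, c1_pow, ← Nat.cast_smul_eq_nsmul ℂ, SetLike.val_smul, H.map_smulC,
    inv_smul_smul₀ h0] at this

end Vale.Agent.P287Q.H3
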