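import Vale.Agent.P287Q.Mf.Slot
import Vale.Agent.P269.Hdg.CmpB
import Vale.Agent.P269.Hdg.ExE

/-!
# Smooth cochains on a vector space and their forms
-/

namespace Vale.Agent.P287Q.H3.Mf0

open Set Function Topology Filter P291Z P269.Hdg P269.Hdg.Ex
open P287Q.Mf (frm)
open scoped ContDiff ComplexConjugate

section gs

variable {V V' : Type} [NormedAddCommGroup V] [NormedSpace ℂ V] [NormedAddCommGroup V']
  [NormedSpace ℂ V'] {a b : Coch V} {k : ℕ} {x : V}

/-- Smooth cochains. -/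
def GS (a : Coch V) : Prop :=
  ∀ (m : ℕ) (l : List (Fin m)), ContDiff ℝ ∞ fun y : Fin m → V => a.1 (l.map y)

theorem GS.zero : GS (0 : Coch V) := fun _ _ => contDiff_const (c := 0)

theorem GS.add (ha : GS a) (hb : GS b) : GS (a + b) := fun m l => (ha m l).add (hb m l)

theorem GS.smul (c : ℂ) (ha : GS a) : GS (c • a) := fun m l => (ha m l).const_smul c

theorem GS.sub (ha : GS a) (hb : GS b) : GS (a - b) := fun m l => (ha m l).sub (hb m l)

theorem GS.mul (ha : GS a) (hb : GS b) : GS (a * b) := fun m l => by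
  simp only [Coch.mul_val, cup, List.length_map, ← List.map_take, ← List.map_drop]
  exact ContDiff.sum fun p _ => (ha m _).mul (hb m _)

theorem GS.delta (ha : GS a) : GS (δ a) := fun m l => by
  simp only [δ_val, cob, List.length_map, List.eraseIdx_map]
  exact ContDiff.sum fun p _ => contDiff_const.mul (ha m _)

theorem GS.one : GS (1 : Coch V) := fun _ _ => by
  simp only [Coch.one_val, P291Z.unit, List.length_map]
  exact contDiff_const

theorem GS.sum {α : Type} (t : Finset α) {c : α → Coch V} (h : ∀ i ∈ t, GS (c i)) :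
    GS (∑ i ∈ t, c i) := Finset.sum_induction _ GS (fun _ _ => GS.add) GS.zero h

theorem GS.ofFn (ha : GS a) {m : ℕ} : ContDiff ℝ ∞ fun y : Fin m → V => a.1 (List.ofFn y) := by
  simp only [List.ofFn_eq_map]
  exact ha m _

theorem gs_of_ofFn (h : ∀ m : ℕ, ContDiff ℝ ∞ fun y : Fin m → V => a.1 (List.ofFn y)) : GS a :=
  fun m l => by
    have e : (fun y : Fin m → V => a.1 (l.map y)) =
        (fun z : Fin l.length → V => a.1 (List.ofFn z)) ∘ fun y i => y (l.get i) := by
      funext y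
      simp only [Function.comp_apply]
      conv_lhs => rw [← List.ofFn_get l, List.map_ofFn]
      rfl
    rw [e]
    exact (h _).comp (contDiff_pi.2 fun i => contDiff_apply ℝ V _)

theorem gs_ofG {G : (Fin (k + 1) → V) → ℂ} (h : ContDiff ℝ ∞ G) : GS (ofG G) :=
  gs_of_ofFn fun m => by
    by_cases e : m = k + 1
    · subst e
      simpa only [ofG_ofFn] using h
    · have : (fun y : Fin m → V => (ofG G).1 (List.ofFn y)) = fun _ => 0 :=
        funext fun y => isDeg_ofG G _ (by simp; omega)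
      rw [this]
      exact contDiff_const

theorem GS.mf (ha : GS a) {g : V → ℂ} (hg : ContDiff ℝ ∞ g) : GS (mf g a) :=
  (gs_ofG (hg.comp (contDiff_apply ℝ V 0))).mul ha

theorem GS.con (ha : GS a) (x : V) : GS (con x a) := gs_of_ofFn fun m => by
  simp only [con_val, List.length_ofFn]
  split_ifs
  · exact contDiff_const
  · have e : (fun y : Fin m → V => a.1 (x :: List.ofFn y)) =
        (fun z : Fin (m + 1) → V => a.1 (List.ofFn z)) ∘ fun y => Fin.cons x y := by
      funext y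
      simp [List.ofFn_succ]
    rw [e]
    exact ha.ofFn.comp (contDiff_pi.2 fun i =>
      Fin.cases contDiff_const (fun j => contDiff_apply ℝ V j) i)

theorem GS.pull (ha : GS a) {r : V' → V} (hr : ContDiff ℝ ∞ r) : GS (pull r a) := fun m l => by
  simp only [pull_val, List.map_map]
  exact (ha m l).comp (contDiff_pi.2 fun i => hr.comp (contDiff_apply ℝ V' i))

/-- The form of degree `k` of a cochain. -/
noncomputable def fm (k : ℕ) (a : Coch V) : V → (Fin k → V) → ℂ :=
  frm fun y : Fin (k + 1) → V => a.1 (List.ofFn y)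

theorem ev_of_van {X : Type} [TopologicalSpace X] {a : Coch X} {x : X} (h : a ∈ Van x) (m : ℕ) :
    ∀ᶠ y : Fin m → X in 𝓝 fun _ => x, a.1 (List.ofFn y) = 0 := by
  obtain ⟨U, hU, h⟩ := notMem_supp.1 h
  filter_upwards [eventually_all.2 fun i =>
    (continuous_apply i).continuousAt.eventually_mem (s := U) hU] with y hy
  exact h _ (List.forall_mem_ofFn_iff.2 hy)

theorem van_of_ev {X : Type} [TopologicalSpace X] {a : Coch X} {x : X} (ha : IsDeg k a)
    (h : ∀ᶠ y : Fin (k + 1) → X in 𝓝 fun _ => x, a.1 (List.ofFn y) = 0) : a ∈ Van x := by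
  rw [nhds_pi] at h
  obtain ⟨I, -, t, ht, h⟩ := mem_pi.1 h
  refine notMem_supp.2 ⟨⋂ i, t i, iInter_mem.2 ht, fun l hl => ?_⟩
  by_cases e : l.length = k + 1
  · obtain ⟨y, rfl⟩ := exists_ofFn e
    exact h fun i _ => mem_iInter.1 (List.forall_mem_ofFn_iff.1 hl i) i
  · exact ha l (by omega)

theorem fm_congr (h : a - b ∈ Van x) : fm k a x = fm k b x :=
  Mf.frm_congr ((ev_of_van h _).mono fun _ e => sub_eq_zero.1 e)

theorem fm_zero : fm k (0 : Coch V) x = 0 := funext fun _ => by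
  simp [fm, frm, Coch.zero_val]

theorem fm_van (h : a ∈ Van x) : fm k a x = 0 := (fm_congr (by rwa [sub_zero])).trans fm_zero

theorem fm_of_isDeg {j : ℤ} (ha : IsDeg j a) (hj : j ≠ k) : fm k a x = 0 := by
  rw [← fm_zero (x := x), fm, fm]
  exact congrArg (frm · x) (funext fun y => ha _ (by simp; omega))

theorem fm_pull (ha : GS a) {r : V' → V} (hr : ContDiff ℝ ∞ r) (z : V') (v : Fin k → V') :
    fm k (pull r a) z v = fm k a (r z) fun i => fderiv ℝ r z (v i) := by
  rw [fm, fm, ← Mf.frm_comp hr.contDiffAt ha.ofFn.contDiffAt]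
  simp only [pull_val, List.map_ofFn]
  rfl

theorem fm_deg_zero (v : Fin 0 → V) : fm 0 a x v = a.1 [x] := by simp [fm, frm]

theorem fm_sub [Subsingleton V] (hk : k ≠ 0) : fm k a x = 0 := funext fun v => by
  have : Nonempty (Fin k) := ⟨⟨0, Nat.pos_of_ne_zero hk⟩⟩
  refine Finset.sum_eq_zero fun σ _ => ?_
  rw [Subsingleton.elim (fun i => Pi.single i.succ (v (σ i)) : Fin k → Fin (k + 1) → V) 0,
    ContinuousMultilinearMap.map_zero, mul_zero]

/-- The form of degree `p + q` has type `(p, q)`. -/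
def TyF (p q : ℕ) (a : Coch V) (x : V) : Prop := ∀ (t : ℂ) (v : Fin (p + q) → V),
  fm (p + q) a x (t • v) = t ^ p * conj t ^ q * fm (p + q) a x v

theorem tyF_zero : TyF 0 0 a x := fun t v => by
  rw [show t • v = v from funext fun i => i.elim0]
  simp

theorem tyF_sub [Subsingleton V] (p q : ℕ) : TyF p q a x := by
  by_cases h : p + q = 0
  · obtain ⟨rfl, rfl⟩ := Nat.add_eq_zero_iff.1 h
    exact tyF_zero
  · intro t v
    simp [fm_sub h]

end gs

section EN

variable {N k l : ℕ} {a b : Coch (E N)} {x : E N}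

theorem GS.ev (ha : GS a) {m : ℕ} {y : Fin m → E N} :
    ∀ᶠ z in 𝓝 y, ContDiffAt ℝ ∞ (fun y : Fin m → E N => a.1 (List.ofFn y)) z :=
  Eventually.of_forall fun _ => ha.ofFn.contDiffAt

theorem dm_delta (ha : GS a) : Dm (k + 1) (δ a) x = dd idE (Dm k a) x := by
  set g : (Fin (k + 1) → E N) → ℂ := fun y => a.1 (List.ofFn y)
  have hs : ContDiffAt ℝ ∞ (fun y => g y • (1 : Λ N)) fun _ => x := sm_one ha.ofFn.contDiffAt
  have e : (fun y : Fin (k + 2) → E N => (δ a).1 (List.ofFn y) • (1 : Λ N)) = fun y =>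
      ∑ j : Fin (k + 2), (-1 : ℂ) ^ (j : ℕ) • (g (rx j.succAbove y) • (1 : Λ N)) := by
    funext y
    rw [δ_val, cob, List.length_ofFn, Finset.sum_range, Finset.sum_smul]
    refine Finset.sum_congr rfl fun j _ => ?_
    rw [eraseIdx_ofFn, mul_smul]; rfl
  have hj : ∀ j : Fin (k + 2), ContDiffAt ℝ ∞ (fun y => g (rx j.succAbove y) • (1 : Λ N))
      fun _ => x := fun j => ContDiffAt.comp (g := fun y => g y • (1 : Λ N))
        (f := rx j.succAbove) _ hs (rx _).contDiff.contDiffAt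
  rw [Dm, Dm, dd_Df ha.ev, Df, e, DL_sum _ fun j _ => (hj j).const_smul _,
    Fin.sum_univ_succ, Finset.sum_eq_zero fun j _ => ?_, add_zero, DL_csmul _ (hj 0),
    DL_comp (rx (Fin.succAbove 0)) (u := fun y => g y • (1 : Λ N)) (y := fun _ => x) hs,
    List.map_ofFn]
  · have : ((fun L => (rx (Fin.succAbove 0)).comp L) ∘ fun i : Fin (k + 1) => sl i.succ) =
        fun i => (sl i : E N →L[ℝ] _) := funext fun i => by
      simpa using rx_sl (N := N) (Fin.succ_injective (k + 1)) i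
    rw [this, List.ofFn_succ]
    simp only [Fin.val_zero, pow_zero, one_smul]
    rfl
  · rw [DL_csmul _ (hj _), DL_comp (rx j.succ.succAbove) (u := fun y => g y • (1 : Λ N))
      (y := fun _ => x) hs, DL_of_zero_mem, smul_zero]
    exact List.mem_map.2 ⟨_, List.mem_ofFn.2 ⟨j, rfl⟩, rx_sl_zero fun i => Fin.succAbove_ne _ i⟩

theorem dm_mul (ha : GS a) (hb : GS b) (hk : IsDeg k a) :
    ∃ c : Λ N, Dm (k + l) (a * b) x = Dm k a x * Dm l b x + c * dd idE (Dm l b) x := by
  set A : (Fin (k + 1) → E N) → ℂ := fun y => a.1 (List.ofFn y)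
  set B : (Fin (l + 1) → E N) → ℂ := fun y => b.1 (List.ofFn y)
  let i₁ : Fin (k + 1) → Fin (k + l + 1) := Fin.castLE (by omega)
  let i₂ : Fin (l + 1) → Fin (k + l + 1) := Fin.natAdd k
  have h₁ : Function.Injective i₁ := Fin.castLE_injective _
  have h₂ : Function.Injective i₂ := Fin.natAdd_injective _ _
  have e : (fun y : Fin (k + l + 1) → E N => (a * b).1 (List.ofFn y) • (1 : Λ N)) = fun y =>
      A (rx i₁ y) • (B (rx i₂ y) • (1 : Λ N)) := by
    funext y
    rw [Coch.mul_val, cup, List.length_ofFn, Finset.sum_eq_single_of_mem k (by simp),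
      mul_smul]
    · have e₁ : (List.ofFn y).take (k + 1) = List.ofFn (rx i₁ y) :=
        List.ext_getElem (by simp [-List.ofFn_succ]) fun i _ _ => by
          simp [i₁, -List.ofFn_succ]
      have e₂ : (List.ofFn y).drop k = List.ofFn (rx i₂ y) :=
        List.ext_getElem (by simp [-List.ofFn_succ]; omega) fun i _ _ => by
          simp [i₂, Fin.natAdd, -List.ofFn_succ]
      rw [e₁, e₂]
    · intro p hp hpk
      rw [hk, zero_mul]
      have := Finset.mem_range.1 hp
      rw [List.length_take, List.length_ofFn]; omega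
  have sA : ∀ z, ContDiffAt ℝ ∞ A z := fun z => ha.ofFn.contDiffAt
  have sB : ∀ z, ContDiffAt ℝ ∞ B z := fun z => hb.ofFn.contDiffAt
  let L₁ : List (E N →L[ℝ] (Fin (k + l + 1) → E N)) := List.ofFn fun i : Fin k => sl (i₁ i.succ)
  let L₂ : List (E N →L[ℝ] (Fin (k + l + 1) → E N)) := List.ofFn fun i : Fin l => sl (i₂ i.succ)
  have eL : (List.ofFn fun i : Fin (k + l) => sl i.succ) = L₁ ++ L₂ := List.ofFn_add
  have m₁ : (L₁.map fun L => (rx i₁).comp L) = sls N k := by
    rw [List.map_ofFn]; exact congrArg _ (funext fun i => rx_sl h₁ _)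
  have m₂ : (L₂.map fun L => (rx i₂).comp L) = sls N l := by
    rw [List.map_ofFn]; exact congrArg _ (funext fun i => rx_sl h₂ _)
  have e₂ : DL L₂ (fun y => A (rx i₁ y) • (B (rx i₂ y) • (1 : Λ N))) =ᶠ[𝓝 fun _ => x]
      fun y => (A (rx i₁ y) • (1 : Λ N)) * Do B (rx i₂ y) := by
    have hB := sm_one (N := N) (sB (rx i₂ fun _ => x))
    have h0 : ∀ z : Fin (k + l + 1) → E N, ∀ L ∈ L₂,
        (fderiv ℝ (fun y => A (rx i₁ y)) z).comp L = 0 := fun z L hL => by
      obtain ⟨i, rfl⟩ := List.mem_ofFn.1 hL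
      rw [fderiv_fun_comp z (sm_diff (sA _)) (rx i₁).differentiableAt, (rx i₁).fderiv,
        ContinuousLinearMap.comp_assoc, rx_sl_zero, ContinuousLinearMap.comp_zero]
      intro j hj
      have := congrArg Fin.val hj
      simp [i₁, i₂] at this
      omega
    filter_upwards [DL_smul_left (Ls := L₂) (f := fun y => A (rx i₁ y)) (.of_forall fun z =>
      ⟨(sA _).comp z (rx i₁).contDiff.contDiffAt, h0 z⟩)
      (hB.comp _ (rx i₂).contDiff.contDiffAt), DL_comp' (Ls := L₂) (rx i₂) hB] with z h1 h2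
    refine h1.trans ?_
    rw [m₂] at h2
    rw [smul_one_mul]
    exact congrArg _ h2
  have dd₂ : ∀ (G : (Fin (l + 1) → E N) → Λ N) (z : Fin (k + l + 1) → E N) (i : Fin k),
      ContDiffAt ℝ ∞ G (rx i₂ z) → dd (sl (i₁ i.succ)) (fun y => G (rx i₂ y)) z =
        (if (i : ℕ) + 1 = k then (1 : ℂ) else 0) • dd (sl 0) G (rx i₂ z) := by
    intro G z i hG
    rw [dd_comp (sm_diff hG) (rx i₂).differentiableAt, (rx i₂).fderiv]
    split_ifs with h
    · rw [show i₁ i.succ = i₂ 0 from Fin.ext (by simp [i₁, i₂, h]), rx_sl h₂, one_smul]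
    · rw [rx_sl_zero, dd_zero_dir, zero_smul]
      intro j hj
      have := congrArg Fin.val hj
      simp [i₁, i₂] at this
      omega
  obtain ⟨c, hc⟩ := DL_mul_right (Ls := L₁) (y := fun _ => x)
    (u := fun y => A (rx i₁ y) • (1 : Λ N)) (v := fun y => Do B (rx i₂ y))
    (w := fun y => dd (sl 0) (Do B) (rx i₂ y)) (.of_forall fun z => by
      have hB := sm_Do (sB (rx i₂ z))
      refine ⟨sm_one ((sA _).comp z (rx i₁).contDiff.contDiffAt),
        hB.comp z (rx i₂).contDiff.contDiffAt, (sm_dd hB).comp z (rx i₂).contDiff.contDiffAt,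
        fun L hL => ?_⟩
      obtain ⟨i, rfl⟩ := List.mem_ofFn.1 hL
      rw [dd₂ _ z i (sm_dd hB), dd_dd_self hB, smul_zero]) fun L hL => by
      obtain ⟨i, rfl⟩ := List.mem_ofFn.1 hL
      exact ⟨_, .of_forall fun z => dd₂ _ z i (sm_Do (sB _))⟩
  refine ⟨c fun _ => x, ?_⟩
  rw [Dm, Df, e, eL, DL_append, DL_congr e₂, hc.self_of_nhds.2,
    DL_comp (rx i₁) (u := fun y => A y • (1 : Λ N)) (sm_one (sA _)), m₁, Dm, Dm, dd_Df hb.ev]
  rfl

theorem dm_form (ha : GS a) (A : E N →L[ℝ] E N) : (k.factorial : ℂ) • mp (tr A) (Dm k a x) =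
    ∑ σ : Fin k → JR N, fm k a x (fun i => A (eR (σ i))) • wl (List.ofFn fun i => eD (σ i)) :=
  mp_Df_form ha.ofFn.contDiffAt A

theorem evl_dm (ha : GS a) (A : E N →L[ℝ] E N) (v : Fin k → E N) :
    evl v (mp (tr A) (Dm k a x)) = fm k a x fun i => A (v i) := evl_mp_Df ha.ofFn.contDiffAt A v

theorem fac_inj {u v : Λ N} (h : (k.factorial : ℂ) • u = (k.factorial : ℂ) • v) : u = v :=
  smul_right_injective _ (by exact_mod_cast k.factorial_ne_zero) h

theorem fm_iff (ha : GS a) : fm k a x = 0 ↔ Dm k a x = 0 := by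
  have h1 := dm_form (k := k) (x := x) ha (.id ℝ _)
  have h2 := evl_dm (k := k) (x := x) ha (.id ℝ _)
  rw [tr_id, mp_id] at h1 h2
  refine ⟨fun h => fac_inj (k := k) ?_, fun h => funext fun v => ?_⟩
  · simp [h1, h]
  · exact (h2 v).symm.trans (by rw [h, map_zero]; rfl)

theorem tyF_iff (ha : GS a) {p q : ℕ} : TyF p q a x ↔ Dm (p + q) a x ∈ Ty p q := by
  have h1 := dm_form (k := p + q) (x := x) ha (.id ℝ _)
  have h2 := evl_dm (k := p + q) (x := x) ha (.id ℝ _)
  rw [tr_id, mp_id] at h1 h2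
  refine ⟨fun h => mem_Ty_of_scal fun t _ => fac_inj (k := p + q) ?_, fun h t v => ?_⟩
  · rw [smul_comm, dm_form ha, h1, Finset.smul_sum]
    refine Finset.sum_congr rfl fun σ _ => ?_
    rw [smul_smul, zpow_natCast, zpow_natCast, ← h t]
    rfl
  · have h3 := evl_dm (k := p + q) (x := x) ha (scal t) v
    rw [mp_scal h, map_smul, h2, zpow_natCast, zpow_natCast] at h3
    exact h3.symm

theorem sm_dm (ha : GS a) : ContDiffAt ℝ ∞ (Dm k a) x := sm_Df ha.ofFn.contDiffAt

theorem dm_dg (ha : GS a) : Dm k a x ∈ Dg k := Df_mem_Dg ha.ofFn.contDiffAt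

theorem ct_dg {j : ℤ} {o : Λ N} (h : o ∈ Dg (j + 1)) (s : Bool) (v : E N) :
    ct (vec s v) o ∈ Dg j := mem_Dg_of_pt fun p q e => by
  have := pt_ct s v (p + dl true s) (q + dl false s) o
  rw [add_sub_cancel_right, add_sub_cancel_right, pt_of_Dg h, map_zero] at this
  · exact this
  · cases s <;> simp <;> omega

theorem dm_mul_delta {g : E N → ℂ} (hg : ContDiff ℝ ∞ g) (hb : GS b) (hk : IsDeg k b) :
    ∃ a : Coch (E N), GS a ∧ IsDeg (k + 1 : ℕ) a ∧
      ∀ x, Dm (k + 1) a x = io (fderiv ℝ g x) * Dm k b x := by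
  have hG : GS (ofG (k := 0) fun y => g (y 0)) := gs_ofG (hg.comp (contDiff_apply ℝ _ 0))
  have hd : IsDeg (1 : ℕ) (δ (ofG (k := 0) fun y : Fin 1 → E N => g (y 0))) :=
    (isDeg_ofG _).δ.cast (by simp)
  have h0 : Dm 0 (ofG (k := 0) fun y : Fin 1 → E N => g (y 0)) = fun x => g x • (1 : Λ N) :=
    funext fun x => by rw [Dm_zero]; rfl
  have h1 : Dm 1 (δ (ofG (k := 0) fun y : Fin 1 → E N => g (y 0))) = fun x =>
      io (fderiv ℝ g x) := funext fun x => by
    rw [dm_delta (k := 0) hG, h0, dd_scalar (sm_diff hg.contDiffAt)]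
  refine ⟨((-1 : ℂ) ^ (k : ℤ)) • (b * δ (ofG (k := 0) fun y : Fin 1 → E N => g (y 0))),
    (hb.mul hG.delta).smul _, ((hk.mul hd).cast (by simp)).smul _, fun x => ?_⟩
  obtain ⟨c, hc⟩ := dm_mul (l := 1) (x := x) hb hG.delta hk
  rw [h1, dd_io_fderiv hg.contDiffAt, mul_zero, add_zero] at hc
  refine (Df_smul _ (hb.mul hG.delta).ofFn.contDiffAt).trans ?_
  rw [io_mul_eq, par_of_Dg (dm_dg hb), smul_mul_assoc]
  exact congrArg _ hc

theorem dm_sum {α : Type} (t : Finset α) {c : α → Coch (E N)} (h : ∀ i, GS (c i)) :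
    Dm k (∑ i ∈ t, c i) x = ∑ i ∈ t, Dm k (c i) x := by
  classical
  induction t using Finset.induction_on with
  | empty => exact Df_zero
  | insert i t hi ih =>
    rw [Finset.sum_insert hi, Finset.sum_insert hi, ← ih]
    exact Df_add (h i).ofFn.contDiffAt (GS.sum t fun j _ => h j).ofFn.contDiffAt

theorem dm_surj (k : ℕ) : ∀ w : E N → Λ N, (∀ᶠ y in 𝓝 x, ContDiffAt ℝ ∞ w y ∧ w y ∈ Dg k) →
    ∃ a : Coch (E N), GS a ∧ IsDeg k a ∧ ∀ᶠ y in 𝓝 x, Dm k a y = w y := by
  induction k with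
  | zero =>
    intro w hw
    obtain ⟨f, h1, h2⟩ := Mf.exists_contDiff (hw.mono fun y hy => sm_sca hy.1)
    refine ⟨ofG (k := 0) fun y => f (y 0), gs_ofG (h1.comp (contDiff_apply ℝ _ 0)), isDeg_ofG _, ?_⟩
    filter_upwards [hw, h2] with y e1 e2
    rw [Dm_zero, eq_sca (Ty_of_Dg_zero e1.2), ← e2]
    rfl
  | succ k ih =>
    intro w hw
    have h1 : ∀ i : Bool × Fin (N + 1), ∃ a : Coch (E N), GS a ∧ IsDeg (k + 1 : ℕ) a ∧
        ∀ᶠ y in 𝓝 x, Dm (k + 1) a y = io (dz i.1 i.2) * ct (vec i.1 (ee i.2)) (w y) := fun i => by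
      obtain ⟨b, b1, b2, b3⟩ := ih (fun y => ct (vec i.1 (ee i.2)) (w y)) (hw.mono fun y hy =>
        ⟨sm_T _ hy.1, ct_dg (by exact_mod_cast hy.2) _ _⟩)
      obtain ⟨a, a1, a2, a3⟩ := dm_mul_delta (dz i.1 i.2).contDiff b1 b2
      exact ⟨a, a1, a2, b3.mono fun y hy => by rw [a3, hy, ContinuousLinearMap.fderiv]⟩
    choose a a1 a2 a3 using h1
    have hk : (((k + 1 : ℕ) : ℤ) : ℂ) ≠ 0 := by exact_mod_cast k.succ_ne_zero
    refine ⟨(((k + 1 : ℕ) : ℤ) : ℂ)⁻¹ • ∑ i, a i, (GS.sum _ fun i _ => a1 i).smul _,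
      (IsDeg.sum fun i _ => a2 i).smul _, ?_⟩
    filter_upwards [hw, eventually_all.2 a3] with y e1 e2
    refine (Df_smul _ (GS.sum _ fun i _ => a1 i).ofFn.contDiffAt).trans ?_
    refine (congrArg _ ((dm_sum _ a1).trans ?_)).trans (inv_smul_smul₀ hk _)
    rw [← mem_Dg.1 e1.2, num_apply, num_apply, Finset.sum_congr rfl fun i _ => e2 i,
      Fintype.sum_prod_type, Fintype.sum_bool]

end EN

variable {n k l : ℕ} {a b : Coch (Fin n → ℂ)} {x : Fin n → ℂ}

theorem fm_delta (ha : GS a) (h : ∀ᶠ y in 𝓝 x, fm k a y = 0) : fm (k + 1) (δ a) x = 0 := by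
  cases n with
  | zero => exact fm_sub k.succ_ne_zero
  | succ N =>
    rw [fm_iff ha.delta, dm_delta ha, dd_congr (v := fun _ => 0)
      (h.mono fun y hy => (fm_iff ha).1 hy), dd_const]

theorem fm_mul_zero (ha : GS a) (hb : GS b) (hk : IsDeg (0 : ℕ) a)
    (h : ∀ᶠ y in 𝓝 x, fm l b y = 0) : fm l (a * b) x = 0 := by
  cases n with
  | zero =>
    cases l with
    | succ l => exact fm_sub l.succ_ne_zero
    | zero =>
      funext v
      have := congrFun h.self_of_nhds v
      rw [fm_deg_zero] at this ⊢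
      rw [mul_val_of_isDeg hk b _ (by simp), List.drop_zero, this]
      simp
  | succ N =>
    obtain ⟨c, hc⟩ := dm_mul (l := l) (x := x) ha hb hk
    rw [Nat.zero_add, (fm_iff hb).1 h.self_of_nhds, dd_congr (v := fun _ => 0)
      (h.mono fun y hy => (fm_iff hb).1 hy), dd_const, mul_zero, mul_zero, add_zero] at hc
    exact (fm_iff (ha.mul hb)).2 hc

theorem TyF.mul {p q p' q' : ℕ} (ha : GS a) (hb : GS b) (hk : IsDeg (p + q : ℕ) a)
    (hd : δ b ∈ Van x) (h : TyF p q a x) (h' : TyF p' q' b x) :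
    TyF (p + p') (q + q') (a * b) x := by
  cases n with
  | zero => exact tyF_sub _ _
  | succ N =>
    obtain ⟨c, hc⟩ := dm_mul (l := p' + q') (x := x) ha hb hk
    rw [← dm_delta hb, (fm_iff hb.delta).1 (fm_van hd), mul_zero, add_zero] at hc
    rw [tyF_iff (ha.mul hb), Nat.add_add_add_comm, hc]
    exact_mod_cast Ty_mul ((tyF_iff ha).1 h) ((tyF_iff hb).1 h')

theorem TyF.big {p q : ℕ} (ha : GS a) (h : TyF p q a x) (hn : n < p ∨ n < q) :
    fm (p + q) a x = 0 := by
  cases n with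
  | zero => exact fm_sub (by omega)
  | succ N =>
    have := (tyF_iff ha).1 h
    exact (fm_iff ha).2 (hn.elim (fun e => Eg_big (by omega) this.1) fun e =>
      Eg_big (by omega) this.2)

/-- Closed forms are locally forms of cocycles. -/
theorem exists_clo (hb : GS b) (h : ∀ᶠ y in 𝓝 x, fm (k + 1) (δ b) y = 0) :
    ∃ c, GS c ∧ IsDeg k c ∧ δ c = 0 ∧ ∀ᶠ y in 𝓝 x, fm k (b - c) y = 0 := by
  cases k with
  | zero =>
    refine ⟨b.1 [x] • 1, GS.one.smul _, isDeg_one.smul _, by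
      rw [map_smul, δ_one_eq_zero, smul_zero], ?_⟩
    have : ∀ᶠ y in 𝓝 x, b.1 [y] = b.1 [x] := by
      cases n with
      | zero => exact .of_forall fun y => by rw [Subsingleton.elim y x]
      | succ N =>
        filter_upwards [const_of_dd (u := Dm 0 b) (h.mono fun y hy => ⟨sm_diff (sm_dm hb),
          Ty_of_Dg_zero (dm_dg (k := 0) hb), by
            rw [← dm_delta hb, (fm_iff hb.delta).1 hy]⟩)] with y hy
        simpa [Dm_zero] using congrArg sca hy
    refine this.mono fun y hy => funext fun v => ?_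
    simp [fm_deg_zero, Coch.sub_val, Coch.smul_val, Coch.one_val, P291Z.unit, hy]
  | succ k =>
    cases n with
    | zero => exact ⟨0, GS.zero, isDeg_zero _, map_zero _,
        .of_forall fun _ => fm_sub k.succ_ne_zero⟩
    | succ N =>
      obtain ⟨v, hv⟩ := poinc (u := Dm (k + 1) b) (k := (k + 1 : ℕ)) (by omega)
        (h.mono fun y hy => ⟨sm_dm hb, dm_dg hb, by rw [← dm_delta hb, (fm_iff hb.delta).1 hy]⟩)
      obtain ⟨c, c1, c2, c3⟩ := dm_surj k v (hv.mono fun y hy => ⟨hy.1, by simpa using hy.2.1⟩)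
      refine ⟨δ c, c1.delta, c2.δ.cast (by simp), δ_δ c, ?_⟩
      filter_upwards [hv, c3.eventually_nhds] with y e1 e2
      refine (fm_iff (hb.sub c1.delta)).2
        ((Df_sub hb.ofFn.contDiffAt c1.delta.ofFn.contDiffAt).trans (sub_eq_zero.2 ?_))
      exact (e1.2.2.symm.trans (dd_congr e2).symm).trans (dm_delta c1).symm

end Vale.Agent.P287Q.H3.Mf0
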