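import Vale.Agent.P287Q.H3.St
import Vale.Agent.P287Q.H3.Mf0
import Vale.Agent.P287Q.Mf.Api

/-!
# Hodge types on compact complex manifolds: the formal properties
-/

set_option linter.unusedSectionVars false

namespace Vale.Agent.P287Q.H3

open Set Function Topology Filter P291Z P269.Hdg Mf0
open P287Q.Mf (frm HgAt IsHg)
open scoped ContDiff ComplexConjugate Manifold

namespace Mf1

section loc

variable {X Y V : Type} [TopologicalSpace X] [TopologicalSpace Y] [NormedAddCommGroup V]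
  [NormedSpace ℂ V] {a : Coch X} {x : X} {p q : ℕ}

theorem van_pull {Z : Type} {f g : X → Z} (h : f =ᶠ[𝓝 x] g) (A : Coch Z) :
    pull f A - pull g A ∈ Van x :=
  notMem_supp.2 ⟨_, h, fun _ hl => sub_eq_zero.2 (congrArg A.1 (List.map_congr_left hl))⟩

theorem van_of_pull {e : OpenPartialHomeomorph X Y} (hx : x ∈ e.source) {A : Coch Y}
    (h : pull e A ∈ Van x) : A ∈ Van (e x) := by
  have h1 := Van.pull (f := e.symm) (e.continuousAt_symm (e.map_source hx)) (a := pull e A)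
    (by rwa [e.left_inv hx])
  have h2 := van_pull (f := e ∘ e.symm) (g := id) (x := e x)
    (eventually_of_mem (e.open_target.mem_nhds (e.map_source hx)) fun z hz => e.right_inv hz) A
  rw [pull_pull] at h1
  simpa [pull_id] using sub_mem h1 h2

theorem van_mf {g : X → ℂ} {c : ℂ} (h : ∀ᶠ y in 𝓝 x, g y = c) (a : Coch X) :
    mf g a - c • a ∈ Van x := notMem_supp.2 ⟨_, h, fun l hl => by
  cases l with
  | nil => exact (mf g a - c • a).2.1
  | cons y l =>
    rw [Coch.sub_val, Pi.sub_apply, mf_cons, hl y (by simp), sub_eq_zero]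
    rfl⟩

theorem van_con (h : a ∈ Van x) : con x a ∈ Van x := by
  obtain ⟨U, hU, h⟩ := notMem_supp.1 h
  exact notMem_supp.2 ⟨U, hU, fun l hl => by
    rw [con_val, h (x :: l) (List.forall_mem_cons.2 ⟨mem_of_mem_nhds hU, hl⟩), ite_self]⟩

theorem of_hgAt {e : X → V} (ha : IsDeg (p + q : ℕ) a) (h : HgAt p q a e x) :
    ∃ A, GS A ∧ IsDeg (p + q : ℕ) A ∧ a - pull e A ∈ Van x ∧ TyF p q A (e x) := by
  obtain ⟨f, h1, h2, h3⟩ := h
  refine ⟨ofG f, gs_ofG h1, isDeg_ofG f, van_of_ev (ha.sub ((isDeg_ofG f).pull e))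
    (h2.mono fun y hy => ?_), fun t v => by simpa only [fm, ofG_ofFn] using h3 t v⟩
  rw [Coch.sub_val, Pi.sub_apply, pull_val, List.map_ofFn, ofG_ofFn, hy, sub_eq_zero]
  rfl

theorem hgAt_of {e : X → V} {A : Coch V} (hA : GS A) (h : a - pull e A ∈ Van x)
    (ht : TyF p q A (e x)) : HgAt p q a e x :=
  ⟨_, hA.ofFn, (ev_of_van h _).mono fun _ hy =>
    (sub_eq_zero.1 hy).trans (congrArg A.1 (List.map_ofFn ..)), ht⟩

end loc

variable {n : ℕ} {X : Type} [TopologicalSpace X] [ChartedSpace (Fin n → ℂ) X]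
  [IsManifold 𝓘(ℂ, Fin n → ℂ) ω X] {a b : Coch X} {x : X} {j : ℤ}
  {e e' : OpenPartialHomeomorph X (Fin n → ℂ)}

theorem exists_tr (he : e ∈ atlas (Fin n → ℂ) X) (he' : e' ∈ atlas (Fin n → ℂ) X)
    (hx : x ∈ e.source) (hx' : x ∈ e'.source) : ∃ r : (Fin n → ℂ) → Fin n → ℂ, ContDiff ℝ ∞ r ∧
      e =ᶠ[𝓝 x] r ∘ e' := by
  have h := (Mf.an_trans he' he hx' hx).eventually_analyticAt
  choose r h1 h2 using fun i => Mf.exists_contDiff (h.mono fun z hz =>
    contDiffAt_pi.1 ((hz.contDiffAt (n := ∞)).restrict_scalars ℝ) i)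
  refine ⟨fun z i => r i z, contDiff_pi.2 h1, ?_⟩
  filter_upwards [(e'.continuousAt hx').eventually (eventually_all.2 h2),
    e'.open_source.mem_nhds hx'] with z e1 e2
  funext i
  exact ((e1 i).trans (by rw [e'.left_inv e2])).symm

/-- Near `x` the cochain `a` is smooth in the chart `e`, with vanishing form. -/
def ZE (j : ℤ) (a : Coch X) (e : X → Fin n → ℂ) (x : X) : Prop :=
  ∃ A, GS A ∧ IsDeg j A ∧ a - pull e A ∈ Van x ∧ ∀ᶠ z in 𝓝 (e x), ∀ k, fm k A z = 0

theorem ZE.chg (h : ZE j a e x) (he : e ∈ atlas (Fin n → ℂ) X) (he' : e' ∈ atlas (Fin n → ℂ) X)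
    (hx : x ∈ e.source) (hx' : x ∈ e'.source) : ZE j a e' x := by
  obtain ⟨A, h1, h2, h3, h4⟩ := h
  obtain ⟨r, r1, r2⟩ := exists_tr he he' hx hx'
  refine ⟨pull r A, h1.pull r1, h2.pull r, ?_, ?_⟩
  · rw [pull_pull]
    simpa using add_mem h3 (van_pull r2 A)
  · rw [r2.self_of_nhds] at h4
    filter_upwards [r1.continuous.continuousAt.eventually h4] with z hz k
    funext v
    rw [fm_pull h1 r1, hz k]
    rfl

theorem ze_van {e : X → Fin n → ℂ} (h : a ∈ Van x) : ZE j a e x :=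
  ⟨0, GS.zero, isDeg_zero _, by simpa using h, .of_forall fun _ _ => fm_zero⟩

theorem ZE.lin {e : X → Fin n → ℂ} (ha : ZE j a e x) (hb : ZE j b e x) (c : ℂ) :
    ZE j (c • a + b) e x := by
  obtain ⟨A, a1, a2, a3, a4⟩ := ha
  obtain ⟨B, b1, b2, b3, b4⟩ := hb
  refine ⟨c • A + B, (a1.smul c).add b1, (a2.smul c).add b2, ?_, ?_⟩
  · have := add_mem ((Van x).smul_mem c a3) b3
    rwa [smul_sub, sub_add_sub_comm, ← map_smul, ← map_add] at this
  · filter_upwards [a4, b4] with z e1 e2 k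
    funext v
    refine (Hb.frm_lin a1.ofFn b1.ofFn c z v).trans ?_
    have e3 := congrFun (e1 k) v
    have e4 := congrFun (e2 k) v
    rw [fm] at e3 e4
    rw [e3, e4]
    simp

theorem ZE.delta {e : X → Fin n → ℂ} (h : ZE j a e x) : ZE (j + 1) (δ a) e x := by
  obtain ⟨A, h1, h2, h3, h4⟩ := h
  refine ⟨δ A, h1.delta, h2.δ, by rw [← δ_pull, ← map_sub]; exact Van.δ h3, ?_⟩
  filter_upwards [h4.eventually_nhds] with z hz k
  cases k with
  | zero => funext v; simp [fm_deg_zero, δ_val, cob, A.2.1]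
  | succ k => exact fm_delta h1 (hz.mono fun _ h => h k)

theorem ZE.cut {e : X → Fin n → ℂ} (h : ZE j a e x) {g : X → ℂ} {G : (Fin n → ℂ) → ℂ}
    (hG : ContDiff ℝ ∞ G) (hg : g =ᶠ[𝓝 x] G ∘ e) : ZE j (mf g a) e x := by
  obtain ⟨A, h1, h2, h3, h4⟩ := h
  refine ⟨mf G A, h1.mf hG, IsDeg.mf h2 _, ?_, ?_⟩
  · have h5 : mf g (pull e A) - pull e (mf G A) ∈ Van x :=
      notMem_supp.2 ⟨_, hg, fun l hl => by
        cases l with
        | nil => exact (mf g (pull e A) - pull e (mf G A)).2.1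
        | cons y l =>
          rw [Coch.sub_val, Pi.sub_apply, mf_cons, pull_val, pull_val, List.map_cons, mf_cons,
            hl y (by simp), sub_eq_zero]
          rfl⟩
    have := add_mem (Van.mul_left h3 (ofG (k := 0) fun y => g (y 0))) h5
    rwa [mul_sub, mf, sub_add_sub_cancel] at this
  · filter_upwards [h4.eventually_nhds] with z hz k
    exact fm_mul_zero (a := ofG (k := 0) fun y => G (y 0))
      (gs_ofG (hG.comp (contDiff_apply ℝ _ 0))) h1 (isDeg_ofG _) (hz.mono fun _ h => h k)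

/-- Local exactness. -/
theorem ZE.exact (h : ZE j a e x) (hj : 1 ≤ j) (hx : x ∈ e.source) (hd : δ a ∈ Van x) :
    ∃ b, IsDeg (j - 1) b ∧ a - δ b ∈ Van x ∧ ∀ᶠ y in 𝓝 x, ZE (j - 1) b e y := by
  obtain ⟨A, h1, h2, h3, h4⟩ := h
  obtain ⟨k, rfl⟩ : ∃ k : ℕ, j = k + 1 := ⟨(j - 1).toNat, by omega⟩
  have h5 : δ A ∈ Van (e x) := van_of_pull hx (by
    simpa [← δ_pull] using sub_mem hd (Van.δ h3))
  have h6 : A - δ (con (e x) A) ∈ Van (e x) := by
    have := van_con h5
    rwa [← con_δ, h2 [e x] (by simp; omega), zero_smul, sub_zero] at this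
  obtain ⟨C, c1, c2, c3, c4⟩ := exists_clo (k := k) (x := e x) (h1.con (e x)) (by
    filter_upwards [eventually_van h6, h4] with z e1 e2
    rw [← fm_congr e1, e2])
  have h7 : IsDeg (k + 1 - 1) (con (e x) A - C) := (IsDeg.con h2 _).sub (c2.cast (by simp))
  refine ⟨pull e (con (e x) A - C), h7.pull e, ?_, ?_⟩
  · have := add_mem h3 (Van.pull (e.continuousAt hx) h6)
    rwa [δ_pull, map_sub δ, c3, sub_zero, ← sub_add_sub_cancel a (pull e A), ← map_sub]
  · refine ((e.continuousAt hx).eventually c4.eventually_nhds).mono fun y hy =>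
      ⟨_, (h1.con _).sub c1, h7, by simp, hy.mono fun z hz m => ?_⟩
    by_cases e : m = k
    · exact e ▸ hz
    · exact fm_of_isDeg h7 (by omega)

variable (n X) in
/-- The complex of smooth cochains with vanishing form. -/
@[reducible] noncomputable def sh : Sh X where
  M := Coch X
  d := δ
  G j :=
    { carrier := {a | IsDeg j a ∧ ∀ x, ZE j a (chartAt (Fin n → ℂ) x) x}
      zero_mem' := ⟨isDeg_zero _, fun _ => ze_van (zero_mem _)⟩
      add_mem' := fun ha hb => ⟨ha.1.add hb.1, fun x => by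
        simpa using (ha.2 x).lin (hb.2 x) 1⟩
      smul_mem' := fun c _ ha => ⟨ha.1.smul c, fun x => by
        simpa using (ha.2 x).lin (ze_van (zero_mem _)) c⟩ }
  V := Van
  dG _ _ hu := ⟨hu.1.δ, fun x => (hu.2 x).delta⟩
  dV _ _ := Van.δ
  dd _ _ _ _ := by rw [δ_δ]; exact zero_mem _

variable (n X) in
theorem real_mf : IsManifold 𝓘(ℝ, Fin n → ℂ) ∞ X :=
  isManifold_of_contDiffOn _ _ _ fun e e' he he' z hz => by
    have h : z ∈ e.target ∧ e.symm z ∈ e'.source := by simpa using hz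
    have := Mf.an_trans he he' (e.map_target h.1) h.2
    rw [e.right_inv h.1] at this
    simpa [Function.comp_def] using
      ((this.contDiffAt (n := ∞)).restrict_scalars ℝ).contDiffWithinAt

variable [T2Space X] [CompactSpace X]

variable (n) in
theorem exists_cut {K₁ K₂ : Set X} (h₁ : IsClosed K₁) (h₂ : IsClosed K₂) (hd : Disjoint K₁ K₂) :
    ∃ g : X → ℂ, (∀ x, ∃ G, ContDiff ℝ ∞ G ∧ g =ᶠ[𝓝 x] G ∘ chartAt (Fin n → ℂ) x) ∧
      (∀ x ∈ K₁, ∀ᶠ y in 𝓝 x, g y = 1) ∧ ∀ x ∈ K₂, ∀ᶠ y in 𝓝 x, g y = 0 := by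
  have := real_mf n X
  obtain ⟨f, h0, h1, -⟩ := exists_contMDiffMap_zero_one_nhds_of_isClosed (n := ⊤)
    𝓘(ℝ, Fin n → ℂ) h₂ h₁ hd.symm
  refine ⟨fun x => (f x : ℂ), fun x => ?_, fun b hb => ?_, fun b hb => ?_⟩
  · have h2 : ContDiffOn ℝ ∞ (fun z => f ((chartAt (Fin n → ℂ) x).symm z))
        (chartAt (Fin n → ℂ) x).target := by
      simpa [Function.comp_def, chartAt_self_eq] using (contMDiff_iff.1 f.contMDiff).2 x 0
    obtain ⟨G, g1, g2⟩ := Mf.exists_contDiff (y := chartAt (Fin n → ℂ) x x)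
      (g := fun z => (f ((chartAt (Fin n → ℂ) x).symm z) : ℂ))
      ((eventually_mem_nhds_iff.2 (chart_target_mem_nhds (Fin n → ℂ) x)).mono fun z hz =>
        Complex.ofRealCLM.contDiff.contDiffAt.comp z (h2.contDiffAt hz))
    refine ⟨G, g1, ?_⟩
    filter_upwards [(Mf.cont_chart (n := n) x).eventually g2, Mf.ev_chart (n := n) x] with y e1 e2
    rw [comp_apply, e1, e2]
  · exact (h1.filter_mono (nhds_le_nhdsSet hb)).mono fun _ h => by simp [h]
  · exact (h0.filter_mono (nhds_le_nhdsSet hb)).mono fun _ h => by simp [h]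

theorem fine : (sh n X).Fine where
  opn _ _ := eventually_van
  sep K₁ K₂ h₁ h₂ hd q u hu := by
    obtain ⟨g, g1, g2, g3⟩ := exists_cut n h₁.isClosed h₂.isClosed hd
    refine ⟨mf g u, ⟨IsDeg.mf hu.1 g, fun x => ?_⟩, fun x hx => ?_, fun x hx => ?_,
      fun x hx => Van.mul_left hx _⟩
    · obtain ⟨G, e1, e2⟩ := g1 x
      exact (hu.2 x).cut e1 e2
    · simpa using van_mf (g2 x hx) u
    · simpa using van_mf (g3 x hx) u
  bdd := ⟨0, fun q hq b u hu => by rw [hu.1.eq_zero hq]; exact zero_mem _⟩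
  cpt := ⟨univ, isCompact_univ, fun b hb => (hb trivial).elim⟩

theorem st_exact (x : X) (j : ℤ) : ((sh n X).st x).Exact j := fun u hu hd => by
  by_cases hj : 1 ≤ j
  · obtain ⟨b, b1, b2, b3⟩ := (hu.2 x).exact hj (mem_chart_source _ x) hd
    obtain ⟨O, o1, o2, o3⟩ := eventually_nhds_iff.1 (b3.and (chart_source_mem_nhds (Fin n → ℂ) x))
    obtain ⟨g, g1, g2, g3⟩ := exists_cut n (K₁ := {x}) isClosed_singleton o2.isClosed_compl
      (by simpa using o3)
    refine ⟨mf g b, ⟨IsDeg.mf b1 g, fun y => ?_⟩, ?_⟩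
    · by_cases hy : y ∈ O
      · obtain ⟨G, e1, e2⟩ := g1 y
        exact ((o1 y hy).1.chg (chart_mem_atlas _ x) (chart_mem_atlas _ y) (o1 y hy).2
          (mem_chart_source _ y)).cut e1 e2
      · exact ze_van (by simpa using van_mf (g3 y hy) b)
    · simpa using sub_mem b2 (Van.δ (van_mf (g2 x rfl) b))
  · refine ⟨0, zero_mem _, ?_⟩
    rw [map_zero, sub_zero]
    obtain ⟨A, -, a2, a3, a4⟩ := hu.2 x
    rcases (show j < 0 ∨ j = 0 by omega) with h | rfl
    · rw [hu.1.eq_zero h]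
      exact zero_mem _
    · have : A ∈ Van (chartAt (Fin n → ℂ) x x) := van_of_ev (k := 0) a2 (by
        filter_upwards [(continuous_apply 0).continuousAt.eventually a4] with y hy
        simpa [fm_deg_zero] using congrFun (hy 0) 0)
      simpa using add_mem a3 (Van.pull (Mf.cont_chart x) this)

/-- **A class with vanishing form vanishes.** -/
theorem eq_zero {p q : ℕ} {c : H X} (h : IsHg n p q c) (hn : n < p ∨ n < q) : c = 0 := by
  obtain ⟨a, h1, rfl, h2⟩ := h
  obtain ⟨v, -, hv⟩ := fine.exact_gl (st_exact (n := n)) (p + q : ℕ) a.1 ⟨h1, fun x => by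
    obtain ⟨A, a1, a2, a3, -⟩ := of_hgAt h1 (h2 x)
    refine ⟨A, a1, a2, a3, ?_⟩
    rw [← (chartAt (Fin n → ℂ) x).map_nhds_eq (mem_chart_source _ x), eventually_map]
    filter_upwards [eventually_van a3, chart_source_mem_nhds (Fin n → ℂ) x] with y e1 e2 k
    by_cases e : k = p + q
    · obtain ⟨B, b1, -, b3, b4⟩ := of_hgAt h1 ((h2 y).chart (chart_mem_atlas _ y)
        (chart_mem_atlas _ x) (mem_chart_source _ y) e2)
      rw [e, ← b4.big b1 hn]
      exact fm_congr (van_of_pull e2 (by simpa using sub_mem b3 e1))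
    · exact fm_of_isDeg a2 (by omega)⟩ ((sh n X).mem_gl_nul.2 (supp_eq_empty.1 a.2))
  rw [← hcls_val, ← hcls_zero]
  exact hcls_eq_of_cohom (c := v) cocycle_zero (supp_eq_empty.2 fun x => by
    simpa using (sh n X).mem_gl_nul.1 hv x)

end Mf1

open Mf1

theorem stPull : StPull := fun _ _ _ _ _ _ hf h => h.map hf

theorem stVan : StVan := fun _ _ _ _ h hn => eq_zero h hn

theorem stLin : StLin := by
  rintro M p q z _ _ ⟨a, a1, rfl, a2⟩ ⟨b, b1, rfl, b2⟩
  refine ⟨z • a + b, (a1.smul z).add b1, ?_, fun x => ?_⟩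
  · rw [map_add, ← hcls_val, ← hcls_val a, ← hcls_smul z a.2]
    rfl
  · obtain ⟨f, f1, f2, f3⟩ := a2 x
    obtain ⟨g, g1, g2, g3⟩ := b2 x
    refine ⟨fun y => z * f y + g y, (contDiff_const.mul f1).add g1, ?_, fun t v => ?_⟩
    · filter_upwards [f2, g2] with y e1 e2
      rw [← e1, ← e2]
      rfl
    · rw [Hb.frm_lin f1 g1, Hb.frm_lin f1 g1, f3, g3]
      ring

theorem stZero : StZero := fun M => by
  refine ⟨?_, fun p q => ⟨0, isDeg_zero _, map_zero _, fun x => hgAt_of GS.zero (by simp)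
    fun t v => by simp [fm_zero]⟩⟩
  rintro _ ⟨a, h, rfl⟩
  refine ⟨a, h, rfl, fun x => hgAt_of (A := a.1.1 [x] • 1) (GS.one.smul _) ?_ tyF_zero⟩
  have := van_con (supp_eq_empty.1 a.2 x)
  rwa [← con_δ, (IsDeg.con h x).eq_zero (by norm_num), map_zero, sub_zero, ← map_one (pull _),
    ← map_smul] at this

theorem stMul : StMul := by
  rintro M p q p' q' _ _ ⟨a, a1, rfl, a2⟩ ⟨b, b1, rfl, b2⟩
  refine ⟨a * b, (a1.mul b1).cast (by push_cast; ring), map_mul _ _ _, fun x => ?_⟩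
  obtain ⟨A, h1, h2, h3, h4⟩ := of_hgAt a1 (a2 x)
  obtain ⟨B, k1, -, k3, k4⟩ := of_hgAt b1 (b2 x)
  refine hgAt_of (h1.mul k1) ?_ (h4.mul h1 k1 h2 (van_of_pull (mem_chart_source _ x) ?_) k4)
  · have := add_mem (Van.mul_right h3 b.1) (Van.mul_left k3 (pull (chartAt (Fin M.n → ℂ) x) A))
    rwa [sub_mul, mul_sub, sub_add_sub_cancel, ← map_mul] at this
  · simpa [← δ_pull] using sub_mem (supp_eq_empty.1 b.2 x) (Van.δ k3)

end Vale.Agent.P287Q.H3
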