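import Vale.Agent.P287Q.H3.A1
import Vale.Agent.P287Q.H3.A2
import Vale.Agent.P287Q.H3.A3
import Vale.Agent.P287Q.H3.Alg
import Vale.Agent.P287Q.H3.C1
import Vale.Agent.P287Q.H3.Drop
import Vale.Agent.P287Q.H3.Herm
import Vale.Agent.P287Q.H3.Hir
import Vale.Agent.P287Q.H3.LB
import Vale.Agent.P287Q.H3.Mf
import Vale.Agent.P287Q.H3.Quot
import Vale.Agent.P287Q.H3.Reg

/-!
# The statements on analytic orbispaces without hypotheses
-/

namespace Vale.Agent.P287Q.H3

theorem stHir' : StHir := stHir stClo stReg stRegX

theorem stDrop' : StDrop := stDrop stReg stRegX stHir'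

theorem stTop' : StTop := stTop stReg stDrop'

theorem stResC' : StResC := stResC stHir' stTop' stRegX stInj

theorem stQuot' : StQuot := stQuot stHerm stFin

theorem stC1' : StC1 := stC1 stLB stLin stZero

theorem stDropA' : StDropA := stDropA stDrop'

theorem stWk' : StWk := stWk stMul stVan stQuot' stResC'

theorem stChern' : StChern := stChern stMul stZero stPS stC1'

end Vale.Agent.P287Q.H3
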