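import Vale.Agent.P287Q.H3.St
import Vale.Agent.P287Q.G.Bas.Lv

/-!
# Hodge types on the moduli spaces: definitions and statements
-/

namespace Vale.Agent.P287Q.H3

open Set Function Topology Filter P291Z P269 P269.Ch P269.Holo P269.Mono P269.Orb

section defs

variable {S Λ R J ι ν κ : Type} [Fintype S] [Fintype Λ] [Fintype R] [Fintype J] [Fintype ι]
  [DecidableEq ι] [Fintype ν] [Fintype κ] {ch : Ch ι J} {W : Wt S Λ R J} {Z : Set (ch.WF ν κ Λ)}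

/-- The orbispace of an invariant set of curves. -/
noncomputable def zsp (h : OZ W Z) : Ch.Sp := haveI := h.act; spA h.orb

/-- Its coordinates. -/
noncomputable def zvl (h : OZ W Z) : (zsp h).T → ch.WF ν κ Λ := Holo.Sp.val (act := actF W)

/-- The factor has type `(p, q)`. -/
def FTy : Fac W ν κ → ℕ → ℕ → Prop
  | .psi _, p, q => p = 1 ∧ q = 1
  | .ev _ A c, p, q => Ty (Subtype.val : A → _) (Quo.mk W.actT) p q c
  | .par A c, p, q => Ty (Subtype.val : A → _) (Quo.mk W.actL) p q c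
  | .dg _, _, _ => False
  | .tw Θ, p, q => Θ = 1 ∧ p = 0 ∧ q = 0

end defs

/-- Products of typed factors have weak type. -/
def StFac : Prop :=
  ∀ {S Λ R J K ι ν κ : Type} [Fintype S] [Fintype Λ] [Fintype R] [Fintype J] [Fintype K]
    [Fintype ι] [DecidableEq ι] [Fintype ν] [Fintype κ] {ch : Ch ι J} (F : Fam S Λ R J K)
    (ℓ : R → ι → ℤ) (Z : Set (ch.WF ν κ Λ)) (h : GZ F ℓ Z), (∀ x ∈ Z, An Z x) →
    ∀ T : List (Fac F.toWt ν κ × ℕ × ℕ), (∀ x ∈ T, FTy x.1 x.2.1 x.2.2 ∧ x.1.At Z) →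
    Wk (zsp h.toOZ) (zvl h.toOZ) (T.map (·.2.1)).sum (T.map (·.2.2)).sum
      (T.map fun x => F.cl Z x.1).prod

/-- The Kuranishi presentations of the moduli spaces are holomorphic. -/
def StBun : Prop :=
  ∀ {S Λ R J K ι ν κ : Type} [Fintype S] [Fintype Λ] [Fintype R] [Fintype J] [Fintype K]
    [Fintype ι] [DecidableEq ι] [Fintype ν] [Fintype κ] {ch : Ch ι J} (F : Fam S Λ R J K)
    (e : K → ι → ℕ) (K₀ : RD R) (ℓ : R → ι → ℤ) (S₀ O : Set (ch.WF ν κ Λ)), ch.Std F e K₀ ℓ →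
    S₀ ⊆ ch.adm ν κ F → ∀ (hd : Ch.Dom F e S₀ O) (k : KP hd.sp) (i : k.P.W →ₗ[ℂ] ch.P K),
    hd.IsKP k i → (∀ x ∈ O, An O x) →
    HV k.P hd.pres.i ∧ HV k.vanB hd.pres.i ∧ (∀ t, HolAt hd.pres.i k.s t) ∧
      HV (k.obsB (hd.sp.subI k.ZS k.isClosed_Zs.isLocallyClosed) fun t => t.2)
        fun s : k.ZS => hd.pres.i s

/-- The base cycles are analytic. -/
def StCyc : Prop :=
  ∀ {S Λ R J K ι ν κ : Type} [Fintype S] [Fintype Λ] [Fintype R] [Fintype J] [Fintype K]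
    [Fintype ι] [DecidableEq ι] [Fintype ν] [Fintype κ] {ch : Ch ι J} (F : Fam S Λ R J K)
    (e : K → ι → ℕ) (K₀ : RD R) (ℓ : R → ι → ℤ) (b : ℕ) (U : Set (ch.WF ν κ Λ)) (u : ν → J → ℕ),
    ch.Ok F e K₀ ℓ b U → F.PolE → ∀ x ∈ ch.cyc κ F u, An (ch.cyc κ F u) x

/-- **Invariants of unbalanced type vanish.** -/
def StHdg : Prop :=
  ∀ {S Λ R J K ν κ : Type} [Fintype S] [Fintype Λ] [Fintype R] [Fintype J] [Fintype K] [Fintype ν]
    [Fintype κ] [DecidableEq R] (F : Fam S Λ R J K) (δ : J → ℕ) (k : ℕ) (g : ℤ) (d : R → ℤ)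
    (u : ν → ℕ) (P : AM Λ R J ν κ → Prop) (T : List (Fac F.toWt ν κ × ℕ × ℕ)),
    F.Iv δ k g d u P (T.map Prod.fst) → (∀ x ∈ T, FTy x.1 x.2.1 x.2.2) →
    (T.map (·.2.1)).sum ≠ (T.map (·.2.2)).sum →
    F.inv k g d (fun n => u n • δ) P (T.map Prod.fst) = 0

end Vale.Agent.P287Q.H3
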