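import Vale.Agent.P287Q.H3.St

/-!
# The closure of the graph of a holomorphic section: dimension of the exceptional set
-/

namespace Vale.Agent.P287Q.H3.CnA

open Set Function Topology Filter P291Z P269 P269.Ch P269.Holo P269.Mono

variable {A A' B : Type} [NormedAddCommGroup A] [NormedSpace ℂ A] [NormedAddCommGroup A']
  [NormedSpace ℂ A'] [NormedAddCommGroup B] [NormedSpace ℂ B]

theorem an_of [FiniteDimensional ℂ B] {S : Set A} {a : A} {h : A → B} (h1 : AnalyticAt ℂ h a)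
    (h2 : ∀ᶠ z in 𝓝 a, z ∈ S ↔ h z = 0) : An S a := by
  let e : B ≃L[ℂ] (Fin (Module.finrank ℂ B) → ℂ) := ContinuousLinearEquiv.ofFinrankEq (by simp)
  exact ⟨_, fun z => e (h z), (e.analyticAt _).comp h1, h2.mono fun z hz =>
    hz.trans e.map_eq_zero_iff.symm⟩

theorem an_congr {S S' : Set A} {a : A} (h : An S a) (e : ∀ᶠ z in 𝓝 a, z ∈ S' ↔ z ∈ S) :
    An S' a := by
  obtain ⟨k, f, h1, h2⟩ := h
  exact ⟨k, f, h1, (e.and h2).mono fun z hz => hz.1.trans hz.2⟩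

section top

variable {T : Type} [TopologicalSpace T] {ι : T → A} {t : T}

omit [NormedSpace ℂ A] in
theorem ev_img (hι : IsInducing ι) {p : T → Prop} (h : ∀ᶠ s in 𝓝 t, p s) :
    ∀ᶠ z in 𝓝 (ι t), ∀ s, ι s = z → p s := by
  rwa [hι.nhds_eq_comap, eventually_comap] at h

theorem an_img (hι : IsInducing ι) {S S' : Set T} (h : An (ι '' S) (ι t))
    (e : ∀ᶠ s in 𝓝 t, s ∈ S' ↔ s ∈ S) : An (ι '' S') (ι t) :=
  an_congr h ((ev_img hι e).mono fun _ hz =>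
    exists_congr fun s => and_congr_left fun k => hz s k)

theorem an_zero [FiniteDimensional ℂ B] (hι : IsInducing ι) {S : Set T} (h : An (ι '' S) (ι t))
    {f : T → B} (hf : HolAt ι f t) : An (ι '' (S ∩ {s | f s = 0})) (ι t) := by
  obtain ⟨k, g, h1, h2⟩ := h
  obtain ⟨Φ, h3, h4⟩ := hf
  refine an_of (h1.prod h3) ?_
  filter_upwards [h2, ev_img hι h4] with z a b
  rw [Prod.mk_eq_zero, ← a]
  exact ⟨fun ⟨s, c, d⟩ => ⟨⟨s, c.1, d⟩, by rw [← d, ← b s d]; exact c.2⟩,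
    fun ⟨⟨s, c, d⟩, e⟩ => ⟨s, ⟨c, (b s d).trans (d ▸ e)⟩, d⟩⟩

theorem an_closure (hι : IsEmbedding ι) (h : An (range ι) (ι t)) {G : Set T}
    (hG : An (closure (ι '' G)) (ι t)) : An (ι '' closure G) (ι t) := by
  refine an_congr hG ?_
  obtain ⟨k, g, h1, h2⟩ := h
  filter_upwards [h2.eventually_nhds, h1.eventually_analyticAt] with z a b
  rw [hι.closure_eq_preimage_closure_image, image_preimage_eq_inter_range]
  refine ⟨fun c => c.1, fun c => ⟨c, a.self_of_nhds.2 ?_⟩⟩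
  have h3 : ∃ᶠ w in 𝓝 z, g w = 0 := ((mem_closure_iff_frequently.1 c).and_eventually a).mono
    fun w hw => hw.2.1 (image_subset_range _ _ hw.1)
  exact tendsto_nhds_unique_of_frequently_eq b.continuousAt tendsto_const_nhds h3

theorem hol_smul {c : T → ℂ} {f : T → B} (hc : HolAt ι c t) (hf : HolAt ι f t) :
    HolAt ι (fun s => c s • f s) t :=
  (hc.prod hf).comp_an (Ψ := fun p => p.1 • p.2) (analyticAt_fst.smul analyticAt_snd)

end top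

section coc

variable {Y : Ch.Sp} {ι : Y.T → A} {τ : Y.T → Y.G} {t : Y.T}

theorem coc_tendsto (c : Coc Y ι τ t) : Tendsto τ (𝓝 t) (𝓝 1) :=
  c.one ▸ c.cont.self_of_nhds.tendsto

theorem ret_tendsto (c : Coc Y ι τ t) : Tendsto (fun s => (τ s)⁻¹ • s) (𝓝 t) (𝓝 t) := by
  simpa using (coc_tendsto c).inv.smul (tendsto_id (x := 𝓝 t))

theorem ret_one (c : Coc Y ι τ t) : ∀ᶠ s in 𝓝 t, τ ((τ s)⁻¹ • s) = 1 := by
  have h : Tendsto (fun s => ((τ s)⁻¹, s)) (𝓝 t) (𝓝 (1, t)) := by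
    simpa using (coc_tendsto c).inv.prodMk_nhds (tendsto_id (x := 𝓝 t))
  exact (h.eventually c.eqv).mono fun s hs => hs.trans (inv_mul_cancel _)

theorem coc_ev (hY : IsAS Y ι) (c : Coc Y ι τ t) : ∀ᶠ s in 𝓝 t, τ s = 1 → Coc Y ι τ s := by
  have := hY.fd
  have := FiniteDimensional.complete ℂ A
  filter_upwards [c.cont.eventually_nhds, (Continuous.prodMk_right (1 : Y.G)).continuousAt.eventually
    c.eqv.eventually_nhds, c.hol.eventually hY.emb.continuous.continuousAt] with s a b d e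
  exact ⟨e, a, b, d⟩

/-- slices are images of sets which meet all local orbits -/
theorem slice [FiniteDimensional ℂ A] [FiniteDimensional ℂ A'] (c : Coc Y ι τ t) {T' : Type}
    [TopologicalSpace T']
    {ι' : T' → A'} {u : T'} (hι : ContinuousAt ι' u) {j : T' → Y.T} (hj : ContinuousAt j u)
    (j0 : j u = t) (hh : HolAt ι' (fun s => ι (j s)) u) {G : Set Y.T} {Sl : Set T'} {a : Y.T → Y.G}
    {b : Y.T → T'} (ha : Tendsto a (𝓝[G] t) (𝓝 1)) (hb : Tendsto b (𝓝[G] t) (𝓝 u))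
    (e : ∀ᶠ z in 𝓝[G] t, a z • j (b z) = z ∧ b z ∈ Sl) {n : ℕ}
    (hs : ∃ U ∈ 𝓝 u, Small n (ι' '' (U ∩ Sl))) :
    ∃ U ∈ 𝓝 t, Small n (ι '' (U ∩ (G ∩ {s | τ s = 1}))) := by
  subst j0
  have := FiniteDimensional.complete ℂ A
  obtain ⟨Φ, h1, h2⟩ := c.hol.comp hj hh
  obtain ⟨U, hU, h3⟩ := hs
  have h4 : {s | AnalyticAt ℂ Φ (ι' s) ∧ ι ((τ (j s))⁻¹ • j s) = Φ (ι' s)} ∩ U ∈ 𝓝 u :=
    inter_mem ((hι.eventually h1.eventually_analyticAt).and h2) hU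
  have h5 := (h3.mono (image_mono (inter_subset_inter_left Sl (inter_subset_right (s := {s |
    AnalyticAt ℂ Φ (ι' s) ∧ ι ((τ (j s))⁻¹ • j s) = Φ (ι' s)}))))).image (f := Φ) (by
      rintro _ ⟨s, hs, rfl⟩
      exact (hs.1.1.1.contDiffAt (n := 1)).restrict_scalars ℝ)
  have h6 := (ha.prodMk_nhds (hj.tendsto.comp hb)).eventually c.eqv
  refine ⟨_, eventually_nhdsWithin_iff.1 ((e.and h6).and (hb h4)), h5.mono ?_⟩
  rintro _ ⟨z, ⟨h7, h8, h9⟩, rfl⟩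
  obtain ⟨⟨⟨e1, e2⟩, e3⟩, e4⟩ := h7 h8
  refine ⟨_, ⟨b z, ⟨e4, e2⟩, rfl⟩, e4.1.2.symm.trans (congrArg ι ?_)⟩
  have e5 : a z * τ (j (b z)) = 1 := e3.symm.trans ((congrArg τ e1).trans h9)
  rw [← eq_inv_of_mul_eq_one_left e5, e1]

/-- the dimension of an invariant subset can be computed in the slices of the ambient space -/
theorem dim_sub (hY : IsAS Y ι) (S : SubMulAction Y.G Y.T) (hS : IsLocallyClosed (S : Set Y.T))
    {m : ℕ} (h : ∀ t ∈ S, ∃ τ, Coc Y ι τ t ∧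
      ∃ U ∈ 𝓝 t, Small (2 * m) (ι '' (U ∩ (S ∩ {s | τ s = 1})))) :
    Dim (Y.sub S hS) (fun s : S => ι s) m := by
  intro (t : S) τ c
  obtain ⟨τ', c', U, hU, h1⟩ := h t.1 t.2
  have := hY.fd
  have h2 : Tendsto (Subtype.val : S → Y.T) (𝓝[univ] t) (𝓝 t.1) :=
    continuous_subtype_val.continuousAt.mono_left nhdsWithin_le_nhds
  have h3 := slice (Y := Y.sub S hS) c (ι' := fun s : S => ι s) (u := t)
    (hY.emb.continuous.comp continuous_subtype_val).continuousAt (j := id) continuousAt_id rfl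
    HolAt.self (G := univ) (Sl := {s : S | τ' s = 1}) (a := fun s : S => τ' s)
    (b := fun s : S => (τ' s)⁻¹ • s) ((coc_tendsto c').comp h2)
    (tendsto_subtype_rng.2 ((ret_tendsto c').comp h2))
    ((h2.eventually (ret_one c')).mono fun s hs => ⟨smul_inv_smul (τ' s.1) s, hs⟩)
    ⟨_, continuous_subtype_val.continuousAt hU, h1.mono (by
      rintro _ ⟨s, hs, rfl⟩
      exact ⟨s.1, ⟨hs.1, s.2, hs.2⟩, rfl⟩)⟩
  rwa [univ_inter] at h3

/-- a nowhere dense invariant analytic subset -/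
theorem drop (hD : StDrop) (hY : IsAS Y ι) (c : Coc Y ι τ t) {G : Set Y.T}
    (hG : ∀ (g : Y.G), ∀ s ∈ G, g • s ∈ G) (ha : An (ι '' closure G) (ι t)) {f : Y.T → B}
    [FiniteDimensional ℂ B] (hf : HolAt ι f t) (h0 : ∀ s ∈ G, f s ≠ 0)
    (h1 : ∀ s ∈ closure G, f s ≠ 0 → s ∈ G) {k : ℕ} (hs : ∀ s ∈ G, ∀ τ, Coc Y ι τ s →
      ∃ U ∈ 𝓝 s, Small (k + 2) (ι '' (U ∩ (G ∩ {s | τ s = 1})))) :
    ∃ U ∈ 𝓝 t, Small k (ι '' (U ∩ ((closure G ∩ {s | f s = 0}) ∩ {s | τ s = 1}))) := by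
  have := hY.fd
  have hi := hY.emb.isInducing
  let Sl : Set Y.T := {s | ι ((τ s)⁻¹ • s) - ι s = 0}
  have e1 : ∀ s, s ∈ Sl ↔ (τ s)⁻¹ • s = s := fun s => sub_eq_zero.trans hY.emb.injective.eq_iff
  have e2 : ∀ s, τ s = 1 → s ∈ Sl := fun s hs => (e1 s).2 (by rw [hs, inv_one, one_smul])
  have a1 : An (ι '' (closure G ∩ Sl)) (ι t) := an_zero hi ha (c.hol.sub HolAt.self)
  have a2 := an_zero hi a1 hf
  have e3 : ι '' (closure G ∩ Sl) \ ι '' (closure G ∩ Sl ∩ {s | f s = 0}) = ι '' (G ∩ Sl) := by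
    rw [← image_sdiff hY.emb.injective]
    refine congrArg _ (Set.ext fun s => ⟨fun h => ⟨h1 s h.1.1 fun e => h.2 ⟨h.1, e⟩, h.1.2⟩,
      fun h => ⟨⟨subset_closure h.1, h.2⟩, fun e => h0 s h.1 e.2⟩⟩)
  obtain ⟨U, hU, h2⟩ := hD A _ _ (ι t) k a1 a2 (by
    filter_upwards [ev_img hi (c.cont.and (ret_one c).eventually_nhds)] with z hz
    rintro ⟨s, ⟨⟨b1, b2⟩, -⟩, rfl⟩
    obtain ⟨b3, b4⟩ := hz s rfl
    rw [e3]
    have h3 : Tendsto (fun s => ι ((τ s)⁻¹ • s)) (𝓝 s) (𝓝 (ι s)) := by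
      have h4 : ContinuousAt (fun s => (τ s)⁻¹ • s) s := b3.inv.smul continuousAt_id
      have h5 : Tendsto (fun s => ι ((τ s)⁻¹ • s)) (𝓝 s) (𝓝 (ι ((τ s)⁻¹ • s))) :=
        hY.emb.continuous.continuousAt.tendsto.comp h4
      rwa [(e1 s).1 b2] at h5
    exact mem_closure_of_frequently_of_tendsto (((mem_closure_iff_frequently.1 b1).and_eventually
      b4).mono fun x hx => ⟨_, ⟨hG _ _ hx.1, e2 _ hx.2⟩, rfl⟩) h3) (by
    refine ⟨_, ev_img hi (((coc_ev hY c).and (ret_one c)).and (ret_one c).eventually_nhds), ?_⟩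
    rw [e3]
    refine Small.of_locally' ?_
    rintro _ ⟨hz, s, ⟨b1, b2⟩, rfl⟩
    obtain ⟨⟨b3, b4⟩, b5⟩ := hz s rfl
    rw [(e1 s).1 b2] at b4
    obtain ⟨V, hV, b6⟩ := hs s b1 τ (b3 b4)
    refine ⟨_, ev_img hi (b5.and hV), b6.mono ?_⟩
    rintro _ ⟨⟨-, x, b7, rfl⟩, b8⟩
    obtain ⟨b9, b10⟩ := b8 x rfl
    rw [(e1 x).1 b7.2] at b9
    exact ⟨x, ⟨b10, b7.1, b9⟩, rfl⟩)
  refine ⟨_, hY.emb.continuous.continuousAt hU, h2.mono ?_⟩
  rintro _ ⟨s, hs, rfl⟩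
  exact ⟨hs.1, s, ⟨⟨hs.2.1.1, e2 s hs.2.2⟩, hs.2.1.2⟩, rfl⟩

end coc

section graph

variable {Y : Ch.Sp} {ι : Y.T → A} {E : VB Y} {σ : Y.T → E.W} {G : Set E.PT}

theorem hol_t {f : Y.T → B} {x : E.PT} (h : HolAt ι f x.t) :
    HolAt (fun x : E.PT => (ι x.t, x.w)) (fun x => f x.t) x :=
  h.comp VB.PT.continuous_t.continuousAt (HolAt.of_an analyticAt_fst)

theorem hol_w (x : E.PT) : HolAt (fun x : E.PT => (ι x.t, x.w)) (fun x => x.w) x :=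
  HolAt.of_an analyticAt_snd

theorem mem_iff (hG : ∀ x, x ∈ G ↔ σ x.t ≠ 0 ∧ ∃ c : ℂ, x.w = c • σ x.t) (x : E.PT) :
    x ∈ G ↔ (∃ c : ℂ, σ x.t = c • x.w) ∧ σ x.t ≠ 0 := by
  refine (hG x).trans ⟨fun ⟨h1, c, h2⟩ => ⟨⟨c⁻¹, ?_⟩, h1⟩, fun ⟨⟨c, h1⟩, h2⟩ => ⟨h2, c⁻¹, ?_⟩⟩
  · rw [h2, inv_smul_smul₀ fun e => x.ne (by rw [h2, e, zero_smul])]
  · rw [h1, inv_smul_smul₀ fun e => h2 (by rw [h1, e, zero_smul])]

theorem ev_line (σ : Y.T → E.W) (x : E.PT) : ∃ l : E.W →L[ℂ] ℂ, ∀ᶠ y in 𝓝 x,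
    (∃ c : ℂ, σ y.t = c • y.w) ↔ l y.w • σ y.t - l (σ y.t) • y.w = 0 := by
  obtain ⟨l, hl⟩ := SeparatingDual.exists_ne_zero (R := ℂ) x.ne
  refine ⟨l, ((l.continuous.comp VB.PT.continuous_w).continuousAt.eventually_ne hl).mono
    fun y (hy : l y.w ≠ 0) => ⟨fun ⟨c, hc⟩ => ?_, fun h => ⟨(l y.w)⁻¹ * l (σ y.t), ?_⟩⟩⟩
  · rw [hc, map_smul, smul_smul, smul_eq_mul, mul_comm, sub_self]
  · rw [mul_smul, ← sub_eq_zero.1 h, inv_smul_smul₀ hy]

theorem an_graph (hC : StClo) (hP : IsAS E.PS fun x : E.PT => (ι x.t, x.w))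
    (hσ : ∀ t, HolAt ι σ t) (hG : ∀ x, x ∈ G ↔ σ x.t ≠ 0 ∧ ∃ c : ℂ, x.w = c • σ x.t) (x : E.PT) :
    An ((fun x : E.PT => (ι x.t, x.w)) '' closure G) (ι x.t, x.w) := by
  have := hP.fd
  have hi := hP.emb.isInducing
  obtain ⟨l, hl⟩ := ev_line σ x
  have h0 := image_univ (f := fun x : E.PT => (ι x.t, x.w)) ▸ hP.an x
  have h1 := an_img hi (S' := {y : E.PT | ∃ c : ℂ, σ y.t = c • y.w}) (an_zero hi h0
    ((hol_smul ((hol_w x).clm l) (hol_t (hσ _))).sub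
      (hol_smul ((hol_t (hσ _)).clm l) (hol_w x))))
    (hl.mono fun y hy => hy.trans (and_iff_right trivial).symm)
  have h2 := hC _ _ _ _ h1 (an_zero hi h0 (hol_t (hσ _)))
  rw [← image_sdiff hP.emb.injective] at h2
  refine an_closure hP.emb (hP.an x) (G := G) (Eq.subst (motive := fun S => An (closure
    ((fun x : E.PT => (ι x.t, x.w)) '' S)) (ι x.t, x.w)) (Set.ext fun y => ?_) h2)
  exact (and_congr_right' (not_congr (and_iff_right trivial))).trans (mem_iff hG y).symm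

theorem mem_of_closure (hσ : Continuous σ)
    (hG : ∀ x, x ∈ G ↔ σ x.t ≠ 0 ∧ ∃ c : ℂ, x.w = c • σ x.t) {x : E.PT} (hx : x ∈ closure G)
    (h0 : σ x.t ≠ 0) : x ∈ G := by
  obtain ⟨l, hl⟩ := ev_line σ x
  refine (mem_iff hG x).2 ⟨hl.self_of_nhds.2 ?_, h0⟩
  have h1 : Continuous fun y : E.PT => l y.w • σ y.t - l (σ y.t) • y.w := by fun_prop
  exact tendsto_nhds_unique_of_frequently_eq h1.continuousAt tendsto_const_nhds
    (((mem_closure_iff_frequently.1 hx).and_eventually hl).mono fun y hy =>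
      hy.2.1 ((mem_iff hG y).1 hy.1).1)

theorem slice_graph (hY : IsAS Y ι) (hP : IsAS E.PS fun x : E.PT => (ι x.t, x.w))
    (hs : E.IsSec σ) (hσ : ∀ t, HolAt ι σ t)
    (hG : ∀ x, x ∈ G ↔ σ x.t ≠ 0 ∧ ∃ c : ℂ, x.w = c • σ x.t) {m : ℕ} (hd : Dim Y ι m) {x : E.PT}
    (hx : x ∈ G) {τ : E.PT → E.PS.G} (c : Coc E.PS (fun x : E.PT => (ι x.t, x.w)) τ x) :
    ∃ U ∈ 𝓝 x, Small (2 * m) ((fun x : E.PT => (ι x.t, x.w)) '' (U ∩ (G ∩ {s | τ s = 1}))) := by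
  classical
  have := hY.fd
  have := hP.fd
  obtain ⟨h0, c₀, h1⟩ := (hG x).1 hx
  have h2 : c₀ ≠ 0 := fun e => x.ne (by rw [h1, e, zero_smul])
  obtain ⟨τ', c'⟩ := hY.coc x.t
  let j : Y.T → E.PT := fun u => if h : σ u = 0 then x else
    VB.PT.mk u (c₀ • σ u) ((E.F u).smul_mem _ (hs.mem u)) (smul_ne_zero h2 h)
  have e1 : ∀ u, σ u ≠ 0 → (j u).t = u ∧ (j u).w = c₀ • σ u := fun u hu => by
    simp only [j, dif_neg hu]
    exact ⟨rfl, rfl⟩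
  have h3 : HolAt ι (fun u => (ι (j u).t, (j u).w)) x.t :=
    (HolAt.self.prod (hol_smul (HolAt.const c₀) (hσ _))).congr
      ((hs.cont.continuousAt.eventually_ne h0).mono fun u hu => by
        simp only [(e1 u hu).1, (e1 u hu).2])
  have h4 : ∀ z : E.PT, ∃ u : ℂˣ, z ∈ G → z.w = (u : ℂ) • c₀ • σ z.t := fun z => by
    by_cases hz : z ∈ G
    · obtain ⟨-, c, h5⟩ := (hG z).1 hz
      refine ⟨Units.mk0 (c / c₀) (div_ne_zero (fun e => z.ne (by rw [h5, e, zero_smul])) h2),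
        fun _ => ?_⟩
      rw [Units.val_mk0, smul_smul, div_mul_cancel₀ _ h2, h5]
    · exact ⟨1, fun h => (hz h).elim⟩
  choose u hu using h4
  have h5 : Tendsto (VB.PT.t : E.PT → Y.T) (𝓝[G] x) (𝓝 x.t) :=
    VB.PT.continuous_t.continuousAt.mono_left nhdsWithin_le_nhds
  have h6 : Tendsto u (𝓝[G] x) (𝓝 1) := by
    obtain ⟨l, hl⟩ := SeparatingDual.exists_ne_zero (R := ℂ) x.ne
    have h7 : ContinuousAt (fun z : E.PT => l (c₀ • σ z.t)) x :=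
      (l.continuous.comp ((hs.cont.comp VB.PT.continuous_t).const_smul c₀)).continuousAt
    have h8 : l (c₀ • σ x.t) ≠ 0 := h1 ▸ hl
    have h9 := (((l.continuous.comp VB.PT.continuous_w).continuousAt.div h7 h8).tendsto).mono_left
      (nhdsWithin_le_nhds (s := G))
    rw [Pi.div_apply, comp_apply, ← h1, div_self hl] at h9
    refine Units.isEmbedding_val₀.tendsto_nhds_iff.2 (h9.congr' ?_)
    filter_upwards [self_mem_nhdsWithin, mem_nhdsWithin_of_mem_nhds (h7.eventually_ne h8)]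
      with z a b
    rw [Pi.div_apply, comp_apply, hu z a, map_smul, smul_eq_mul, mul_div_cancel_right₀ _ b]
    rfl
  refine slice (Y := E.PS) c hY.emb.continuous.continuousAt (j := j)
    (hP.emb.isInducing.continuousAt_iff.2 (h3.cont hY.emb.continuous.continuousAt))
    (VB.PT.ext (e1 _ h0).1 ((e1 _ h0).2.trans h1.symm)) h3 (a := fun z : E.PT => (τ' z.t, u z))
    (b := fun z : E.PT => (τ' z.t)⁻¹ • z.t) (((coc_tendsto c').comp h5).prodMk_nhds h6)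
    ((ret_tendsto c').comp h5) ?_ (hd _ τ' c')
  filter_upwards [self_mem_nhdsWithin, h5.eventually (ret_one c')] with z a b
  have h7 := e1 ((τ' z.t)⁻¹ • z.t) (by
    rw [hs.eqv]; exact (smul_ne_zero_iff_ne _).2 ((hG z).1 a).1)
  refine ⟨VB.PT.ext ?_ ?_, b⟩
  · exact (congrArg (τ' z.t • ·) h7.1).trans (smul_inv_smul _ _)
  · refine (VB.PT.smul_w (τ' z.t, u z) _).trans ?_
    rw [h7.2, hs.eqv, ← smul_comm (τ' z.t)⁻¹ c₀, smul_inv_smul, ← hu z a]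

/-- **The exceptional set of the closure of the graph** -/
theorem exc (hC : StClo) (hD : StDrop) (hY : IsAS Y ι)
    (hP : IsAS E.PS fun x : E.PT => (ι x.t, x.w)) (hs : E.IsSec σ) (hσ : ∀ t, HolAt ι σ t)
    (hG : ∀ x, x ∈ G ↔ σ x.t ≠ 0 ∧ ∃ c : ℂ, x.w = c • σ x.t) {m : ℕ} (hd : Dim Y ι (m + 1))
    (D : SubMulAction E.PS.G E.PS.T) (hl : IsLocallyClosed (D : Set E.PS.T))
    (h : ∀ x ∈ D, ∀ᶠ y : E.PT in 𝓝 x, y ∈ D ↔ y ∈ closure G ∧ σ y.t = 0) :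
    (∀ x ∈ D, An ((fun x : E.PT => (ι x.t, x.w)) '' (D : Set E.PS.T)) (ι (VB.PT.t x), VB.PT.w x)) ∧
      Dim (E.PS.sub D hl) (fun s : D => (ι (VB.PT.t s.1), VB.PT.w s.1)) m := by
  have hi := hP.emb.isInducing
  refine ⟨fun x hx => an_img hi (an_zero hi (an_graph hC hP hσ hG x) (hol_t (hσ _))) (h x hx),
    dim_sub hP D hl fun x hx => ?_⟩
  obtain ⟨τ, c⟩ := hP.coc x
  obtain ⟨U, hU, h1⟩ := drop hD hP c (G := G) (fun g y hy => by
    obtain ⟨h1, c, h2⟩ := (hG y).1 hy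
    refine (hG _).2 ⟨?_, g.2 * c, ?_⟩
    · exact fun e => h1 ((smul_eq_zero_iff_eq g.1).1 ((hs.eqv g.1 _).symm.trans e))
    · refine (VB.PT.smul_w g y).trans ?_
      rw [h2, smul_comm g.1 c, ← hs.eqv, mul_smul]
      rfl) (an_graph hC hP hσ hG x) (hol_t (hσ _)) (fun y hy => ((hG y).1 hy).1)
    (fun y => mem_of_closure hs.cont hG) (k := 2 * m)
    fun y hy τ c => slice_graph hY hP hs hσ hG hd hy c
  refine ⟨τ, c, _, inter_mem hU (h x hx), h1.mono (image_mono ?_)⟩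
  exact fun y hy => ⟨hy.1.1, hy.1.2.1 hy.2.1, hy.2.2⟩

end graph

end Vale.Agent.P287Q.H3.CnA
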