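import Vale.Agent.P287Q.H3.ChD
import Vale.Agent.P287Q.H3.Alg
import Vale.Agent.P287Q.G.Bas.NumB

set_option linter.all false

/-!
# Correlators of unbalanced Hodge type vanish
-/

namespace Vale.Agent.P287Q.H3

open Set Function Topology Filter P291Z P269 P269.Ch P269.Holo P269.Mono P269.Orb Module

variable {S Λ R J K ν₁ ν₃ : Type} [Fintype S] [Fintype Λ] [Fintype R] [Fintype J] [Fintype K]
  [Fintype ν₁] [Fintype ν₃] [DecidableEq R] {F : Fam S Λ R J K} {k : ℕ} {e : F.Ex} {δ₀ : J → ℕ}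
  {A A' : Set ((Λ → ℂ) × (J → ℂ))} {p₀ q₀ : ℕ} (hH : StHdg) (h : F.CorOk k e δ₀ A A')
  (hΘ : e.Θ = 1) (hc : Ty (Subtype.val : e.B → _) (Quo.mk F.actL) p₀ q₀ e.c) (d : R → ℤ)
include hH h hΘ hc

theorem corL_hdg {κ : Type} [Fintype κ] [IsEmpty κ] (g : ℤ) (t : ν₃ → ℕ)
    (M₁ : List ((ℕ × ℕ) × ν₁ × ℕ × H (F.X A))) (M₃ : List ((ℕ × ℕ) × ν₃ × ℕ × H (F.X A')))
    (h₁ : ∀ x ∈ M₁, Ty (Subtype.val : A → _) (Quo.mk F.actT) x.1.1 x.1.2 x.2.2.2)
    (h₃ : ∀ x ∈ M₃, Ty (Subtype.val : A' → _) (Quo.mk F.actT) x.1.1 x.1.2 x.2.2.2)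
    (hn : p₀ + (M₁.map (·.1.1)).sum + (M₃.map (·.1.1)).sum ≠
      q₀ + (M₁.map (·.1.2)).sum + (M₃.map (·.1.2)).sum) :
    F.corL k e δ₀ A A' d g t (M₁.map Prod.snd) ([] : List (κ × ℕ × ℕ)) (M₃.map Prod.snd) = 0 := by
  let T : List (Fac F.toWt (ν₁ ⊕ ν₃) κ × ℕ × ℕ) := (.tw e.Θ, 0, 0) :: (.par e.B e.c, p₀, q₀) ::
    ((M₁.map fun x => List.replicate x.2.2.1 (.psi (.inl (.inl x.2.1)), 1, 1) ++
      [(.ev (.inl (.inl x.2.1)) A x.2.2.2, x.1)]).flatten ++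
    M₃.map fun x => (.ev (.inl (.inr x.2.1)) A' x.2.2.2, x.1))
  have a : F.fsW e A A' (M₁.map Prod.snd) ([] : List (κ × ℕ × ℕ)) (M₃.map Prod.snd) =
      T.map Prod.fst := by
    simp [T, Wt.fsW, List.map_flatten, comp_def]
  have b := h.iv d g t (M₁.map Prod.snd) (M₂ := ([] : List (κ × ℕ × ℕ)))
    ⟨List.nodup_nil, fun n => isEmptyElim n⟩ (M₃.map Prod.snd)
  rw [a] at b
  rw [Fam.corL, a]
  refine hH F δ₀ k g d _ _ T b ?_ fun c => hn ?_
  · simp only [T, List.forall_mem_cons, List.forall_mem_append, List.mem_flatten, List.mem_map,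
      forall_exists_index, and_imp]
    refine ⟨⟨hΘ, rfl, rfl⟩, hc, ?_, ?_⟩
    · rintro _ _ x hx rfl hy
      rcases List.mem_append.1 hy with hy | hy
      · rw [List.eq_of_mem_replicate hy]
        exact ⟨rfl, rfl⟩
      · rw [List.mem_singleton.1 hy]
        exact h₁ x hx
    · rintro _ x hx rfl
      exact h₃ x hx
  · simp only [T, List.map_cons, List.map_append, List.map_flatten, List.map_map, List.sum_cons,
      List.sum_append, List.sum_flatten, comp_def, List.map_replicate, List.sum_replicate,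
      List.map_nil, List.sum_nil, add_zero, List.sum_map_add] at c
    omega

/-- **correlators of unbalanced type vanish** -/
theorem cor_hdg (j : ℤ) (l₁ : List ((ℕ × ℕ) × ℕ × H (F.X A)))
    (l₃ : List ((ℕ × ℕ) × ℕ × H (F.X A')))
    (h₁ : ∀ x ∈ l₁, Ty (Subtype.val : A → _) (Quo.mk F.actT) x.1.1 x.1.2 x.2.2)
    (h₃ : ∀ x ∈ l₃, Ty (Subtype.val : A' → _) (Quo.mk F.actT) x.1.1 x.1.2 x.2.2)
    (hn : p₀ + (l₁.map (·.1.1)).sum + (l₃.map (·.1.1)).sum ≠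
      q₀ + (l₁.map (·.1.2)).sum + (l₃.map (·.1.2)).sum) :
    F.cor k e δ₀ A A' d j (l₁.map Prod.snd) [] (l₃.map Prod.snd) = 0 := by
  have a : ∀ {α β : Type} (f : α → β) (l : List α),
      (List.ofFn fun i => f (l.get i)) = l.map f := fun f l =>
    ((congrArg _ (List.ofFn_get l).symm).trans List.map_ofFn).symm
  have := corL_hdg hH h hΘ hc d (κ := Fin 0)
    (j + 1 - ([] : List (ℕ × ℕ)).length) (fun s => (l₃.get s).2.1)
    (.ofFn fun i => ((l₁.get i).1, i, (l₁.get i).2)) (.ofFn fun i => ((l₃.get i).1, i, (l₃.get i).2))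
    (List.forall_mem_ofFn_iff.2 fun i => h₁ _ (l₁.get_mem i))
    (List.forall_mem_ofFn_iff.2 fun i => h₃ _ (l₃.get_mem i)) (by
      simp only [List.map_ofFn, comp_def]
      exact fun c => hn (by rwa [← a _ l₁, ← a _ l₁, ← a _ l₃, ← a _ l₃]))
  rw [Fam.cor_map, Fam.corF, Wt.fsC_eq_fsW]
  rw [List.map_ofFn, List.map_ofFn] at this
  exact this

end Vale.Agent.P287Q.H3
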