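import Vale.Agent.P287Q.Mf.Defs
import Vale.Agent.P269.Orb.Vir3
import Vale.Agent.P269.Orb.Dim2
import Vale.Agent.P269.Holo.Set2

/-!
# Analytic orbispaces and Hodge types on them (definitions)
-/

namespace Vale.Agent.P287Q.H3

open Set Function Topology Filter P291Z P269 P269.Ch P269.Holo P269.Mono
open scoped Manifold ContDiff

variable {A A' : Type} [NormedAddCommGroup A] [NormedSpace ℂ A] [NormedAddCommGroup A']
  [NormedSpace ℂ A']

/-- Near `a` the set `S` is the zero set of finitely many analytic functions. -/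
def An (S : Set A) (a : A) : Prop :=
  ∃ (k : ℕ) (h : A → Fin k → ℂ), AnalyticAt ℂ h a ∧ ∀ᶠ z in 𝓝 a, z ∈ S ↔ h z = 0

/-- The points at which `S` is a manifold of dimension `j`. -/
def Reg (S : Set A) (j : ℕ) : Set A := {x | MfdAt S j x}

/-- A compact complex manifold. -/
structure CM where
  /-- the dimension -/
  n : ℕ
  /-- the points -/
  M : Type
  [top : TopologicalSpace M]
  [t2 : T2Space M]
  [cpt : CompactSpace M]
  [cs : ChartedSpace (Fin n → ℂ) M]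
  [mf : IsManifold 𝓘(ℂ, Fin n → ℂ) ω M]

attribute [instance] CM.top CM.t2 CM.cpt CM.cs CM.mf

/-- The function `f` on a manifold is holomorphic at `y`. -/
def CM.An (M : CM) (f : M.M → ℂ) (y : M.M) : Prop :=
  AnalyticAt ℂ (fun z => f ((chartAt (Fin M.n → ℂ) y).symm z)) (chartAt (Fin M.n → ℂ) y y)

section quo

variable {T X : Type} [TopologicalSpace T] [TopologicalSpace X]

/-- The function `f` on the quotient is holomorphic at `x`. -/
def HolQ (ι : T → A) (π : T → X) (f : X → ℂ) (x : X) : Prop :=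
  ∀ t, π t = x → HolAt ι (fun s => f (π s)) t

/-- The map `φ` from a manifold to the quotient is holomorphic. -/
def HolM (ι : T → A) (π : T → X) (M : CM) (φ : M.M → X) : Prop :=
  ∀ y f, HolQ ι π f (φ y) → M.An (fun z => f (φ z)) y

/-- The class `c` has type `(p, q)`: so has its pull-back to every compact complex manifold. -/
def Ty (ι : T → A) (π : T → X) (p q : ℕ) (c : H X) : Prop :=
  H.IsDeg (p + q : ℕ) c ∧
    ∀ (M : CM) (φ : C(M.M, X)), HolM ι π M φ → Mf.IsHg M.n p q (H.map φ c)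

end quo

/-- `τ` is a holomorphic local trivialisation of the action at `t`. -/
structure Coc (Y : Ch.Sp) (ι : Y.T → A) (τ : Y.T → Y.G) (t : Y.T) : Prop where
  one : τ t = 1
  cont : ∀ᶠ s in 𝓝 t, ContinuousAt τ s
  eqv : ∀ᶠ p : Y.G × Y.T in 𝓝 (1, t), τ (p.1 • p.2) = p.1 * τ p.2
  hol : HolAt ι (fun s => ι ((τ s)⁻¹ • s)) t

/-- The coordinates `ι` make `Y` an analytic orbispace. -/
structure IsAS (Y : Ch.Sp) (ι : Y.T → A) : Prop where
  fd : FiniteDimensional ℂ A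
  emb : IsEmbedding ι
  an : ∀ t, An (range ι) (ι t)
  act : ∀ (g : Y.G) t, HolAt ι (fun s => ι (g • s)) t
  coc : ∀ t, ∃ τ, Coc Y ι τ t

/-- The orbispace has dimension at most `m`. -/
def Dim (Y : Ch.Sp) (ι : Y.T → A) (m : ℕ) : Prop :=
  ∀ t τ, Coc Y ι τ t → ∃ U ∈ 𝓝 t, Small (2 * m) (ι '' (U ∩ {s | τ s = 1}))

/-- A holomorphic morphism. -/
def HM {Y' Y : Ch.Sp} (h : Mor Y' Y) (ι' : Y'.T → A') (ι : Y.T → A) : Prop :=
  ∀ t, HolAt ι' (fun s => ι (h.f s)) t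

/-- A holomorphic frame which is equivariant near `t`. -/
structure Frm {Y : Ch.Sp} (E : VB Y) (ι : Y.T → A) (ψ : Y.T → (Fin E.r → ℂ) →L[ℂ] E.W)
    (t : Y.T) : Prop where
  hol : HolAt ι ψ t
  rng : ∀ᶠ s in 𝓝 t, ∀ w, w ∈ E.F s ↔ w ∈ range (ψ s)
  eqv : ∀ᶠ p : Y.G × Y.T in 𝓝 (1, t), ∀ a, ψ (p.1 • p.2) a = p.1 • ψ p.2 a

/-- A holomorphic vector bundle. -/
def HV {Y : Ch.Sp} (E : VB Y) (ι : Y.T → A) : Prop := ∀ t, ∃ ψ, Frm E ι ψ t

/-- Types which cannot occur in dimension `m`. -/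
def Big (m p q : ℕ) : Prop := 2 * m ≤ p + q ∧ (m < p ∨ m < q)

/-- The class `ζ` has weakly type `(p, q)`. -/
def Wk (Y : Ch.Sp) (ι : Y.T → A) (p q : ℕ) (ζ : H Y.X) : Prop :=
  H.IsDeg (p + q : ℕ) ζ ∧
    ∀ (Y' : Ch.Sp) [CompactSpace Y'.X] (B : Type) [NormedAddCommGroup B] [NormedSpace ℂ B]
      (ι' : Y'.T → B) (h : Mor Y' Y) (m p' q' : ℕ) (β : H Y'.X), IsAS Y' ι' → Dim Y' ι' m →
      HM h ι' ι → Ty ι' Y'.π p' q' β → Big m (p + p') (q + q') → H.map h.map ζ * β = 0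

/-- Multiplication by `η` raises weak types by `(k, k)`. -/
def Good (Y : Ch.Sp) (ι : Y.T → A) (k : ℕ) (η : Hev Y.X) : Prop :=
  η ∈ Hev.deg Y.X k ∧ ∀ p q ζ, Wk Y ι p q ζ → Wk Y ι (p + k) (q + k) (η.1 * ζ)

/-- A monic polynomial of degree `r` whose coefficients are good. -/
def GoodP (Y : Ch.Sp) (ι : Y.T → A) (r : ℕ) (P : Polynomial (Hev Y.X)) : Prop :=
  Mon r P ∧ ∀ j k, j + k = r → Good Y ι k (P.coeff j)

end Vale.Agent.P287Q.H3
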