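import Vale.Agent.P287Q.H3.Defs
import Vale.Agent.P277.Defs
import Vale.Agent.P269.Loc.Lam

/-!
# Hodge types of virtual classes: the statements
-/

namespace Vale.Agent.P287Q.H3

open Set Function Topology Filter P291Z P269 P269.Ch P269.Holo P269.Mono P269.Orb
open scoped Manifold ContDiff

/-! ### Hodge types on compact complex manifolds -/

/-- Types are additive for products. -/
def StMul : Prop := ∀ (M : CM) (p q p' q' : ℕ) (a b : H M.M), Mf.IsHg M.n p q a →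
  Mf.IsHg M.n p' q' b → Mf.IsHg M.n (p + p') (q + q') (a * b)

/-- The classes of a given type form a subspace. -/
def StLin : Prop := ∀ (M : CM) (p q : ℕ) (z : ℂ) (a b : H M.M), Mf.IsHg M.n p q a →
  Mf.IsHg M.n p q b → Mf.IsHg M.n p q (z • a + b)

/-- Classes of degree `0` have type `(0, 0)`, and `0` has every type. -/
def StZero : Prop := ∀ (M : CM), (∀ a : H M.M, H.IsDeg 0 a → Mf.IsHg M.n 0 0 a) ∧
  ∀ p q, Mf.IsHg M.n p q (0 : H M.M)

/-- Types beyond the dimension vanish. -/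
def StVan : Prop := ∀ (M : CM) (p q : ℕ) (a : H M.M), Mf.IsHg M.n p q a → M.n < p ∨ M.n < q → a = 0

/-- Holomorphic maps preserve types. -/
def StPull : Prop := ∀ (M N : CM) (f : C(M.M, N.M)) (p q : ℕ) (a : H N.M), Mf.Hol M.n N.n f →
  Mf.IsHg N.n p q a → Mf.IsHg M.n p q (H.map f a)

/-- The first Chern class of a line bundle with holomorphic transition functions. -/
def StLB : Prop := ∀ (M : CM) (Y : Ch.Sp) (φ : C(M.M, Y.X)) (χ : Y.G →ₜ* ℂˣ) (I : Type)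
  (O : I → Set Y.X) (u : I → Y.T → ℂ), (∀ i, IsOpen (O i)) → (∀ y, ∃ i, φ y ∈ O i) →
  (∀ i t, Y.π t ∈ O i → ContinuousAt (u i) t ∧ u i t ≠ 0 ∧ ∀ g, u i (g • t) = χ g * u i t) →
  (∀ i j y, φ y ∈ O i → φ y ∈ O j → M.An (fun z => u i (Y.out (φ z)) / u j (Y.out (φ z))) y) →
  Mf.IsHg M.n 1 1 (H.map φ (c1 χ).1)

/-! ### Local analytic geometry -/

/-- a monic polynomial with given lower coefficients -/
noncomputable def mp {N : ℕ} (a : Fin N → ℂ) (x : ℂ) : ℂ := x ^ N + ∑ j, a j * x ^ (j : ℕ)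

/-- Hermite interpolation with parameters. -/
def StHerm : Prop := ∀ (E : Type) [NormedAddCommGroup E] [NormedSpace ℂ E] [FiniteDimensional ℂ E]
  (n N : ℕ) (a : E → Fin n → Fin N → ℂ) (y₀ : E) (F : (Fin n → ℂ) × E → ℂ), AnalyticAt ℂ a y₀ →
  (∀ x : Fin n → ℂ, (∀ i, mp (a y₀ i) (x i) = 0) → AnalyticAt ℂ F (x, y₀)) →
  ∃ c : E → (Fin n → Fin N) → ℂ, AnalyticAt ℂ c y₀ ∧ ∀ᶠ y in 𝓝 y₀, ∀ x : Fin n → ℂ,
    (∀ i, mp (a y i) (x i) = 0) → F (x, y) = ∑ α, c y α * ∏ i, x i ^ (α i : ℕ)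

/-- Finite projections of analytic sets. -/
def StFin : Prop := ∀ (E : Type) [NormedAddCommGroup E] [NormedSpace ℂ E] [FiniteDimensional ℂ E]
  (n N : ℕ) (a : E → Fin n → Fin N → ℂ) (y₀ : E) (B : Set ((Fin n → ℂ) × E)), AnalyticAt ℂ a y₀ →
  (∀ z ∈ B, ∀ i, mp (a z.2 i) (z.1 i) = 0) →
  (∀ x : Fin n → ℂ, (∀ i, mp (a y₀ i) (x i) = 0) → An B (x, y₀)) → An (Prod.snd '' B) y₀

/-- Closures of differences of analytic sets. -/
def StClo : Prop := ∀ (E : Type) [NormedAddCommGroup E] [NormedSpace ℂ E] [FiniteDimensional ℂ E]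
  (S B : Set E) (a : E), An S a → An B a → An (closure (S \ B)) a

/-- The regular points are dense, the other points form an analytic set. -/
def StReg : Prop := ∀ (E : Type) [NormedAddCommGroup E] [NormedSpace ℂ E] [FiniteDimensional ℂ E]
  (S : Set E) (a : E), An S a →
  (∀ᶠ x in 𝓝 a, x ∈ S → x ∈ closure (⋃ j ≤ Module.finrank ℂ E, Reg S j)) ∧ ∀ j, An (S \ Reg S j) a

/-- Nowhere dense analytic subsets have smaller dimension. -/
def StDrop : Prop := ∀ (E : Type) [NormedAddCommGroup E] [NormedSpace ℂ E] [FiniteDimensional ℂ E]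
  (S B : Set E) (a : E) (k : ℕ), An S a → An B a → (∀ᶠ x in 𝓝 a, x ∈ B → x ∈ closure (S \ B)) →
  (∃ U ∈ 𝓝 a, Small (k + 2) (U ∩ (S \ B))) → ∃ U ∈ 𝓝 a, Small k (U ∩ B)

/-- The complement of the regular points of top dimension has smaller dimension. -/
def StTop : Prop := ∀ (E : Type) [NormedAddCommGroup E] [NormedSpace ℂ E] [FiniteDimensional ℂ E]
  (S : Set E) (a : E) (m : ℕ), An S a → (∃ U ∈ 𝓝 a, Small (2 * (m + 1)) (U ∩ S)) →
  ∃ U ∈ 𝓝 a, Small (2 * m) (U ∩ (S \ Reg S (m + 1)))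

/-! ### Complex spaces and resolutions -/

section csp

variable {X : Type} [TopologicalSpace X]

/-- `X` has local models; the images of the models satisfy `P`. -/
def Mdl (Hol : (X → ℂ) → X → Prop) (P : ∀ N, Set (Fin N → ℂ) → Prop) : Prop :=
  ∀ x, ∃ (N k : ℕ) (V : Set X) (Ω : Set (Fin N → ℂ)) (h : Fin k → (Fin N → ℂ) → ℂ)
    (φ : X → Fin N → ℂ), x ∈ V ∧ P277.IsModel Hol V Ω h φ ∧ P N (φ '' V)

/-- The points at which `X` is a manifold of dimension `n`. -/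
def RegX (Hol : (X → ℂ) → X → Prop) (n : ℕ) : Set X :=
  {x | ∃ (V : Set X) (Ω : Set (Fin n → ℂ)) (h : Fin 0 → (Fin n → ℂ) → ℂ) (φ : X → Fin n → ℂ),
    x ∈ V ∧ P277.IsModel Hol V Ω h φ}

/-- A resolution of the part of dimension `n` over a neighbourhood of `K`. -/
structure Rs (Hol : (X → ℂ) → X → Prop) (n : ℕ) (K : Set X) where
  /-- the neighbourhood -/
  O : Set X
  isOpen : IsOpen O
  sub : K ⊆ O
  /-- the manifold -/
  Y : Type
  [top : TopologicalSpace Y]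
  [t2 : T2Space Y]
  [sc : SecondCountableTopology Y]
  [cs : ChartedSpace (Fin n → ℂ) Y]
  [mf : IsManifold 𝓘(ℂ, Fin n → ℂ) ω Y]
  /-- the map -/
  π : Y → X
  cont : Continuous π
  rng : range π = O ∩ closure (RegX Hol n)
  proper : ∀ L ⊆ O, IsCompact L → IsCompact (π ⁻¹' L)
  hol : ∀ y g, Hol g (π y) →
    AnalyticAt ℂ (fun z => g (π ((chartAt (Fin n → ℂ) y).symm z))) (chartAt (Fin n → ℂ) y y)
  one : ∀ y y', π y ∈ RegX Hol n → π y' = π y → y' = y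
  opn : ∀ y, π y ∈ RegX Hol n → 𝓝 (π y) ≤ map π (𝓝 y)
  snc : ∀ y, ∀ y' ∈ (chartAt (Fin n → ℂ) y).source, π y' ∉ RegX Hol n →
    ∃ i, chartAt (Fin n → ℂ) y y' i = 0

attribute [instance] Rs.top Rs.t2 Rs.sc Rs.cs Rs.mf

end csp

/-- Regular points in a model. -/
def StRegX : Prop := ∀ (X : Type) [TopologicalSpace X] (Hol : (X → ℂ) → X → Prop) (N k n : ℕ)
  (V : Set X) (Ω : Set (Fin N → ℂ)) (h : Fin k → (Fin N → ℂ) → ℂ) (φ : X → Fin N → ℂ),
  P277.IsModel Hol V Ω h φ → ∀ x ∈ V, x ∈ RegX Hol n ↔ φ x ∈ Reg (φ '' V) n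

/-- Resolution of singularities. -/
def StHir : Prop := ∀ (X : Type) [TopologicalSpace X] [T2Space X] [LocallyCompactSpace X]
  (Hol : (X → ℂ) → X → Prop) (n : ℕ) (K : Set X), Mdl Hol (fun _ _ => True) → 1 ≤ n →
  IsCompact K → Nonempty (Rs Hol n K)

/-- Modifications are injective on the cohomology of top degree. -/
def StInj : Prop := ∀ (X M : Type) [TopologicalSpace X] [TopologicalSpace M] [Nice X] [Nice M]
  [CompactSpace X] [CompactSpace M] (φ : C(M, X)) (B : Set X) (k : ℤ), IsClosed B →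
  CD (k - 1) B → CD (k - 2) (φ ⁻¹' B) → InjOn φ (φ ⁻¹' Bᶜ) → Bᶜ ⊆ range φ →
  ∀ c : H X, H.IsDeg k c → H.map φ c = 0 → c = 0

/-- Resolutions of compact complex spaces detect the classes of top degree. -/
def StResC : Prop := ∀ (X : Type) [TopologicalSpace X] [Nice X] [CompactSpace X]
  (Hol : (X → ℂ) → X → Prop) (m : ℕ), Mdl Hol (fun _ S => Small (2 * (m + 1)) S) →
  ∃ (M : CM) (φ : C(M.M, X)), M.n = m + 1 ∧ (∀ y f, Hol f (φ y) → M.An (fun z => f (φ z)) y) ∧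
    ∀ c : H X, H.IsDeg (2 * (m + 1 : ℕ)) c → H.map φ c = 0 → c = 0

/-! ### Orbispaces -/

/-- a property of all analytic orbispaces -/
def AllAS (P : ∀ (Y : Ch.Sp) (A : Type) [NormedAddCommGroup A] [NormedSpace ℂ A],
    (Y.T → A) → Prop) : Prop :=
  ∀ (Y : Ch.Sp) (A : Type) [NormedAddCommGroup A] [NormedSpace ℂ A] (ι : Y.T → A),
    IsAS Y ι → P Y A ι

/-- The quotient is a complex space. -/
def StQuot : Prop := AllAS fun Y _ _ _ ι =>
  ∀ m, Dim Y ι m → Mdl (HolQ ι Y.π) fun _ S => Small (2 * m) S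

/-- First Chern classes of holomorphic characters. -/
def StC1 : Prop := AllAS fun Y _ _ _ ι =>
  ∀ χ : Y.G →ₜ* ℂˣ, HV (char χ) ι → Ty ι Y.π 1 1 (c1 χ).1

/-- Projective bundles. -/
def StPS : Prop := AllAS fun Y _ _ _ ι => ∀ E : VB Y, HV E ι →
  IsAS E.PS (fun x : E.PT => (ι x.t, x.w)) ∧ HM E.pp (fun x : E.PT => (ι x.t, x.w)) ι ∧
    HV (char E.o1) (fun x : E.PT => (ι x.t, x.w)) ∧
    ∀ m r, Dim Y ι m → E.r = r + 1 → Dim E.PS (fun x : E.PT => (ι x.t, x.w)) (m + r)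

/-- Total spaces. -/
def StTot : Prop := AllAS fun Y _ _ _ ι => ∀ E : VB Y, HV E ι →
  IsAS E.tot (fun x : E.V => (ι x.1.1, x.1.2)) ∧ HM E.proj (fun x : E.V => (ι x.1.1, x.1.2)) ι ∧
    ∀ m, Dim Y ι m → Dim E.tot (fun x : E.V => (ι x.1.1, x.1.2)) (m + E.r)

/-- Invariant analytic subsets. -/
def StSub : Prop := AllAS fun Y _ _ _ ι => ∀ (S : SubMulAction Y.G Y.T)
  (hS : IsLocallyClosed (S : Set Y.T)), (∀ t ∈ S, An (ι '' S) (ι t)) →
  IsAS (Y.sub S hS) (fun s : S => ι s) ∧ ∀ m, Dim Y ι m → Dim (Y.sub S hS) (fun s : S => ι s) m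

/-- Nowhere dense invariant analytic subsets. -/
def StDropA : Prop := AllAS fun Y _ _ _ ι => ∀ (S : SubMulAction Y.G Y.T)
  (hS : IsLocallyClosed (S : Set Y.T)) (m : ℕ), (∀ t ∈ S, An (ι '' S) (ι t)) →
  (S : Set Y.T) ⊆ closure (S : Set Y.T)ᶜ →
  (∀ t ∈ S, ∃ τ, Coc Y ι τ t ∧ ∃ U ∈ 𝓝 t, Small (2 * (m + 1)) (ι '' ((U \ S) ∩ {s | τ s = 1}))) →
  Dim (Y.sub S hS) (fun s : S => ι s) m

/-- Types are weak types. -/
def StWk : Prop := AllAS fun Y _ _ _ ι => ∀ p q c, Ty ι Y.π p q c → Wk Y ι p q c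

/-- Chern classes of holomorphic bundles. -/
def StChern : Prop := AllAS fun Y _ _ _ ι => ∀ E : VB Y, HV E ι → GoodP Y ι E.r E.chern

/-- Quotients of good polynomials. -/
def StDiv : Prop := AllAS fun Y _ _ _ ι => ∀ r s P Q, GoodP Y ι (r + s) (P * Q) → GoodP Y ι r P →
  Mon s Q → (∀ j k : ℕ, j + k = s → Q.coeff j ∈ Hev.deg Y.X k) → GoodP Y ι s Q

/-- **Virtual classes of holomorphic Kuranishi presentations have Hodge type.** -/
def StCone : Prop := AllAS fun Y _ _ _ ι => ∀ (d : ℕ) (k : KP Y) (S : SubMulAction Y.G Y.T)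
  (hS : IsLocallyClosed (S : Set Y.T)) (hZ : ∀ t, (Y.subI S hS).f t ∈ k.Zs)
  [CompactSpace (Y.sub S hS).X] (β : BM Y.X) (p q : ℕ) (η : H (Y.sub S hS).X), Dim Y ι d →
  HV k.P ι → HV k.vanB ι → (∀ t, HolAt ι k.s t) → k.IsZ (Y.subI S hS).map →
  HV (k.obsB (Y.subI S hS) hZ) (fun s : S => ι s) → BM.IsDeg (2 * d) β →
  Wk (Y.sub S hS) (fun s : S => ι s) p q η → p ≠ q →
  Loc.intg (k.vir (Y.subI S hS).map β) η = 0

end Vale.Agent.P287Q.H3
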